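import Crest.Agent.N76.L.Cnt

/-! # Row 76, Part I: the elementary facts, part 1 (`Bas1`, helper28). -/

set_option autoImplicit false

open Finset Metric
open scoped RealInnerProductSpace

namespace Crest.Agent.N76.L

open Crest.Agent.N76.Red (V)
open Crest.Agent.N76.G

variable {n M : ℕ}

/-- subadditivity of the mass -/
theorem ms_le_sum {ι α κ : Type*} {X : Finset ι} {p : ι → α} {w : ι → ℝ} (hw : ∀ z ∈ X, 0 ≤ w z)
    {E : Set α} (I : Finset κ) (F : κ → Set α) (h : ∀ z ∈ X, p z ∈ E → ∃ m ∈ I, p z ∈ F m) :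
    ms X p w E ≤ ∑ m ∈ I, ms X p w (F m) := by
  classical
  simp only [ms, sum_filter]
  rw [sum_comm]
  refine sum_le_sum fun z hz => ?_
  have h0 : ∀ m ∈ I, 0 ≤ if p z ∈ F m then w z else 0 := fun m _ => by
    split_ifs
    exacts [hw z hz, le_rfl]
  split_ifs with hE
  · obtain ⟨m, hm, hF⟩ := h z hz hE
    exact le_trans (by rw [if_pos hF]) (single_le_sum h0 hm)
  · exact sum_nonneg h0

namespace Tw

variable {T : Tw n M}

theorem Std.k_pos (hT : T.Std) : 1 ≤ T.k := by have := hT.k_ge; omega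

theorem Std.one_le_rho (hT : T.Std) : 1 ≤ T.Λ * ((M : ℝ) + 1) :=
  one_le_mul_of_one_le_of_one_le (by linarith [hT.Λ_ge.1])
    (by linarith [(Nat.cast_nonneg M : (0 : ℝ) ≤ M)])

theorem Std.rho_le (hT : T.Std) : 3 * (T.Λ * ((M : ℝ) + 1)) ≤ T.Λ ^ 2 := by
  obtain ⟨h1, -, h2, -⟩ := hT.Λ_ge
  nlinarith [(Nat.cast_nonneg M : (0 : ℝ) ≤ M)]

theorem Std.rho_pow (hT : T.Std) :
    (3 * (T.Λ * ((M : ℝ) + 1))) ^ n * (3 * (T.Λ * ((M : ℝ) + 1))) ^ n ≤ T.Λ ^ (4 * n) := by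
  have h1 := hT.one_le_rho
  have h2 : (3 * (T.Λ * ((M : ℝ) + 1))) ^ n ≤ (T.Λ ^ 2) ^ n := by gcongr; exact hT.rho_le
  calc _ ≤ (T.Λ ^ 2) ^ n * (T.Λ ^ 2) ^ n := by gcongr
    _ = _ := by ring

theorem Std.gap_le (hT : T.Std) {i j : ℕ} (hj : j ≤ M) :
    T.Λ * ((j : ℝ) - i) ≤ T.Λ * ((M : ℝ) + 1) := by
  have h1 : (j : ℝ) ≤ M := by exact_mod_cast hj
  have h2 := hT.Λ_ge.1
  gcongr
  linarith [(Nat.cast_nonneg i : (0 : ℝ) ≤ i)]

theorem Std.trans (hT : T.Std) {i j l : ℕ} (hij : i ≤ j) (hjl : j ≤ l) (hl : l ≤ M)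
    {c c' c'' : Nd n} (h : Nr T.k T.Λ i j c c') (h' : Nr T.k T.Λ j l c' c'') :
    Nr T.k T.Λ i l c c'' :=
  h.trans (by linarith [hT.Λ_ge.1]) hij hjl (by have := hT.k_ge; omega) h'

theorem mm_sup (hT : T.Std) {i j l : ℕ} (hij : i ≤ j) (hjl : j ≤ l) (hl : l ≤ M) :
    T.mm i j * T.mm j l ≤ T.Λ ^ (4 * n + 1) * T.mm i l := by
  classical
  obtain ⟨c, hc⟩ := T.al_nonempty (hij.trans (hjl.trans hl))
  have hK : (0 : ℝ) < (T.k : ℝ) ^ j := by have := hT.k_pos; positivity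
  have hΛ := hT.Λ_ge.1
  have h := card_nsmul_le_card_nsmul (fun c' c'' => Nr T.k T.Λ j l c' c'') (s := T.nr i j c)
    (t := T.nr i l c) (m := T.mm j l) (n := T.Λ ^ (4 * n)) (fun c' hc' => ?_) (fun c'' hc'' => ?_)
  · rw [nsmul_eq_mul, nsmul_eq_mul] at h
    have h1 := (T.mmc i j hij (hjl.trans hl) c hc).1
    have h2 := (T.mmc i l (hij.trans hjl) hl c hc).2
    have h3 := T.mm1 j l
    calc _ ≤ (T.nr i j c).card * T.mm j l := by gcongr; exact h1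
      _ ≤ (T.nr i l c).card * T.Λ ^ (4 * n) := h
      _ ≤ T.Λ * T.mm i l * T.Λ ^ (4 * n) := by gcongr; exact h2
      _ = _ := by ring
  · obtain ⟨h1, h2⟩ := T.mem_nr.1 hc'
    refine (T.mmc j l hjl hl c' h1).1.trans (Nat.cast_le.2 (card_le_card fun c'' h3 => ?_))
    obtain ⟨h4, h5⟩ := T.mem_nr.1 h3
    exact (mem_bipartiteAbove _).2 ⟨T.mem_nr.2 ⟨h4, hT.trans hij hjl hl h2 h5⟩, h5⟩
  · refine (card_nd hT.k_pos j _ (c.1 / (T.k : ℤ) ^ (2 * (j - i))) (fq T.k l c'') (ctr T.k i c)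
      (tm T.k i c) hT.one_le_rho hT.one_le_rho fun c' h1 => ?_).trans hT.rho_pow
    obtain ⟨h2, h3⟩ := (mem_bipartiteBelow _).1 h1
    obtain ⟨-, h4⟩ := T.mem_nr.1 h2
    refine ⟨h4.1, ?_, h4.2.2.trans ?_⟩
    · rw [norm_sub_rev]
      exact h3.2.1.trans (div_le_div_of_nonneg_right (hT.gap_le hl) hK.le)
    · exact mul_le_mul_of_nonneg_right (hT.gap_le (hjl.trans hl)) hK.le

theorem pow_div_pow_eq (T : Tw n M) {i j : ℕ} (hij : i ≤ j) :
    (T.k : ℝ) ^ j = (T.k : ℝ) ^ (j - i) * (T.k : ℝ) ^ i := by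
  rw [← pow_add, Nat.sub_add_cancel hij]

theorem mm_nar (hT : T.Std) {i j κ : ℕ} (hij : i ≤ j) (hj : j ≤ M) (hκ : κ ≤ n)
    (h : T.Nar i j κ) : T.mm i j ≤ T.Λ ^ (5 * n) * (T.k : ℝ) ^ (κ * (j - i)) := by
  classical
  obtain ⟨c, hc⟩ := T.al_nonempty (hij.trans hj)
  obtain ⟨O, ζ₀, hO⟩ := h c hc
  have hk : (1 : ℝ) ≤ T.k := by exact_mod_cast hT.k_pos
  have hK : (0 : ℝ) < (T.k : ℝ) ^ j := by positivity
  have hKi : (0 : ℝ) < (T.k : ℝ) ^ i := by positivity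
  have hKji : (1 : ℝ) ≤ (T.k : ℝ) ^ (j - i) := one_le_pow₀ hk
  obtain ⟨hΛ, hΛn, -, -⟩ := hT.Λ_ge
  have hρ := hT.one_le_rho
  have hiv : ∀ c' : Nd n, iv c'.2.2 = (T.k : ℝ) ^ j • fq T.k j c' := fun c' => by
    rw [fq, smul_inv_smul₀ hK.ne']
  have h1 := card_slab ((T.nr i j c).image fun c' => c'.2.2) O hκ ((T.k : ℝ) ^ j • ζ₀)
    ((T.k : ℝ) ^ j • fq T.k i c) (ρ := T.Λ * ((M : ℝ) + 1) * (T.k : ℝ) ^ (j - i)) (w := T.Λ ^ 2)
    (one_le_mul_of_one_le_of_one_le hρ hKji) (by nlinarith) fun p hp => by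
      obtain ⟨c', hc', rfl⟩ := mem_image.1 hp
      obtain ⟨h1, h2⟩ := T.mem_nr.1 hc'
      refine ⟨fun l _ => (abs_inner_le_norm O l _).trans ?_, fun l hl => ?_⟩
      · rw [hiv, ← smul_sub, norm_smul, Real.norm_of_nonneg hK.le]
        calc _ ≤ (T.k : ℝ) ^ j * (T.Λ * ((M : ℝ) + 1) / (T.k : ℝ) ^ i) := by
              gcongr
              exact h2.2.1.trans (div_le_div_of_nonneg_right (hT.gap_le hj) hKi.le)
          _ = _ := by rw [pow_div_pow_eq T hij]; field_simp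
      · rw [hiv, ← smul_sub, inner_smul_right, abs_mul, abs_of_pos hK, ← le_div_iff₀' hK]
        exact hO c' h1 h2 l hl
  have h2 := card_le_image_mul (T.nr i j c) (fun c' => c'.2.2)
    (B := (3 * (T.Λ * ((M : ℝ) + 1))) ^ n) fun p _ =>
      card_nd_cap hT.k_pos j _ (c.1 / (T.k : ℤ) ^ (2 * (j - i))) p (ctr T.k i c) (tm T.k i c) hρ
        fun c' hc' => by
          obtain ⟨h1, h2⟩ := mem_filter.1 hc'
          obtain ⟨-, h3⟩ := T.mem_nr.1 h1
          exact ⟨h3.1, h2, h3.2.2.trans (mul_le_mul_of_nonneg_right (hT.gap_le hj) hK.le)⟩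
  have h3 : 4 * ((n : ℝ) + 1) * (T.Λ * ((M : ℝ) + 1) * (T.k : ℝ) ^ (j - i)) ≤
      T.Λ ^ 3 * (T.k : ℝ) ^ (j - i) := by
    rw [← mul_assoc]
    gcongr
    have := hT.1
    have h0 : 0 ≤ ((n : ℝ) + 1) * ((M : ℝ) + 1) := by positivity
    nlinarith [mul_le_mul_of_nonneg_left this (by linarith : 0 ≤ T.Λ)]
  have h4 : 4 * ((n : ℝ) + 1) * T.Λ ^ 2 ≤ T.Λ ^ 3 := by
    rw [pow_succ' T.Λ 2]; gcongr; linarith [(Nat.cast_nonneg n : (0 : ℝ) ≤ n)]
  calc T.mm i j ≤ (T.nr i j c).card := (T.mmc i j hij hj c hc).1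
    _ ≤ _ := h2
    _ ≤ (T.Λ ^ 3 * (T.k : ℝ) ^ (j - i)) ^ κ * (T.Λ ^ 3) ^ (n - κ) * (T.Λ ^ 2) ^ n := by
        refine mul_le_mul (h1.trans ?_) (by gcongr; exact hT.rho_le) (by positivity) (by positivity)
        gcongr
    _ = _ := by
        obtain ⟨e, rfl⟩ := Nat.exists_eq_add_of_le hκ
        rw [Nat.add_sub_cancel_left]; ring

theorem nr_subset_nS (T : Tw n M) {i j : ℕ} {N : Finset (Nd n)} {c : Nd n} (hc : c ∈ N) :
    T.nr i j c ⊆ T.nS i j N := fun _ h =>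
  T.mem_nS.2 ⟨(T.mem_nr.1 h).1, c, hc, (T.mem_nr.1 h).2⟩

theorem a_le (hT : T.Std) (i u : ℕ) (hu : i + u ≤ M) :
    T.a i ≤ T.Λ ^ ((8 * n + 6) * u) * (T.mm i (i + u) ^ 2 * T.a (i + u)) := by
  have hΛ := hT.Λ_ge.1
  induction u with
  | zero =>
    simpa using le_mul_of_one_le_left (T.a0 i).le (one_le_pow₀ (T.mm1 i i))
  | succ u ih =>
    obtain ⟨c, hc⟩ := T.al_nonempty (i := i + u) (by omega)
    have h1 := T.e1 (i + u) (by omega) c hc
    have h2 := (T.mmc (i + u) (i + u + 1) (by omega) (by omega) c hc).2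
    have h3 := mm_sup hT (i := i) (j := i + u) (l := i + u + 1) (by omega) (by omega) (by omega)
    have h4 := T.a0 (i + u + 1)
    have h5 := T.mm1 i (i + u)
    have h6 := T.mm1 (i + u) (i + u + 1)
    calc T.a i ≤ _ := ih (by omega)
      _ ≤ T.Λ ^ ((8 * n + 6) * u) * (T.mm i (i + u) ^ 2 *
          (T.Λ ^ 2 * (T.Λ * T.mm (i + u) (i + u + 1)) ^ 2 * T.a (i + u + 1))) := by
          refine mul_le_mul_of_nonneg_left (mul_le_mul_of_nonneg_left (h1.trans ?_)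
            (by positivity)) (by positivity)
          gcongr
      _ = T.Λ ^ ((8 * n + 6) * u) * T.Λ ^ 4 * (T.mm i (i + u) * T.mm (i + u) (i + u + 1)) ^ 2 *
          T.a (i + u + 1) := by ring
      _ ≤ T.Λ ^ ((8 * n + 6) * u) * T.Λ ^ 4 * (T.Λ ^ (4 * n + 1) * T.mm i (i + u + 1)) ^ 2 *
          T.a (i + u + 1) := by gcongr
      _ = _ := by rw [← add_assoc]; ring

theorem card_br (hT : T.Std) {i j : ℕ} (hij : i ≤ j) (hj : j ≤ M) {N : Finset (Nd n)}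
    (hN : N ⊆ T.al i) : N.card * T.mm i j ≤
      T.Λ ^ (4 * n + 1) * (T.k : ℝ) ^ ((n + 2) * (j - i)) * (T.nS i j N).card := by
  classical
  have hk : (1 : ℝ) ≤ T.k := by exact_mod_cast hT.k_pos
  have hKi : (0 : ℝ) < (T.k : ℝ) ^ i := by positivity
  have hKji : (1 : ℝ) ≤ (T.k : ℝ) ^ (j - i) := one_le_pow₀ hk
  have hΛ := hT.Λ_ge.1
  have hρ := hT.one_le_rho
  have h := card_nsmul_le_card_nsmul (fun c c' => Nr T.k T.Λ i j c c') (s := N)
    (t := T.nS i j N) (m := T.mm i j) (n := T.Λ ^ (4 * n + 1) * (T.k : ℝ) ^ ((n + 2) * (j - i)))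
    (fun c hc => ?_) (fun c' hc' => ?_)
  · rwa [nsmul_eq_mul, nsmul_eq_mul, mul_comm ((T.nS i j N).card : ℝ)] at h
  · refine (T.mmc i j hij hj c (hN hc)).1.trans (Nat.cast_le.2 (card_le_card fun c' h3 => ?_))
    exact (mem_bipartiteAbove _).2 ⟨T.nr_subset_nS hc h3, (T.mem_nr.1 h3).2⟩
  · refine (card_le_image_mul _ (fun c => c.1) (B := (3 * (T.Λ * ((M : ℝ) + 1))) ^ n *
      (3 * (T.Λ * ((M : ℝ) + 1) * (T.k : ℝ) ^ (j - i))) ^ n) fun s _ => ?_).trans ?_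
    · refine card_nd hT.k_pos i _ s (fq T.k j c') (ps T.k j c' (s * (T.k : ℝ) ^ (2 * i)))
        (s * (T.k : ℝ) ^ (2 * i)) hρ (one_le_mul_of_one_le_of_one_le hρ hKji) fun c h1 => ?_
      obtain ⟨h2, rfl⟩ := mem_filter.1 h1
      obtain ⟨-, h3⟩ := (mem_bipartiteBelow _).1 h2
      refine ⟨rfl, ?_, ?_⟩
      · rw [norm_sub_rev]
        exact h3.2.1.trans (div_le_div_of_nonneg_right (hT.gap_le hj) hKi.le)
      · rw [← tm, ps_tm, norm_sub_rev, mul_assoc, ← pow_div_pow_eq T hij]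
        exact h3.2.2.trans (mul_le_mul_of_nonneg_right (hT.gap_le hj) (by positivity))
    · have h1 := card_int ((N.bipartiteBelow (fun c c' => Nr T.k T.Λ i j c c') c').image
          fun c => c.1) (c'.1 * (T.k : ℝ) ^ (2 * (j - i))) (ρ := (T.k : ℝ) ^ (2 * (j - i)))
        (one_le_pow₀ hk) fun s hs => by
          obtain ⟨c, hc, rfl⟩ := mem_image.1 hs
          have h2 := ediv_bounds hT.k_pos c.1 (2 * (j - i)) 0
          rw [← ((mem_bipartiteBelow _).1 hc).2.1, add_zero, pow_zero, mul_one, mul_one] at h2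
          rw [abs_of_nonneg (by linarith [h2.1])]
          linarith [h2.2]
      calc _ ≤ T.Λ * (T.k : ℝ) ^ (2 * (j - i)) * ((3 * (T.Λ * ((M : ℝ) + 1))) ^ n *
            (3 * (T.Λ * ((M : ℝ) + 1))) ^ n * ((T.k : ℝ) ^ (j - i)) ^ n) := by
            refine mul_le_mul (h1.trans (by gcongr; linarith)) (le_of_eq ?_) (by positivity)
              (by positivity)
            rw [← mul_assoc 3 _ (_ ^ (j - i)), mul_pow _ (_ ^ (j - i)), mul_assoc]
        _ ≤ T.Λ * (T.k : ℝ) ^ (2 * (j - i)) * (T.Λ ^ (4 * n) * ((T.k : ℝ) ^ (j - i)) ^ n) := by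
            gcongr
            exact hT.rho_pow
        _ = _ := by ring

theorem nar_sub (hT : T.Std) {i i' j' j κ : ℕ} (h₁ : i ≤ i') (h₂ : i' ≤ j') (h₃ : j' ≤ j)
    (h₄ : j ≤ M) (h : T.Nar i j κ) : T.Nar i' j' κ := by
  obtain ⟨c, hc⟩ := T.al_nonempty (i := i) (by omega)
  obtain ⟨c₁, hc₁⟩ := T.nr_nonempty h₁ (by omega) hc
  obtain ⟨hc₁, hn₁⟩ := T.mem_nr.1 hc₁
  obtain ⟨O, ζ₀, hO⟩ := h c hc
  intro c₂ hc₂
  refine T.narc i' j' κ h₂ (by omega) c₁ hc₁ c₂ hc₂ ⟨O, ζ₀, fun c' hc' hn' => ?_⟩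
  have hn := hT.trans h₁ h₂ (by omega) hn₁ hn'
  rcases h₃.eq_or_lt with rfl | hlt
  · exact hO c' hc' hn
  obtain ⟨c'', hc''⟩ := T.nr_nonempty h₃ h₄ hc'
  obtain ⟨hc'', hn''⟩ := T.mem_nr.1 hc''
  intro l hl
  have e1 := hO c'' hc'' (hT.trans (by omega) h₃ h₄ hn hn'') l hl
  have e2 := (abs_inner_le_norm O l _).trans hn''.2.1
  have hk : (2 : ℝ) ≤ T.k := by have := hT.k_ge; exact_mod_cast (by omega : 2 ≤ T.k)
  have hK : (0 : ℝ) < (T.k : ℝ) ^ j' := by positivity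
  have e3 : T.Λ ^ 2 / (T.k : ℝ) ^ j ≤ T.Λ ^ 2 / (2 * (T.k : ℝ) ^ j') := by
    gcongr
    exact le_trans (by gcongr) (pow_gap hlt hT.k_pos)
  have e4 : T.Λ * ((j : ℝ) - j') / (T.k : ℝ) ^ j' ≤ T.Λ ^ 2 / (2 * (T.k : ℝ) ^ j') := by
    rw [← div_div]
    gcongr
    linarith [hT.gap_le (i := j') h₄, hT.rho_le, hT.one_le_rho]
  have e5 : T.Λ ^ 2 / (T.k : ℝ) ^ j' = 2 * (T.Λ ^ 2 / (2 * (T.k : ℝ) ^ j')) := by field_simp
  have e6 : ⟪O l, fq T.k j' c' - ζ₀⟫ =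
      ⟪O l, fq T.k j c'' - ζ₀⟫ - ⟪O l, fq T.k j c'' - fq T.k j' c'⟫ := by
    rw [← inner_sub_right]; congr 1; abel
  rw [e6]
  linarith [abs_sub ⟪O l, fq T.k j c'' - ζ₀⟫ ⟪O l, fq T.k j c'' - fq T.k j' c'⟫]

theorem card_W1 (hT : T.Std) {i j : ℕ} (hij : i ≤ j) (hj : j ≤ M) {N : Finset (Nd n)}
    (hN : N ⊆ T.al i) : N.card * T.ν i * T.mm i j ≤
      T.Λ ^ (4 * n + 1) * ((T.nS i j N).card * T.ν j) := by
  classical
  have hk : (1 : ℝ) ≤ T.k := by exact_mod_cast hT.k_pos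
  have hKi : (0 : ℝ) < (T.k : ℝ) ^ i := by positivity
  have hΛ := hT.Λ_ge.1
  have hρ := hT.one_le_rho
  calc N.card * T.ν i * T.mm i j = ∑ _c ∈ N, T.mm i j * T.ν i := by
        rw [sum_const, nsmul_eq_mul]; ring
    _ ≤ ∑ c ∈ N, ∑ c' ∈ T.nS i j N, ∑ z ∈ T.X,
          if Nr T.k T.Λ i j c c' ∧ z ∈ box T.k T.Λ i c then T.w z else 0 := by
        refine sum_le_sum fun c hc => ?_
        calc _ ≤ ∑ _c' ∈ T.nr i j c, ms T.X id T.w (box T.k T.Λ i c) := by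
              rw [sum_const, nsmul_eq_mul]
              exact mul_le_mul (T.mmc i j hij hj c (hN hc)).1 (T.νc i (hij.trans hj) c (hN hc)).1
                (T.ν0 i).le (Nat.cast_nonneg _)
          _ = ∑ c' ∈ T.nr i j c, ∑ z ∈ T.X,
              if Nr T.k T.Λ i j c c' ∧ z ∈ box T.k T.Λ i c then T.w z else 0 := by
              refine sum_congr rfl fun c' hc' => ?_
              simp only [ms, sum_filter, (T.mem_nr.1 hc').2, true_and, id]
          _ ≤ _ := sum_le_sum_of_subset_of_nonneg (T.nr_subset_nS hc) fun c' _ _ =>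
              sum_nonneg fun z hz => by
                split_ifs
                exacts [T.w0 z hz, le_rfl]
    _ ≤ ∑ c' ∈ T.nS i j N, T.Λ ^ (4 * n) * ms T.X id T.w (box T.k T.Λ j c') := by
        rw [sum_comm]
        refine sum_le_sum fun c' _ => ?_
        rw [sum_comm, ms, sum_filter, mul_sum]
        refine sum_le_sum fun z hz => ?_
        rw [← sum_filter, sum_const, nsmul_eq_mul]
        by_cases hb : z ∈ box T.k T.Λ j c'
        · rw [if_pos (by exact hb)]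
          refine mul_le_mul_of_nonneg_right ((card_nd hT.k_pos i _ (win T.k i z.2) (fq T.k j c') z.1
            z.2 hρ hρ fun c hc => ?_).trans hT.rho_pow) (T.w0 z hz)
          obtain ⟨-, h1, h2⟩ := mem_filter.1 hc
          refine ⟨h2.1.symm, ?_, ?_⟩
          · rw [norm_sub_rev]
            exact h1.2.1.trans (div_le_div_of_nonneg_right (hT.gap_le hj) hKi.le)
          · rw [norm_sub_rev]
            refine h2.2.trans ?_
            have : (i : ℝ) ≤ M := by exact_mod_cast hij.trans hj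
            gcongr
        · rw [if_neg (by exact hb), filter_eq_empty_iff.2 fun c _ h => hb (box_mono (by linarith) hij
            (by have := hT.k_ge; omega) h.1 h.2)]
          simp
    _ ≤ ∑ _c' ∈ T.nS i j N, T.Λ ^ (4 * n) * (T.Λ * T.ν j) :=
        sum_le_sum fun c' hc' => mul_le_mul_of_nonneg_left
          (T.νc j hj c' (T.mem_nS.1 hc').1).2 (by positivity)
    _ = _ := by rw [sum_const, nsmul_eq_mul]; ring

theorem ν_le (hT : T.Std) (hB : T.Ball) {j : ℕ} (hj : j ≤ M) :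
    T.ν j ≤ T.Λ ^ (3 * n + 2) * (T.k : ℝ) ^ ((n + 1) * j) := by
  obtain ⟨c, hc⟩ := T.al_nonempty hj
  have hk : (1 : ℝ) ≤ T.k := by exact_mod_cast hT.k_pos
  have hK : (1 : ℝ) ≤ (T.k : ℝ) ^ j := one_le_pow₀ hk
  obtain ⟨hΛ, -, hΛM, -⟩ := hT.Λ_ge
  have h3 : (1 : ℝ) ≤ T.Λ ^ 3 := one_le_pow₀ (by linarith)
  refine (T.νc j hj c hc).1.trans ((ms_le_sum T.w0 (range (T.k ^ j + 1))
    (fun m => closedBall (ps T.k j c (tm T.k j c + m * (T.k : ℝ) ^ j),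
      tm T.k j c + m * (T.k : ℝ) ^ j) (T.Λ ^ 3 * (T.k : ℝ) ^ j)) fun z _ hz => ?_).trans ?_)
  · obtain ⟨h1, h2⟩ := box_tm hT.k_pos hz
    have h0 : 0 ≤ (z.2 - tm T.k j c) / (T.k : ℝ) ^ j := div_nonneg (by simpa using h1) (by linarith)
    have h4 := Nat.floor_le h0
    have h5 := Nat.lt_floor_add_one ((z.2 - tm T.k j c) / (T.k : ℝ) ^ j)
    rw [le_div_iff₀ (by linarith)] at h4
    rw [div_lt_iff₀ (by linarith)] at h5
    refine ⟨⌊(z.2 - tm T.k j c) / (T.k : ℝ) ^ j⌋₊, ?_, ?_⟩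
    · rw [mem_range, Nat.lt_succ_iff]
      refine Nat.floor_le_of_le ?_
      rw [div_le_iff₀ (by linarith), Nat.cast_pow, ← pow_add, ← two_mul]
      simp only [id] at h2
      linarith
    · set m : ℝ := (⌊(z.2 - tm T.k j c) / (T.k : ℝ) ^ j⌋₊ : ℝ)
      have h6 : |z.2 - (tm T.k j c + m * (T.k : ℝ) ^ j)| ≤ (T.k : ℝ) ^ j := by
        rw [abs_of_nonneg (by linarith)]; linarith
      rw [mem_closedBall, id, Prod.dist_eq, max_le_iff, dist_eq_norm, Real.dist_eq]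
      refine ⟨?_, h6.trans (le_mul_of_one_le_left (by linarith) h3)⟩
      have h7 : ‖ps T.k j c z.2 - ps T.k j c (tm T.k j c + m * (T.k : ℝ) ^ j)‖ ≤
          2 * (T.k : ℝ) ^ j * T.Λ ^ 2 := by
        rw [ps_sub _ _ _ z.2 (tm T.k j c + m * (T.k : ℝ) ^ j), sub_sub_cancel_left, norm_neg,
          norm_smul, Real.norm_eq_abs, abs_mul, abs_two]
        gcongr
        exact T.fqb j hj c hc
      have h8 : T.Λ * ((j : ℝ) + 1) * (T.k : ℝ) ^ j ≤ T.Λ ^ 2 * (T.k : ℝ) ^ j := by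
        have : (j : ℝ) ≤ M := by exact_mod_cast hj
        have : (0 : ℝ) ≤ j := Nat.cast_nonneg _
        rw [sq]; gcongr; linarith
      have h9 : 3 * T.Λ ^ 2 * (T.k : ℝ) ^ j ≤ T.Λ ^ 3 * (T.k : ℝ) ^ j := by
        rw [pow_succ' T.Λ 2]; gcongr; linarith
      have h10 : ‖z.1 - ps T.k j c z.2‖ ≤ T.Λ * ((j : ℝ) + 1) * (T.k : ℝ) ^ j := hz.2
      linarith [norm_sub_le_norm_sub_add_norm_sub z.1 (ps T.k j c z.2)
        (ps T.k j c (tm T.k j c + m * (T.k : ℝ) ^ j))]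
  · refine (sum_le_card_nsmul _ _ _ fun m _ =>
      hB _ _ (one_le_mul_of_one_le_of_one_le h3 hK)).trans ?_
    rw [card_range, nsmul_eq_mul]
    push_cast
    calc _ ≤ T.Λ * (T.k : ℝ) ^ j * (T.Λ * (T.Λ ^ 3 * (T.k : ℝ) ^ j) ^ n) := by
          gcongr; nlinarith
      _ = _ := by ring

theorem lg_mul (T : Tw n M) {x y : ℝ} (hx : 0 < x) (hy : 0 < y) :
    T.lg (x * y) = T.lg x + T.lg y := Real.logb_mul hx.ne' hy.ne'

theorem lg_one (T : Tw n M) : T.lg 1 = 0 := Real.logb_one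

theorem lg_pow (hT : T.Std) (e : ℕ) : T.lg ((T.k : ℝ) ^ e) = e := by
  rw [Tw.lg, Real.logb_pow, Real.logb_self_eq_one
    (by have := hT.k_ge; exact_mod_cast (by omega : 1 < T.k)), mul_one]

theorem lg_mono (hT : T.Std) {x y : ℝ} (hx : 0 < x) (h : x ≤ y) : T.lg x ≤ T.lg y :=
  Real.logb_le_logb_of_le (by have := hT.k_ge; exact_mod_cast (by omega : 1 < T.k)) hx h

end Tw

theorem bas1 (n : ℕ) : BasS1 n := by
  refine ⟨1, le_rfl, fun M => (good_std M ((8 * n + 6) * (M + 1)) 0).mono ?_⟩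
  rintro T ⟨hT, -, hN⟩
  have hk2 : 2 ≤ T.k := by have := hT.k_ge; omega
  have hk1 : (1 : ℝ) < T.k := by exact_mod_cast hk2
  have hΛ : 1 ≤ T.Λ := by linarith [hT.Λ_ge.1]
  have hp : ∀ e : ℕ, e ≤ (8 * n + 6) * (M + 1) → T.Λ ^ e ≤ T.k := fun e he =>
    (pow_le_pow_right₀ hΛ he).trans hN
  have hp' : ∀ e : ℕ, e ≤ 8 * n + 6 → T.Λ ^ e ≤ T.k := fun e he =>
    hp e (he.trans (Nat.le_mul_of_pos_right _ (by omega)))
  have hmm : ∀ i j, 0 < T.mm i j := fun i j => zero_lt_one.trans_le (T.mm1 i j)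
  have hcard : ∀ {N : Finset (Nd n)}, N.Nonempty → (0 : ℝ) < N.card := fun h => by
    exact_mod_cast h.card_pos
  have hne : ∀ i j N, i ≤ j → j ≤ M → N ⊆ T.al i → N.Nonempty → (T.nS i j N).Nonempty :=
    fun i j N hij hj hN ⟨c, hc⟩ => (T.nr_nonempty hij hj (hN hc)).mono (T.nr_subset_nS hc)
  refine
    { nS_sub := fun i j N c hc => (T.mem_nS.1 hc).1
      nS_ne := hne
      nS_self := fun i N hN => ?_
      nS_comp := fun i j l N hij hjl hl c'' hc'' => ?_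
      C_mono := fun N N' h h' => Tw.lg_mono hT (hcard h) (Nat.cast_le.2 (card_le_card h'))
      C_nonneg := fun N => ?_
      m_nonneg := fun i j => Real.logb_nonneg hk1 (T.mm1 i j)
      m_sup := fun i j l hij hjl hl => ?_
      m_nar := fun i j κ hij hj hκ h => ?_
      m_le_C := fun i j N hij hj hN ⟨c, hc⟩ => Tw.lg_mono hT (hmm i j)
        ((T.mmc i j hij hj c (hN hc)).1.trans (Nat.cast_le.2 (card_le_card (T.nr_subset_nS hc))))
      A_le := fun i j hij hj => ?_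
      C_br := fun i j N hij hj hN hne' => ?_
      nar_n := fun i j c _ => ⟨EuclideanSpace.basisFun (Fin n) ℝ, 0, fun _ _ _ l hl =>
        absurd l.2 (not_lt.2 hl)⟩
      nar_mono := fun i j κ κ' hκ h c hc => ?_
      nar_sub := fun i i' j' j κ h₁ h₂ h₃ h₄ h => Tw.nar_sub hT h₁ h₂ h₃ h₄ h
      top := ?_
      W1 := fun i j N hij hj hN hne' => ?_
      nu_le := fun hB j hj => ?_ }
  · ext c'
    rw [T.mem_nS]
    exact ⟨fun ⟨_, c, hc, h⟩ => by rwa [h.eq hT.k_pos],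
      fun h => ⟨hN h, c', h, Nr.refl _ _ _ _⟩⟩
  · obtain ⟨h1, c', hc', h2⟩ := T.mem_nS.1 hc''
    obtain ⟨-, c, hc, h3⟩ := T.mem_nS.1 hc'
    exact T.mem_nS.2 ⟨h1, c, hc, hT.trans hij hjl hl h3 h2⟩
  · rcases N.eq_empty_or_nonempty with rfl | h
    · simp [Tw.C, Tw.lg]
    · exact Real.logb_nonneg hk1 (by exact_mod_cast h.card_pos)
  · have := T.lg_le hk2 (e := 0) (y := T.mm i l) (mul_pos (hmm i j) (hmm j l)) (by positivity)
      (hp' (4 * n + 1) (by omega)) (by simpa using Tw.mm_sup hT hij hjl hl)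
    rw [T.lg_mul (hmm i j) (hmm j l)] at this
    simpa [Tw.m] using this
  · have := T.lg_le hk2 (e := κ * (j - i)) (y := 1) (hmm i j) (by positivity)
      (hp' (5 * n) (by omega)) (by simpa using Tw.mm_nar hT hij hj hκ h)
    rw [T.lg_one, Nat.cast_mul, Nat.cast_sub hij] at this
    simpa [Tw.m] using this
  · obtain ⟨u, rfl⟩ := Nat.exists_eq_add_of_le hij
    have := T.lg_le hk2 (e := 0) (y := T.mm i (i + u) ^ 2 * T.a (i + u)) (T.a0 i) (by positivity)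
      (hp ((8 * n + 6) * u) (Nat.mul_le_mul_left _ (by omega))) (by simpa using Tw.a_le hT i u hj)
    rw [T.lg_mul (pow_pos (hmm _ _) 2) (T.a0 _), sq, T.lg_mul (hmm _ _) (hmm _ _)] at this
    simp only [Tw.A, Tw.m]
    push_cast at this
    linarith
  · have := T.lg_le hk2 (mul_pos (hcard hne') (hmm i j)) (by positivity)
      (hp' (4 * n + 1) (by omega)) (Tw.card_br hT hij hj hN)
    rw [T.lg_mul (hcard hne') (hmm i j), Nat.cast_mul, Nat.cast_sub hij] at this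
    simpa [Tw.m, Tw.C] using this
  · obtain ⟨O, ζ₀, hO⟩ := h c hc
    exact ⟨O, ζ₀, fun c' h1 h2 l hl => hO c' h1 h2 l (hκ.trans hl)⟩
  · have h1 := hcard (T.al_nonempty le_rfl)
    have := Tw.lg_mono hT (mul_pos (mul_pos h1 (T.a0 M)) (by positivity)) T.e3
    rw [T.lg_one, T.lg_mul (mul_pos h1 (T.a0 M)) (by positivity), T.lg_mul h1 (T.a0 M), ← pow_mul,
      Tw.lg_pow hT] at this
    simp only [Tw.A, Tw.C]
    push_cast at this
    linarith
  · have := T.lg_le hk2 (e := 0) (y := (T.nS i j N).card * T.ν j)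
      (mul_pos (mul_pos (hcard hne') (T.ν0 i)) (hmm i j)) (by positivity)
      (hp' (4 * n + 1) (by omega)) (by simpa using Tw.card_W1 hT hij hj hN)
    rw [T.lg_mul (mul_pos (hcard hne') (T.ν0 i)) (hmm i j), T.lg_mul (hcard hne') (T.ν0 i),
      T.lg_mul (hcard (hne i j N hij hj hN hne')) (T.ν0 j)] at this
    simpa [Tw.m, Tw.C, Tw.nu] using this
  · have := T.lg_le hk2 (e := (n + 1) * j) (y := 1) (T.ν0 j) (by positivity)
      (hp' (3 * n + 2) (by omega)) (by simpa using Tw.ν_le hT hB hj)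
    rw [T.lg_one] at this
    simpa [Tw.nu] using this

end Crest.Agent.N76.L
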