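import Crest.Agent.N76.L.Cnt

/-! # Row 76, Part I: energy lemmas and cells (helper20). -/

set_option autoImplicit false

open Finset Metric
open scoped RealInnerProductSpace

namespace Crest.Agent.N76.L

open Crest.Agent.N76.Red (V)
open Crest.Agent.N76.G

variable {n M : ℕ}

theorem Tw.Std.one_le_k {T : Tw n M} (h : T.Std) : 1 ≤ T.k := by
  have := h.k_ge; omega

theorem Tw.Std.two_le_k {T : Tw n M} (h : T.Std) : 2 ≤ T.k := by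
  have := h.k_ge; omega

theorem Tw.Std.one_le_Λ {T : Tw n M} (h : T.Std) : 1 ≤ T.Λ := by
  linarith [h.Λ_ge.1]

theorem Tw.nS_subset_al (T : Tw n M) (i j : ℕ) (N : Finset (Nd n)) : T.nS i j N ⊆ T.al j :=
  fun _ hc => (T.mem_nS.1 hc).1

theorem Tw.nS_nS_subset (T : Tw n M) (hT : T.Std) {i j l : ℕ} (hij : i ≤ j) (hjl : j ≤ l)
    (hl : l ≤ M) (N : Finset (Nd n)) : T.nS j l (T.nS i j N) ⊆ T.nS i l N := fun c'' hc'' => by
  obtain ⟨h1, c', hc', h2⟩ := T.mem_nS.1 hc''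
  obtain ⟨-, c, hc, h3⟩ := T.mem_nS.1 hc'
  have := hT.k_ge
  exact T.mem_nS.2 ⟨h1, c, hc, h3.trans (by linarith [hT.one_le_Λ]) hij hjl (by omega) h2⟩

theorem Tw.subset_nS_self (T : Tw n M) {i : ℕ} {S : Finset (Nd n)} (hS : S ⊆ T.al i) :
    S ⊆ T.nS i i S := fun c hc => T.mem_nS.2 ⟨hS hc, c, hc, Nr.refl _ _ _ _⟩

theorem Tw.nS_nonempty (T : Tw n M) {i j : ℕ} (hij : i ≤ j) (hj : j ≤ M) {N : Finset (Nd n)}
    (hN : N ⊆ T.al i) (hne : N.Nonempty) : (T.nS i j N).Nonempty := by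
  obtain ⟨c, hc⟩ := hne
  obtain ⟨c', hc'⟩ := T.nr_nonempty hij hj (hN hc)
  exact ⟨c', T.mem_nS.2 ⟨(T.mem_nr.1 hc').1, c, hc, (T.mem_nr.1 hc').2⟩⟩

/-- one step of `EN1` -/
theorem Tw.EN1_step (T : Tw n M) (hT : T.Std) {i j κ : ℕ} (hij : i ≤ j) (hj : j + 1 ≤ M) (hκ : κ ≤ n)
    {S : Finset (Nd n)} {s : ℤ} (hs : ∀ c ∈ S, c.1 = s)
    (O : OrthonormalBasis (Fin n) ℝ (V n)) (ζ₀ y₀ : V n) (T₀ : ℝ)
    (hl : ∀ c ∈ S, Slab O κ y₀ (T.Λ ^ 4 * (T.k : ℝ) ^ i)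
      (ctr T.k i c + (2 * (tm T.k i c - T₀)) • ζ₀))
    (hw : i < j → ∀ c' ∈ T.nS i j S, Slab O κ ζ₀ (T.Λ ^ 2 / (T.k : ℝ) ^ j) (fq T.k j c'))
    (hw' : ∀ c' ∈ T.nS i (j + 1) S,
      Slab O κ ζ₀ (T.Λ ^ 2 / (T.k : ℝ) ^ (j + 1)) (fq T.k (j + 1) c')) :
    ((T.nS i j S).card : ℝ) * T.a j ≤ T.Λ ^ (9 * n + 2) * (T.k : ℝ) ^ κ *
      ((T.nS i (j + 1) S).card * T.a (j + 1)) := by
  have hk := hT.one_le_k
  have hΛ := hT.one_le_Λ
  obtain ⟨h100, hn, hM, hΛk⟩ := hT.Λ_ge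
  have hk' : (1 : ℝ) ≤ T.k := by exact_mod_cast hk
  have hKj : (0 : ℝ) < (T.k : ℝ) ^ j := by positivity
  have hsub := T.nS_nS_subset hT hij (Nat.le_succ j) hj S
  have h := T.e2 j (by omega) (T.nS i j S) (T.nS_subset_al i j S) (s / (T.k : ℤ) ^ (2 * (j - i))) κ O
    (y₀ - (2 * (((s / (T.k : ℤ) ^ (2 * (j - i)) : ℤ) : ℝ) * (T.k : ℝ) ^ (2 * j) - T₀)) • ζ₀) ζ₀
    (T.Λ ^ 5 * (T.k : ℝ) ^ j) (T.Λ ^ 2 / (T.k : ℝ) ^ (j + 1))
    (fun c' hc' => by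
      obtain ⟨-, c, hc, h1⟩ := T.mem_nS.1 hc'
      rw [h1.1, hs c hc])
    (le_mul_of_one_le_left hKj.le (one_le_pow₀ hΛ))
    (by gcongr; exact one_le_pow₀ hΛ)
    (fun c' hc' l hl' => by
      obtain ⟨-, c, hc, h1⟩ := T.mem_nS.1 hc'
      have e0 : ((s / (T.k : ℤ) ^ (2 * (j - i)) : ℤ) : ℝ) * (T.k : ℝ) ^ (2 * j) = tm T.k j c' := by
        rw [tm, h1.1, hs c hc]
      have e1 : ctr T.k j c' - (y₀ - (2 * (tm T.k j c' - T₀)) • ζ₀) =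
          (ps T.k j c' (tm T.k i c) - ctr T.k i c) +
          (ctr T.k i c + (2 * (tm T.k i c - T₀)) • ζ₀ - y₀) +
          (2 * (tm T.k i c - tm T.k j c')) • (fq T.k j c' - ζ₀) := by
        rw [ps]; module
      rw [e0, e1, inner_add_right, inner_add_right, inner_smul_right]
      have a1 := (abs_inner_le_norm O l _).trans h1.2.2
      have a2 := hl c hc l hl'
      have a3 : |2 * (tm T.k i c - tm T.k j c') * ⟪O l, fq T.k j c' - ζ₀⟫| ≤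
          2 * (T.Λ ^ 2 * (T.k : ℝ) ^ j) := by
        rcases hij.eq_or_lt with rfl | hij'
        · rw [h1.eq hk]; simp; positivity
        · rw [abs_mul, abs_mul, abs_two]
          calc _ ≤ 2 * (T.k : ℝ) ^ (2 * j) * (T.Λ ^ 2 / (T.k : ℝ) ^ j) := by
                gcongr
                · exact abs_tm_sub_le hk hij h1.1
                · exact hw hij' c' hc' l hl'
            _ = _ := by rw [two_mul j, pow_add]; field_simp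
      have a4 : (T.k : ℝ) ^ i ≤ (T.k : ℝ) ^ j := pow_le_pow_right₀ hk' hij
      have a5 : (j : ℝ) - i ≤ T.Λ := by
        have : (j : ℝ) + 1 ≤ M := by exact_mod_cast hj
        have : (0 : ℝ) ≤ i := Nat.cast_nonneg _
        linarith
      have a6 : T.Λ * ((j : ℝ) - i) * (T.k : ℝ) ^ j ≤ T.Λ ^ 2 * (T.k : ℝ) ^ j := by
        rw [sq]; gcongr
      have a7 : T.Λ ^ 4 * (T.k : ℝ) ^ i ≤ T.Λ ^ 4 * (T.k : ℝ) ^ j := by gcongr
      have a8 : T.Λ ^ 2 ≤ T.Λ ^ 4 := pow_le_pow_right₀ hΛ (by norm_num)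
      have a9 : 4 * T.Λ ^ 4 ≤ T.Λ ^ 5 := by
        rw [pow_succ' _ 4]; gcongr; linarith
      refine (abs_add_le _ _).trans ((add_le_add (abs_add_le _ _) a3).trans ?_)
      nlinarith [mul_le_mul_of_nonneg_right a8 hKj.le, mul_le_mul_of_nonneg_right a9 hKj.le])
    (fun c' hc' => hw' c' (hsub hc'))
  refine h.trans ?_
  have e : T.Λ ^ 2 * (T.Λ ^ 5 * (T.k : ℝ) ^ j) * (T.Λ ^ 2 / (T.k : ℝ) ^ (j + 1)) = T.Λ ^ 9 / T.k := by
    rw [pow_succ (T.k : ℝ) j]; field_simp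
  have e' : T.Λ ^ 2 * (T.Λ ^ 9 / T.k) ^ (n - κ) * (T.k : ℝ) ^ n =
      T.Λ ^ (9 * (n - κ) + 2) * (T.k : ℝ) ^ κ := by
    obtain ⟨d, rfl⟩ := Nat.exists_eq_add_of_le hκ
    rw [Nat.add_sub_cancel_left, div_pow, pow_add, pow_add, pow_mul]; field_simp
  rw [e, e', mul_assoc _ _ (T.a (j + 1))]
  have := (T.a0 (j + 1)).le
  have h2 : ((nrG T.k T.Λ j (j + 1) (T.al (j + 1)) (T.nS i j S)).card : ℝ) ≤
      (T.nS i (j + 1) S).card := by exact_mod_cast card_le_card hsub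
  gcongr
  omega

theorem Tw.EN1 (T : Tw n M) (hT : T.Std) {i u κ : ℕ} (hiu : i + u ≤ M) (hκ : κ ≤ n)
    {S : Finset (Nd n)} (hS : S ⊆ T.al i) {s : ℤ} (hs : ∀ c ∈ S, c.1 = s)
    (O : OrthonormalBasis (Fin n) ℝ (V n)) (ζ₀ y₀ : V n) (T₀ : ℝ)
    (hl : ∀ c ∈ S, Slab O κ y₀ (T.Λ ^ 4 * (T.k : ℝ) ^ i)
      (ctr T.k i c + (2 * (tm T.k i c - T₀)) • ζ₀))
    (hw : ∀ j, i < j → j ≤ i + u → ∀ c' ∈ T.nS i j S,
      Slab O κ ζ₀ (T.Λ ^ 2 / (T.k : ℝ) ^ j) (fq T.k j c')) :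
    (S.card : ℝ) * T.a i ≤ T.Λ ^ ((9 * n + 2) * u) * (T.k : ℝ) ^ (κ * u) *
      (T.nS i (i + u) S).card * T.a (i + u) := by
  have hΛ := hT.one_le_Λ
  induction u with
  | zero =>
    have h1 : (S.card : ℝ) ≤ (T.nS i i S).card := by
      exact_mod_cast card_le_card (T.subset_nS_self hS)
    simpa using mul_le_mul_of_nonneg_right h1 (T.a0 i).le
  | succ u ih =>
    refine (ih (by omega) fun j h1 h2 => hw j h1 (by omega)).trans ?_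
    have h := T.EN1_step hT (Nat.le_add_right i u) (by omega) hκ hs O ζ₀ y₀ T₀ hl
      (fun h1 => hw _ h1 (by omega)) (hw _ (by omega) (by omega))
    rw [mul_assoc]
    refine (mul_le_mul_of_nonneg_left h (by positivity)).trans_eq ?_
    rw [mul_add_one, mul_add_one κ, pow_add, pow_add _ (κ * u), add_assoc]
    ring

theorem Tw.EN2 (T : Tw n M) (hT : T.Std) {b l : ℕ} (hb : b < l) (hl : l + 1 ≤ M) {c₁ : Nd n}
    (hc : c₁ ∈ T.al b) {Z : Finset (Nd n)} (hZ : Z ⊆ T.al l)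
    (h : ∀ c ∈ Z, c.1 = c₁.1 / (T.k : ℤ) ^ (2 * (l - b)) ∧
      ‖fq T.k l c - fq T.k b c₁‖ ≤ T.Λ * ((l : ℝ) - b) / (T.k : ℝ) ^ b ∧
      ‖ps T.k l c (tm T.k b c₁) - ctr T.k b c₁‖ ≤ (T.k : ℝ) ^ (l + 1)) :
    (Z.card : ℝ) ≤ T.Λ ^ (4 * n + 1) * (T.k : ℝ) ^ n * T.mm b (l + 1) := by
  classical
  have hk := hT.one_le_k
  have hΛ := hT.one_le_Λ
  obtain ⟨h100, hn, hM, hΛk⟩ := hT.Λ_ge
  have hk' : (1 : ℝ) ≤ T.k := by exact_mod_cast hk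
  have hKl : (0 : ℝ) < (T.k : ℝ) ^ l := by positivity
  have hex : ∀ c ∈ Z, ∃ c', c' ∈ T.nr l (l + 1) c := fun c hc =>
    T.nr_nonempty (Nat.le_succ l) hl (hZ hc)
  choose! φ hφ using hex
  have hbl : (b : ℝ) + 1 ≤ l := by exact_mod_cast hb
  have him : Z.image φ ⊆ T.nr b (l + 1) c₁ := fun c' hc' => by
    obtain ⟨c, hcZ, rfl⟩ := mem_image.1 hc'
    obtain ⟨h1, h2⟩ := T.mem_nr.1 (hφ c hcZ)
    obtain ⟨g1, g2, g3⟩ := h c hcZ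
    refine T.mem_nr.2 ⟨h1, ?_, ?_, ?_⟩
    · rw [h2.1, g1, ediv_ediv hk]; congr 2; omega
    · have a1 := h2.2.1
      have a2 : T.Λ / (T.k : ℝ) ^ l ≤ T.Λ / (T.k : ℝ) ^ b := by
        gcongr
      have a3 : T.Λ * ((l : ℝ) + 1 - b) / (T.k : ℝ) ^ b =
          T.Λ / (T.k : ℝ) ^ b + T.Λ * ((l : ℝ) - b) / (T.k : ℝ) ^ b := by ring
      push_cast at a1 ⊢
      rw [add_sub_cancel_left, mul_one] at a1
      linarith [norm_sub_le_norm_sub_add_norm_sub (fq T.k (l + 1) (φ c)) (fq T.k l c) (fq T.k b c₁)]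
    · have a1 := h2.ps_close hk (abs_tm_sub_le hk hb.le g1)
      push_cast at a1 ⊢
      rw [add_sub_cancel_left, mul_one] at a1
      refine (norm_sub_le_norm_sub_add_norm_sub _ (ps T.k l c (tm T.k b c₁)) _).trans
        ((add_le_add a1 g3).trans ?_)
      have a2 : T.Λ * 2 * (T.k : ℝ) ^ (l + 1) ≤ T.Λ * ((l : ℝ) + 1 - b) * (T.k : ℝ) ^ (l + 1) := by
        gcongr; linarith
      have a3 : 2 * T.Λ + T.k ≤ T.Λ * T.k := by nlinarith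
      rw [pow_succ] at a2 ⊢
      nlinarith [mul_le_mul_of_nonneg_left a3 hKl.le]
  have h1 := card_le_image_mul Z φ (B := (3 * T.Λ) ^ n * (3 * (T.Λ * T.k)) ^ n) fun c' _ => by
    refine card_nd hk l _ (c₁.1 / (T.k : ℤ) ^ (2 * (l - b))) (fq T.k (l + 1) c')
      (ps T.k (l + 1) c' (((c₁.1 / (T.k : ℤ) ^ (2 * (l - b)) : ℤ) : ℝ) * (T.k : ℝ) ^ (2 * l)))
      (((c₁.1 / (T.k : ℤ) ^ (2 * (l - b)) : ℤ) : ℝ) * (T.k : ℝ) ^ (2 * l)) hΛ (by nlinarith)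
      fun c hc => ?_
    obtain ⟨hcZ, rfl⟩ := mem_filter.1 hc
    obtain ⟨-, -, h2, h3⟩ := T.mem_nr.1 (hφ c hcZ)
    have g1 := (h c hcZ).1
    push_cast at h2 h3
    rw [add_sub_cancel_left, mul_one] at h2 h3
    refine ⟨g1, by rwa [norm_sub_rev], ?_⟩
    rw [← g1, ← tm, ps_tm, norm_sub_rev, mul_assoc, ← pow_succ']
    exact h3
  have h2 : ((Z.image φ).card : ℝ) ≤ T.Λ * T.mm b (l + 1) :=
    le_trans (by exact_mod_cast card_le_card him) (T.mmc b (l + 1) (by omega) hl c₁ hc).2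
  have h3 : (3 * T.Λ) ^ n * (3 * (T.Λ * T.k)) ^ n ≤ T.Λ ^ (4 * n) * (T.k : ℝ) ^ n := by
    rw [pow_mul, ← mul_pow, ← mul_pow]
    refine pow_le_pow_left₀ (by positivity) ?_ n
    have : 9 * T.Λ ^ 2 ≤ T.Λ ^ 4 := by nlinarith [mul_le_mul h100 h100 (by norm_num) (by linarith)]
    nlinarith
  have := T.mm1 b (l + 1)
  calc (Z.card : ℝ) ≤ _ := h1
    _ ≤ T.Λ * T.mm b (l + 1) * (T.Λ ^ (4 * n) * (T.k : ℝ) ^ n) := by gcongr
    _ = _ := by ring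

theorem Tw.a_step (T : Tw n M) (hT : T.Std) {l : ℕ} (hl : l + 1 ≤ M) :
    T.a l ≤ T.Λ ^ (8 * n + 2) * (T.k : ℝ) ^ (2 * n) * T.a (l + 1) := by
  have hk := hT.one_le_k
  have hΛ := hT.one_le_Λ
  obtain ⟨h100, hn, hM, hΛk⟩ := hT.Λ_ge
  have hk' : (1 : ℝ) ≤ T.k := by exact_mod_cast hk
  obtain ⟨c, hc⟩ := T.al_nonempty (i := l) (by omega)
  refine (T.e1 l (by omega) c hc).trans ?_
  have h1 := card_nd hk (l + 1) (T.nr l (l + 1) c) (c.1 / (T.k : ℤ) ^ (2 * (l + 1 - l))) (fq T.k l c)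
    (ctr T.k l c) (tm T.k l c) (ρ₁ := T.Λ * T.k) (ρ₂ := T.Λ) (by nlinarith) hΛ fun c' hc' => by
      obtain ⟨-, h1, h2, h3⟩ := T.mem_nr.1 hc'
      push_cast at h2 h3
      rw [add_sub_cancel_left, mul_one] at h2 h3
      refine ⟨h1, h2.trans_eq ?_, h3⟩
      rw [pow_succ]; field_simp
  have h3 : (3 * (T.Λ * T.k)) ^ n * (3 * T.Λ) ^ n ≤ T.Λ ^ (4 * n) * (T.k : ℝ) ^ n := by
    rw [pow_mul, ← mul_pow, ← mul_pow]
    refine pow_le_pow_left₀ (by positivity) ?_ n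
    have : 9 * T.Λ ^ 2 ≤ T.Λ ^ 4 := by nlinarith [mul_le_mul h100 h100 (by norm_num) (by linarith)]
    nlinarith
  have := (T.a0 (l + 1)).le
  calc _ ≤ T.Λ ^ 2 * (T.Λ ^ (4 * n) * (T.k : ℝ) ^ n) ^ 2 * T.a (l + 1) := by
        gcongr
        exact h1.trans h3
    _ = _ := by ring

/-- nodes with one cap move in parallel -/
theorem ps_sub_ps {k b : ℕ} {c c' : Nd n} (h : c.2.2 = c'.2.2) (t t' : ℝ) :
    ps k b c t - ps k b c' t = ps k b c t' - ps k b c' t' := by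
  have e : fq k b c = fq k b c' := by rw [fq, fq, h]
  rw [ps_sub k b c t t', ps_sub k b c' t t', e]; abel

/-- two nodes of one cell -/
theorem cell_eq {k : ℕ} (hk : 1 ≤ k) {b a : ℕ} {c c' : Nd n} (h : cell k b a c = cell k b a c') :
    c.2.2 = c'.2.2 ∧ c.1 / (k : ℤ) ^ a = c'.1 / (k : ℤ) ^ a ∧
    |tm k b c - tm k b c'| ≤ (k : ℝ) ^ (2 * b + a) ∧
    ∀ t, ‖ps k b c t - ps k b c' t‖ ≤ n * (k : ℝ) ^ (b + a) := by
  obtain ⟨h1, h2, h3⟩ : c.1 / (k : ℤ) ^ a = c'.1 / (k : ℤ) ^ a ∧ _ ∧ c.2.2 = c'.2.2 := by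
    simpa only [cell, Prod.mk.injEq] using h
  refine ⟨h3, h1, ?_, fun t => ?_⟩
  · have a1 := ediv_bounds hk c.1 a (2 * b)
    have a2 := ediv_bounds hk c'.1 a (2 * b)
    rw [h1, add_comm a] at a1
    rw [add_comm a] at a2
    have h0 : (0 : ℝ) < (k : ℝ) ^ (2 * b) := by positivity
    rw [tm, tm, abs_le]
    constructor <;> linarith [a1.1, a1.2, a2.1, a2.2]
  · have hK : (0 : ℝ) < (k : ℝ) ^ (b + a) := by positivity
    have a1 := norm_sub_of_fl_eq h2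
    rw [h1, ← smul_sub, norm_smul, norm_inv, Real.norm_of_nonneg hK.le, inv_mul_le_iff₀ hK,
      mul_comm _ (n : ℝ)] at a1
    exact (congrArg norm (ps_sub_ps h3 t _)).trans_le a1

end Crest.Agent.N76.L
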