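import Crest.Agent.N76.L.EN

/-! # Row 76, Part I: elementary facts, part 2 (cells and energy) (helper20). -/

set_option autoImplicit false

open Finset Metric
open scoped RealInnerProductSpace

namespace Crest.Agent.N76.L

open Crest.Agent.N76.Red (V)
open Crest.Agent.N76.G

variable {n M : ℕ}

theorem card_le_mul_of_cover {β γ : Type*} (A : Finset β) (I : Finset γ) (F : γ → Finset β) {B : ℝ}
    (hA : ∀ a ∈ A, ∃ y ∈ I, a ∈ F y) (hF : ∀ y ∈ I, ((F y).card : ℝ) ≤ B) :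
    (A.card : ℝ) ≤ I.card * B := by
  classical
  have h1 : A ⊆ I.biUnion F := fun a ha => mem_biUnion.2 (hA a ha)
  have h2 : (A.card : ℝ) ≤ ∑ y ∈ I, ((F y).card : ℝ) := by
    exact_mod_cast (card_le_card h1).trans card_biUnion_le
  exact h2.trans (by simpa using sum_le_card_nsmul _ _ _ hF)

theorem card_image_le_mul {α β γ : Type*} [DecidableEq β] [DecidableEq γ] (S : Finset α)
    (f : α → β) (g : α → γ) {B : ℝ}
    (h : ∀ c₁ ∈ S, (((S.filter fun c => g c = g c₁).image f).card : ℝ) ≤ B) :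
    ((S.image f).card : ℝ) ≤ (S.image g).card * B := by
  refine card_le_mul_of_cover _ _ (fun y => (S.filter fun c => g c = y).image f) (fun a ha => ?_)
    fun y hy => ?_
  · obtain ⟨c, hc, rfl⟩ := mem_image.1 ha
    exact ⟨g c, mem_image_of_mem _ hc, mem_image_of_mem _ (mem_filter.2 ⟨hc, rfl⟩)⟩
  · obtain ⟨c, hc, rfl⟩ := mem_image.1 hy
    exact h c hc

/-- cells with given time index and cap, near a point -/
theorem card_cell_cap {k : ℕ} (hk : 1 ≤ k) (b a : ℕ) (S : Finset (Nd n)) (τ : ℤ) (p : Fin n → ℤ)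
    (y : V n) (t : ℝ) {ρ : ℝ} (hρ : 0 ≤ ρ)
    (h : ∀ c ∈ S, c.1 / (k : ℤ) ^ a = τ ∧ c.2.2 = p ∧ ‖ps k b c t - y‖ ≤ ρ * (k : ℝ) ^ (b + a)) :
    ((S.image (cell k b a)).card : ℝ) ≤ (3 * (ρ + 1)) ^ n := by
  have hK : (0 : ℝ) < (k : ℝ) ^ (b + a) := by positivity
  have h1 : S.image (cell k b a) ⊆ (S.image fun c => fl (((k : ℝ) ^ (b + a))⁻¹ •
      ps k b c ((τ : ℝ) * (k : ℝ) ^ (2 * b + a)))).image fun q => (τ, q, p) := fun B hB => by
    obtain ⟨c, hc, rfl⟩ := mem_image.1 hB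
    refine mem_image.2 ⟨_, mem_image_of_mem _ hc, ?_⟩
    rw [cell, (h c hc).1, (h c hc).2.1]
  refine le_trans (Nat.cast_le.2 ((card_le_card h1).trans card_image_le))
    (card_image_fl S _ (((k : ℝ) ^ (b + a))⁻¹ •
      (y - (2 * ((τ : ℝ) * (k : ℝ) ^ (2 * b + a) - t)) • ((k : ℝ) ^ b)⁻¹ • iv p)) hρ fun c hc => ?_)
  rw [← smul_sub, norm_smul, norm_inv, Real.norm_of_nonneg hK.le, inv_mul_le_iff₀ hK,
    ps_sub k b c _ t, fq, (h c hc).2.1, sub_sub_sub_cancel_right, mul_comm]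
  exact (h c hc).2.2

/-- cells with given time index, near a point of phase space -/
theorem card_cell {k : ℕ} (hk : 1 ≤ k) (b a : ℕ) (S : Finset (Nd n)) (τ : ℤ) (ζ y : V n) (t : ℝ)
    {ρ₁ ρ₂ : ℝ} (h₁ : 1 ≤ ρ₁) (h₂ : 0 ≤ ρ₂)
    (h : ∀ c ∈ S, c.1 / (k : ℤ) ^ a = τ ∧ ‖fq k b c - ζ‖ ≤ ρ₁ / (k : ℝ) ^ b ∧
      ‖ps k b c t - y‖ ≤ ρ₂ * (k : ℝ) ^ (b + a)) :
    ((S.image (cell k b a)).card : ℝ) ≤ (3 * ρ₁) ^ n * (3 * (ρ₂ + 1)) ^ n := by
  refine (card_image_le_mul S _ (fun c => c.2.2) (B := (3 * (ρ₂ + 1)) ^ n) fun c₁ _ =>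
    card_cell_cap hk b a _ τ c₁.2.2 y t h₂ fun c hc => ?_).trans ?_
  · obtain ⟨hc, e⟩ := mem_filter.1 hc
    exact ⟨(h c hc).1, e, (h c hc).2.2⟩
  · gcongr
    exact card_caps hk b S ζ h₁ fun c hc => (h c hc).2.1

theorem cell_zero {k : ℕ} (hk : 1 ≤ k) (b : ℕ) (c : Nd n) : cell k b 0 c = c := by
  have hK : (0 : ℝ) < (k : ℝ) ^ b := by positivity
  simp only [cell, pow_zero, Int.ediv_one, add_zero]
  rw [← tm, ps_tm, ctr, inv_smul_smul₀ hK.ne', fl_iv]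

theorem card_cell_anti {k : ℕ} (hk : 1 ≤ k) (b : ℕ) {a a' : ℕ} (ha : a ≤ a') (N : Finset (Nd n)) :
    ((N.image (cell k b a')).card : ℝ) ≤ (N.image (cell k b a)).card * (3 * ((n : ℝ) + 1)) ^ n := by
  have hk' : (1 : ℝ) ≤ k := by exact_mod_cast hk
  refine card_image_le_mul N _ _ fun c₁ _ => card_cell_cap hk b a' _ (c₁.1 / (k : ℤ) ^ a') c₁.2.2
    (ps k b c₁ 0) 0 (Nat.cast_nonneg _) fun c hc => ?_
  obtain ⟨h1, h2, -, h3⟩ := cell_eq hk (mem_filter.1 hc).2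
  obtain ⟨d, rfl⟩ := Nat.exists_eq_add_of_le ha
  refine ⟨by rw [← ediv_ediv hk, ← ediv_ediv hk, h2], h1, (h3 0).trans ?_⟩
  gcongr

theorem card_cell_lip {k : ℕ} (hk : 1 ≤ k) (b a d : ℕ) (N : Finset (Nd n)) :
    ((N.image (cell k b a)).card : ℝ) ≤ (N.image (cell k b (a + d))).card *
      (3 * (k : ℝ) ^ d * (3 * ((n : ℝ) * (k : ℝ) ^ d + 1)) ^ n) := by
  have hk' : (1 : ℝ) ≤ k := by exact_mod_cast hk
  refine card_image_le_mul N _ _ fun c₁ _ => ?_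
  refine (card_image_le_mul _ _ (fun c => c.1 / (k : ℤ) ^ a)
    (B := (3 * ((n : ℝ) * (k : ℝ) ^ d + 1)) ^ n) fun c₂ _ => ?_).trans ?_
  · refine card_cell_cap hk b a _ (c₂.1 / (k : ℤ) ^ a) c₁.2.2 (ps k b c₁ 0) 0 (by positivity)
      fun c hc => ?_
    obtain ⟨hc, e⟩ := mem_filter.1 hc
    obtain ⟨h1, -, -, h3⟩ := cell_eq hk (mem_filter.1 hc).2
    refine ⟨e, h1, (h3 0).trans_eq ?_⟩
    ring
  · gcongr
    refine card_int _ (((c₁.1 / (k : ℤ) ^ (a + d) : ℤ) : ℝ) * (k : ℝ) ^ d) (one_le_pow₀ hk')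
      fun τ hτ => ?_
    obtain ⟨c, hc, rfl⟩ := mem_image.1 hτ
    obtain ⟨-, h2, -, -⟩ := cell_eq hk (mem_filter.1 hc).2
    have h3 := ediv_bounds hk (c.1 / (k : ℤ) ^ a) d 0
    rw [ediv_ediv hk, h2, add_zero, pow_zero, mul_one, mul_one] at h3
    rw [abs_le]
    constructor <;> nlinarith [h3.1, h3.2, one_le_pow₀ (n := d) hk']

/-- a node near some node of the cell of `c₁` -/
theorem Nr.of_cell {k : ℕ} (hk : 1 ≤ k) {Λ : ℝ} {b a j : ℕ} {c c₁ c' : Nd n}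
    (hc : cell k b a c = cell k b a c₁) (h : Nr k Λ b j c c') :
    ‖fq k j c' - fq k b c₁‖ ≤ Λ * ((j : ℝ) - b) / (k : ℝ) ^ b ∧
    ‖ps k j c' (tm k b c₁) - ctr k b c₁‖ ≤ Λ * ((j : ℝ) - b) * (k : ℝ) ^ j +
      (n + 2 * (Λ * ((j : ℝ) - b))) * (k : ℝ) ^ (b + a) := by
  obtain ⟨h1, -, h3, h4⟩ := cell_eq hk hc
  have hKb : (0 : ℝ) < (k : ℝ) ^ b := by positivity
  have e0 : fq k b c₁ = fq k b c := by rw [fq, fq, h1]
  refine ⟨e0 ▸ h.2.1, ?_⟩
  have e : ps k j c' (tm k b c₁) - ctr k b c₁ = (ps k j c' (tm k b c) - ctr k b c) +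
      (ps k b c (tm k b c₁) - ps k b c₁ (tm k b c₁)) +
      (2 * (tm k b c - tm k b c₁)) • (fq k j c' - fq k b c) := by
    rw [ps_tm, ps_sub k j c' (tm k b c₁) (tm k b c), ps_sub k b c (tm k b c₁) (tm k b c), ps_tm]
    module
  have e1 : ‖(2 * (tm k b c - tm k b c₁)) • (fq k j c' - fq k b c)‖ ≤
      2 * (Λ * ((j : ℝ) - b)) * (k : ℝ) ^ (b + a) := by
    rw [norm_smul, Real.norm_eq_abs, abs_mul, abs_two]
    calc _ ≤ 2 * (k : ℝ) ^ (2 * b + a) * (Λ * ((j : ℝ) - b) / (k : ℝ) ^ b) := by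
          gcongr
          exact h.2.1
      _ = _ := by rw [two_mul b, pow_add, pow_add, pow_add]; field_simp
  rw [e]
  refine (norm_add_le _ _).trans ((add_le_add ((norm_add_le _ _).trans
    (add_le_add h.2.2 (h4 _))) e1).trans_eq ?_)
  ring

namespace Tw

variable (T : Tw n M)

theorem card_shift (hT : T.Std) {b m₁ : ℕ} (a : ℕ) (hm : 1 ≤ m₁) (hb : b + m₁ ≤ M)
    (N : Finset (Nd n)) :
    (((T.nS b (b + m₁) N).image (cell T.k (b + m₁) a)).card : ℝ) ≤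
      T.Λ ^ (4 * n) * (T.k : ℝ) ^ (n * m₁) * (N.image (cell T.k b (a + m₁))).card := by
  have hk := hT.one_le_k
  have hΛ := hT.one_le_Λ
  obtain ⟨h100, hn, hM, hΛk⟩ := hT.Λ_ge
  have hk' : (1 : ℝ) ≤ T.k := by exact_mod_cast hk
  have hm' : (1 : ℝ) ≤ m₁ := by exact_mod_cast hm
  have hmM : (m₁ : ℝ) ≤ M := by exact_mod_cast (by omega : m₁ ≤ M)
  have hn0 : (0 : ℝ) ≤ n := Nat.cast_nonneg _
  rw [mul_comm]
  refine card_le_mul_of_cover _ _ (fun B => (T.nS b (b + m₁)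
    (N.filter fun c => cell T.k b (a + m₁) c = B)).image (cell T.k (b + m₁) a)) (fun B hB => ?_)
    fun B hB => ?_
  · obtain ⟨c', hc', rfl⟩ := mem_image.1 hB
    obtain ⟨h1, c, hc, h2⟩ := T.mem_nS.1 hc'
    exact ⟨_, mem_image_of_mem _ hc,
      mem_image_of_mem _ (T.mem_nS.2 ⟨h1, c, mem_filter.2 ⟨hc, rfl⟩, h2⟩)⟩
  obtain ⟨c₁, -, rfl⟩ := mem_image.1 hB
  refine (card_cell hk (b + m₁) a _ (c₁.1 / (T.k : ℤ) ^ (a + m₁) / (T.k : ℤ) ^ m₁) (fq T.k b c₁)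
    (ctr T.k b c₁) (tm T.k b c₁) (ρ₁ := T.Λ * m₁ * (T.k : ℝ) ^ m₁) (ρ₂ := n + 3 * (T.Λ * m₁))
    (one_le_mul_of_one_le_of_one_le (one_le_mul_of_one_le_of_one_le hΛ hm') (one_le_pow₀ hk'))
    (by positivity) fun c' hc' => ?_).trans ?_
  · obtain ⟨-, c, hc, h2⟩ := T.mem_nS.1 hc'
    have h3 := (mem_filter.1 hc).2
    obtain ⟨g1, g2⟩ := h2.of_cell hk h3
    push_cast at g1 g2
    rw [add_sub_cancel_left] at g1 g2
    refine ⟨?_, g1.trans_eq ?_, g2.trans ?_⟩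
    · rw [h2.1, ← (cell_eq hk h3).2.1, ediv_ediv hk, ediv_ediv hk]; congr 2; omega
    · rw [pow_add]; field_simp
    · have a1 : T.Λ * m₁ * (T.k : ℝ) ^ (b + m₁) ≤ T.Λ * m₁ * (T.k : ℝ) ^ (b + m₁ + a) :=
        mul_le_mul_of_nonneg_left (pow_le_pow_right₀ hk' (by omega)) (by positivity)
      rw [show b + (a + m₁) = b + m₁ + a by omega]
      linarith
  · rw [pow_mul, mul_comm n, pow_mul, ← mul_pow, ← mul_pow]
    refine pow_le_pow_left₀ (by positivity) ?_ n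
    have a1 : 3 * (T.Λ * m₁) ≤ T.Λ ^ 2 := by nlinarith
    have a2 : 3 * (n + 3 * (T.Λ * m₁) + 1) ≤ T.Λ ^ 2 := by nlinarith
    calc _ = 3 * (T.Λ * m₁) * (3 * (n + 3 * (T.Λ * m₁) + 1)) * (T.k : ℝ) ^ m₁ := by ring
      _ ≤ T.Λ ^ 2 * T.Λ ^ 2 * (T.k : ℝ) ^ m₁ := by gcongr
      _ = _ := by ring

theorem card_FL (hT : T.Std) {b a a₁ : ℕ} (h1 : 1 ≤ a₁) (h2 : a ≤ a₁) (h3 : a₁ ≤ 2 * a)
    (hb : b + a₁ + 1 ≤ M) {N : Finset (Nd n)} (hN : N ⊆ T.al b) :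
    ((T.nS b (b + a) N).card : ℝ) * T.a (b + a) ≤
      T.Λ ^ ((9 * n + 2) * M + 12 * n + 3) * (T.k : ℝ) ^ (n * (a₁ - a) + 3 * n) *
        ((N.image (cell T.k b a₁)).card * T.mm b (b + a₁ + 1) * T.a (b + a₁ + 1)) := by
  have hk := hT.one_le_k
  have hΛ := hT.one_le_Λ
  obtain ⟨h100, hn, hM, hΛk⟩ := hT.Λ_ge
  have hk' : (1 : ℝ) ≤ T.k := by exact_mod_cast hk
  have ha := T.a0 (b + a)
  rw [← le_div_iff₀ ha]
  refine (card_le_mul_of_cover _ (N.image (cell T.k b a₁))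
    (fun B => T.nS b (b + a) (N.filter fun c => cell T.k b a₁ c = B))
    (B := T.Λ ^ ((9 * n + 2) * M + 12 * n + 3) * (T.k : ℝ) ^ (n * (a₁ - a) + 3 * n) *
      (T.mm b (b + a₁ + 1) * T.a (b + a₁ + 1)) / T.a (b + a)) (fun c' hc' => ?_)
    fun B hB => ?_).trans_eq (by ring)
  · obtain ⟨g1, c, hc, g2⟩ := T.mem_nS.1 hc'
    exact ⟨_, mem_image_of_mem _ hc, T.mem_nS.2 ⟨g1, c, mem_filter.2 ⟨hc, rfl⟩, g2⟩⟩
  obtain ⟨c₁, hc₁, rfl⟩ := mem_image.1 hB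
  rw [le_div_iff₀ ha]
  set F := N.filter fun c => cell T.k b a₁ c = cell T.k b a₁ c₁ with hF
  have e1 := T.EN1 hT (i := b + a) (u := a₁ - a) (κ := n) (by omega) le_rfl
    (T.nS_subset_al b (b + a) F) (s := c₁.1 / (T.k : ℤ) ^ a₁ / (T.k : ℤ) ^ (2 * a - a₁))
    (fun c' hc' => by
      obtain ⟨-, c, hc, g2⟩ := T.mem_nS.1 hc'
      rw [g2.1, ← (cell_eq hk (mem_filter.1 hc).2).2.1, ediv_ediv hk]; congr 2; omega)
    (EuclideanSpace.basisFun _ ℝ) 0 0 0 (fun _ _ l hl => absurd l.2 (not_lt.2 hl))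
    (fun _ _ _ _ _ l hl => absurd l.2 (not_lt.2 hl))
  rw [show b + a + (a₁ - a) = b + a₁ by omega] at e1
  have hsub := T.nS_nS_subset hT (Nat.le_add_right b a) (by omega : b + a ≤ b + a₁) (by omega) F
  have e2 := T.EN2 hT (b := b) (l := b + a₁) (by omega) hb (hN hc₁)
    (T.nS_subset_al (b + a) (b + a₁) (T.nS b (b + a) F)) fun c' hc' => by
      obtain ⟨-, c, hc, g2⟩ := T.mem_nS.1 (hsub hc')
      have g3 := (mem_filter.1 hc).2
      obtain ⟨g4, g5⟩ := g2.of_cell hk g3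
      refine ⟨?_, g4, g5.trans ?_⟩
      · rw [g2.1, Nat.add_sub_cancel_left, two_mul, ← ediv_ediv hk, ← ediv_ediv hk,
          (cell_eq hk g3).2.1]
      · push_cast
        rw [add_sub_cancel_left, ← add_mul, pow_succ' _ (b + a₁)]
        gcongr
        have a1 : (a₁ : ℝ) ≤ M := by exact_mod_cast (by omega : a₁ ≤ M)
        have a2 : T.Λ ^ 2 ≤ T.k := (pow_le_pow_right₀ hΛ (by norm_num)).trans hT.2
        have a3 : (0 : ℝ) ≤ n := Nat.cast_nonneg _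
        nlinarith
  have e3 := T.a_step hT hb
  have e4 := T.mm1 b (b + a₁ + 1)
  have e5 := (T.a0 (b + a₁ + 1)).le
  have e6 := (T.a0 (b + a₁)).le
  have e7 : T.Λ ^ ((9 * n + 2) * (a₁ - a)) ≤ T.Λ ^ ((9 * n + 2) * M) :=
    pow_le_pow_right₀ hΛ (Nat.mul_le_mul_left _ (by omega))
  refine e1.trans ?_
  calc _ ≤ T.Λ ^ ((9 * n + 2) * M) * (T.k : ℝ) ^ (n * (a₁ - a)) *
        (T.Λ ^ (4 * n + 1) * (T.k : ℝ) ^ n * T.mm b (b + a₁ + 1)) *
        (T.Λ ^ (8 * n + 2) * (T.k : ℝ) ^ (2 * n) * T.a (b + a₁ + 1)) := by gcongr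
    _ = _ := by ring

theorem card_top (hT : T.Std) {b : ℕ} (hb : b ≤ M) {N : Finset (Nd n)} (hN : N ⊆ T.al b)
    (hne : N.Nonempty) : ∃ N' ⊆ N, N'.Nonempty ∧ (N'.image (cell T.k b (2 * (M - b)))).card = 1 ∧
      (N.card : ℝ) * (T.nS b M N').card ≤ T.Λ ^ (4 * n) * ((T.al M).card * N'.card) := by
  classical
  have hk := hT.one_le_k
  have hΛ := hT.one_le_Λ
  obtain ⟨h100, hn, hM, hΛk⟩ := hT.Λ_ge
  have hk' : (1 : ℝ) ≤ T.k := by exact_mod_cast hk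
  set F : Nd n → Finset (Nd n) := fun B => N.filter fun c => cell T.k b (2 * (M - b)) c = B with hF
  set I := N.image (cell T.k b (2 * (M - b))) with hI
  have hFne : ∀ B ∈ I, (F B).Nonempty := fun B hB => by
    obtain ⟨c, hc, rfl⟩ := mem_image.1 hB
    exact ⟨c, mem_filter.2 ⟨hc, rfl⟩⟩
  have hpos : ∀ B ∈ I, (0 : ℝ) < (T.nS b M (F B)).card := fun B hB => by
    exact_mod_cast card_pos.2
      (T.nS_nonempty hb le_rfl ((filter_subset _ _).trans hN) (hFne B hB))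
  obtain ⟨B₀, hB₀, hmax⟩ := exists_max_image I
    (fun B => ((F B).card : ℝ) / (T.nS b M (F B)).card) (hne.image _)
  refine ⟨F B₀, filter_subset _ _, hFne B₀ hB₀, ?_, ?_⟩
  · refine card_eq_one.2 ⟨B₀, eq_singleton_iff_unique_mem.2 ⟨?_, fun B hB => ?_⟩⟩
    · obtain ⟨c, hc⟩ := hFne B₀ hB₀
      exact mem_image.2 ⟨c, hc, (mem_filter.1 hc).2⟩
    · obtain ⟨c, hc, rfl⟩ := mem_image.1 hB
      exact (mem_filter.1 hc).2
  have h1 : (N.card : ℝ) = ∑ B ∈ I, ((F B).card : ℝ) := by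
    exact_mod_cast card_eq_sum_card_image _ N
  have h2 : ∑ B ∈ I, ((T.nS b M (F B)).card : ℝ) ≤ (T.al M).card * T.Λ ^ (4 * n) := by
    have a1 : ∀ B, ((T.nS b M (F B)).card : ℝ) =
        ∑ c' ∈ T.al M, if c' ∈ T.nS b M (F B) then (1 : ℝ) else 0 := fun B => by
      rw [sum_boole, filter_mem_eq_inter, inter_eq_right.2 (T.nS_subset_al _ _ _)]
    simp_rw [a1]
    rw [sum_comm]
    refine (sum_le_card_nsmul _ _ (T.Λ ^ (4 * n)) fun c' _ => ?_).trans_eq (by simp)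
    rw [sum_boole]
    have a2 : (I.filter fun B => c' ∈ T.nS b M (F B)) ⊆
        (N.filter fun c => Nr T.k T.Λ b M c c').image (cell T.k b (2 * (M - b))) := fun B hB => by
      obtain ⟨-, c, hc, g⟩ := T.mem_nS.1 (mem_filter.1 hB).2
      exact mem_image.2 ⟨c, mem_filter.2 ⟨(mem_filter.1 hc).1, g⟩, (mem_filter.1 hc).2⟩
    have hb0 : (0 : ℝ) ≤ b := Nat.cast_nonneg _
    have hbM : (b : ℝ) ≤ M := by exact_mod_cast hb
    have hKb : (0 : ℝ) < (T.k : ℝ) ^ b := by positivity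
    refine le_trans (by exact_mod_cast card_le_card a2) ((card_cell hk b _ _ c'.1 (fq T.k M c')
      (ctr T.k M c') (tm T.k M c') (ρ₁ := T.Λ * (M + 1)) (ρ₂ := 3 * (T.Λ * M)) (by nlinarith)
      (by positivity) fun c hc => ?_).trans ?_)
    · obtain ⟨g1, g2, g3⟩ := (mem_filter.1 hc).2
      have a3 : T.Λ * ((M : ℝ) - b) ≤ T.Λ * M := by gcongr; linarith
      refine ⟨g1.symm, ?_, ?_⟩
      · rw [norm_sub_rev]
        refine g2.trans ?_
        gcongr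
        linarith
      · have e : ps T.k b c (tm T.k M c') - ctr T.k M c' =
            -(ps T.k M c' (tm T.k b c) - ctr T.k b c) -
            (2 * (tm T.k b c - tm T.k M c')) • (fq T.k M c' - fq T.k b c) := by
          rw [ps, ps]; module
        have e1 : ‖(2 * (tm T.k b c - tm T.k M c')) • (fq T.k M c' - fq T.k b c)‖ ≤
            2 * (T.Λ * M) * (T.k : ℝ) ^ (b + 2 * (M - b)) := by
          rw [norm_smul, Real.norm_eq_abs, abs_mul, abs_two]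
          calc _ ≤ 2 * (T.k : ℝ) ^ (2 * M) * (T.Λ * M / (T.k : ℝ) ^ b) := by
                gcongr
                · exact abs_tm_sub_le hk hb g1
                · exact g2.trans (by gcongr)
            _ = _ := by
                rw [show 2 * M = b + 2 * (M - b) + b by omega, pow_add _ _ b]; field_simp
        have e2 : T.Λ * ((M : ℝ) - b) * (T.k : ℝ) ^ M ≤
            T.Λ * M * (T.k : ℝ) ^ (b + 2 * (M - b)) := by
          gcongr; omega
        rw [e]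
        refine (norm_sub_le _ _).trans ?_
        rw [norm_neg]
        linarith
    · rw [pow_mul, ← mul_pow]
      refine pow_le_pow_left₀ (by positivity) ?_ n
      have a1 : 3 * (T.Λ * (M + 1)) ≤ T.Λ ^ 2 := by nlinarith
      have a2 : 3 * (3 * (T.Λ * M) + 1) ≤ T.Λ ^ 2 := by nlinarith
      calc _ ≤ T.Λ ^ 2 * T.Λ ^ 2 := by gcongr
        _ = _ := by ring
  have h3 : (N.card : ℝ) ≤ ((F B₀).card : ℝ) / (T.nS b M (F B₀)).card *
      ∑ B ∈ I, ((T.nS b M (F B)).card : ℝ) := by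
    rw [h1, mul_sum]
    exact sum_le_sum fun B hB => (div_le_iff₀ (hpos B hB)).1 (hmax B hB)
  rw [← le_div_iff₀ (hpos B₀ hB₀)]
  refine h3.trans ((mul_le_mul_of_nonneg_left h2 (by positivity)).trans_eq ?_)
  ring

end Tw

open Classical in
/-- bounded overlap and a cover of the union -/
theorem sum_ms_le {ι α β γ : Type*} (X : Finset ι) (p : ι → α) (w : ι → ℝ) (hw : ∀ i ∈ X, 0 ≤ w i)
    (F : Finset β) (E : β → Set α) (Q : Finset γ) (G : γ → Set α) {D : ℝ} (hD0 : 0 ≤ D)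
    (hD : ∀ z, ((F.filter fun c => z ∈ E c).card : ℝ) ≤ D)
    (hQ : ∀ c ∈ F, ∀ z ∈ E c, ∃ q ∈ Q, z ∈ G q) :
    ∑ c ∈ F, ms X p w (E c) ≤ D * ∑ q ∈ Q, ms X p w (G q) := by
  simp only [ms, sum_filter]
  rw [sum_comm, sum_comm (s := Q), mul_sum]
  refine sum_le_sum fun i hi => ?_
  have h0 := hw i hi
  have h1 : ∀ q ∈ Q, 0 ≤ if p i ∈ G q then w i else 0 := fun q _ => by split_ifs <;> simp [h0]
  by_cases h : ∃ c ∈ F, p i ∈ E c
  · obtain ⟨c, hc, h⟩ := h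
    obtain ⟨q, hq, h⟩ := hQ c hc _ h
    have h2 := single_le_sum h1 hq
    rw [if_pos h] at h2
    rw [← sum_filter, sum_const, nsmul_eq_mul]
    exact mul_le_mul (hD _) h2 h0 hD0
  · rw [sum_eq_zero fun c hc => if_neg fun h' => h ⟨c, hc, h'⟩]
    exact mul_nonneg hD0 (sum_nonneg h1)

namespace Tw

variable (T : Tw n M)

theorem card_W2 (hT : T.Std) (hB : T.Ball) {b : ℕ} (a : ℕ) (hb : b ≤ M) {N : Finset (Nd n)}
    (hN : N ⊆ T.al b) :
    (N.card : ℝ) * T.ν b ≤ T.Λ ^ (5 * n + 2) * (T.k : ℝ) ^ ((n + 1) * b + n * a) *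
      (N.image (cell T.k b a)).card := by
  classical
  have hk := hT.one_le_k
  have hΛ := hT.one_le_Λ
  obtain ⟨h100, hn, hM, hΛk⟩ := hT.Λ_ge
  have hk' : (1 : ℝ) ≤ T.k := by exact_mod_cast hk
  have hν := T.ν0 b
  have hb0 : (0 : ℝ) ≤ b := Nat.cast_nonneg _
  have hn0 : (0 : ℝ) ≤ n := Nat.cast_nonneg _
  have hbM : (b : ℝ) ≤ M := by exact_mod_cast hb
  have hK : (0 : ℝ) < (T.k : ℝ) ^ (b + a) := by positivity
  rw [← le_div_iff₀ hν]
  refine (card_le_image_mul N (cell T.k b a)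
    (B := T.Λ ^ (5 * n + 2) * (T.k : ℝ) ^ ((n + 1) * b + n * a) / T.ν b) fun B hB' => ?_).trans_eq
    (by ring)
  obtain ⟨c₁, hc₁, rfl⟩ := mem_image.1 hB'
  set F := N.filter fun c => cell T.k b a c = cell T.k b a c₁ with hF
  set t₀ : ℝ := ((c₁.1 / (T.k : ℤ) ^ a : ℤ) : ℝ) * (T.k : ℝ) ^ (a + 2 * b) with ht₀
  rw [le_div_iff₀ hν]
  have h1 : (F.card : ℝ) * T.ν b ≤ ∑ c ∈ F, ms T.X id T.w (box T.k T.Λ b c) := by
    simpa using card_nsmul_le_sum F _ (T.ν b) fun c hc => (T.νc b hb c (hN (mem_filter.1 hc).1)).1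
  have h2 := sum_ms_le T.X id T.w T.w0 F (box T.k T.Λ b) (range (T.k ^ b + 1))
    (fun q => closedBall (ps T.k b c₁ (t₀ + q * (T.k : ℝ) ^ (b + a)), t₀ + q * (T.k : ℝ) ^ (b + a))
      (T.Λ ^ 3 * (T.k : ℝ) ^ (b + a))) (D := (3 * (T.Λ * (b + 1))) ^ n) (by positivity)
    (fun z => card_nd_cap hk b _ (win T.k b z.2) c₁.2.2 z.1 z.2 (by nlinarith) fun c hc => by
      obtain ⟨hc, hz⟩ := mem_filter.1 hc
      exact ⟨hz.1.symm, (cell_eq hk (mem_filter.1 hc).2).1, by rw [norm_sub_rev]; exact hz.2⟩)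
    (fun c hc z hz => by
      obtain ⟨-, g2, -, g4⟩ := cell_eq hk (mem_filter.1 hc).2
      have g5 := box_tm hk hz
      have g6 := ediv_bounds hk c.1 a (2 * b)
      rw [g2, ← ht₀, add_mul, add_mul, ← ht₀, one_mul, one_mul, ← tm] at g6
      have g7 : 0 ≤ (z.2 - t₀) / (T.k : ℝ) ^ (b + a) := by
        refine div_nonneg ?_ hK.le
        linarith [g5.1, g6.1]
      have g8 : (z.2 - t₀) / (T.k : ℝ) ^ (b + a) ≤ (T.k ^ b : ℕ) := by
        rw [div_le_iff₀ hK, Nat.cast_pow, ← pow_add, show b + (b + a) = a + 2 * b by omega]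
        linarith [g5.2, g6.2]
      have g9 := Nat.floor_le g7
      have g10 := Nat.lt_floor_add_one ((z.2 - t₀) / (T.k : ℝ) ^ (b + a))
      rw [le_div_iff₀ hK] at g9
      rw [div_lt_iff₀ hK] at g10
      refine ⟨⌊(z.2 - t₀) / (T.k : ℝ) ^ (b + a)⌋₊, mem_range.2 (Nat.lt_succ_of_le
        (Nat.floor_le_of_le g8)), ?_⟩
      set q : ℝ := (⌊(z.2 - t₀) / (T.k : ℝ) ^ (b + a)⌋₊ : ℝ)
      have g11 : |z.2 - (t₀ + q * (T.k : ℝ) ^ (b + a))| ≤ (T.k : ℝ) ^ (b + a) := by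
        rw [abs_le]; constructor <;> linarith
      rw [mem_closedBall, Prod.dist_eq, max_le_iff, dist_eq_norm, Real.dist_eq]
      refine ⟨?_, g11.trans (le_mul_of_one_le_left hK.le (one_le_pow₀ hΛ))⟩
      have e : z.1 - ps T.k b c₁ (t₀ + q * (T.k : ℝ) ^ (b + a)) = (z.1 - ps T.k b c z.2) +
          (ps T.k b c z.2 - ps T.k b c₁ z.2) -
          (2 * (z.2 - (t₀ + q * (T.k : ℝ) ^ (b + a)))) • fq T.k b c₁ := by
        rw [ps_sub T.k b c₁ z.2 (t₀ + q * (T.k : ℝ) ^ (b + a))]; abel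
      have e1 : ‖(2 * (z.2 - (t₀ + q * (T.k : ℝ) ^ (b + a)))) • fq T.k b c₁‖ ≤
          2 * (T.k : ℝ) ^ (b + a) * T.Λ ^ 2 := by
        rw [norm_smul, Real.norm_eq_abs, abs_mul, abs_two]
        gcongr
        exact T.fqb b hb c₁ (hN hc₁)
      have e2 : T.Λ * (b + 1) * (T.k : ℝ) ^ b ≤ T.Λ * T.Λ * (T.k : ℝ) ^ (b + a) := by
        gcongr
        · linarith
        · omega
      have e3 : T.Λ * T.Λ + n + 2 * T.Λ ^ 2 ≤ T.Λ ^ 3 := by nlinarith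
      dsimp only
      rw [e]
      refine (norm_sub_le _ _).trans ((add_le_add ((norm_add_le _ _).trans
        (add_le_add (hz.2.trans e2) (g4 _))) e1).trans ?_)
      nlinarith [mul_le_mul_of_nonneg_right e3 hK.le])
  have h3 := sum_le_card_nsmul (range (T.k ^ b + 1)) _ _ fun q _ =>
    hB (ps T.k b c₁ (t₀ + (q : ℕ) * (T.k : ℝ) ^ (b + a)), t₀ + (q : ℕ) * (T.k : ℝ) ^ (b + a))
      (T.Λ ^ 3 * (T.k : ℝ) ^ (b + a))
      (one_le_mul_of_one_le_of_one_le (one_le_pow₀ hΛ) (one_le_pow₀ hk'))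
  rw [card_range, nsmul_eq_mul] at h3
  push_cast at h3
  have h4 : (T.k : ℝ) ^ b + 1 ≤ T.Λ * (T.k : ℝ) ^ b := by nlinarith [one_le_pow₀ (n := b) hk']
  have h5 : 3 * (T.Λ * (b + 1)) ≤ T.Λ ^ 2 := by nlinarith
  refine h1.trans (h2.trans ((mul_le_mul_of_nonneg_left h3 (by positivity)).trans ?_))
  calc _ ≤ (T.Λ ^ 2) ^ n * (T.Λ * (T.k : ℝ) ^ b * (T.Λ * (T.Λ ^ 3 * (T.k : ℝ) ^ (b + a)) ^ n)) := by
        gcongr
    _ = _ := by ring

theorem lg_mul {x y : ℝ} (hx : 0 < x) (hy : 0 < y) : T.lg (x * y) = T.lg x + T.lg y :=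
  Real.logb_mul hx.ne' hy.ne'

theorem lg_le_pow (hT : T.Std) {E E' e : ℕ} (hE : T.Λ ^ E ≤ T.k) (hE' : E' ≤ E) {x y : ℝ}
    (hx : 0 < x) (h : x ≤ T.Λ ^ E' * (T.k : ℝ) ^ e * y) : T.lg x ≤ T.lg y + e + 1 :=
  T.lg_le hT.two_le_k hx (pow_nonneg (by linarith [hT.one_le_Λ]) _)
    ((pow_le_pow_right₀ hT.one_le_Λ hE').trans hE) h

end Tw

theorem card_pos' {α : Type*} {S : Finset α} (h : S.Nonempty) : (0 : ℝ) < S.card := by
  exact_mod_cast card_pos.2 h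

theorem bas2 (n : ℕ) : BasS2 n := by
  have hn0 : (0 : ℝ) ≤ n := Nat.cast_nonneg _
  refine ⟨3 * n + 1, by linarith, fun M =>
    (good_std M ((9 * n + 2) * M + 12 * n + 3) 0).mono fun T ⟨hT, _, hE⟩ => ?_⟩
  have hk := hT.one_le_k
  have hΛ := hT.one_le_Λ
  obtain ⟨h100, hn, hM, hΛk⟩ := hT.Λ_ge
  have hk' : (1 : ℝ) ≤ T.k := by exact_mod_cast hk
  refine ⟨fun b N => ?_, fun b a a' N ha hN => ?_, fun b a a' N ha hN => ?_,
    fun b m₁ a N hm hb hN hne => ?_, fun b a a₁ N h1 h2 h3 hb hN hne => ?_,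
    fun b N hb hN hne => ?_, fun hB b a N hb hN hne => ?_⟩
  · rw [Tw.cc, Tw.C, image_congr (g := id) fun c _ => cell_zero hk b c, image_id]
  · have := T.lg_le_pow hT hE (E' := n) (e := 0) (y := (N.image (cell T.k b a)).card) (by omega)
      (card_pos' (hN.image _)) ((card_cell_anti hk b ha N).trans (by
        rw [pow_zero, mul_one, mul_comm]; gcongr; linarith))
    simp only [Tw.cc]
    push_cast at this
    linarith
  · obtain ⟨d, rfl⟩ := Nat.exists_eq_add_of_le ha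
    have := T.lg_le_pow hT hE (E' := n + 1) (e := (n + 1) * d)
      (y := (N.image (cell T.k b (a + d))).card) (by omega) (card_pos' (hN.image _))
      ((card_cell_lip hk b a d N).trans (by
        rw [mul_comm]
        refine mul_le_mul_of_nonneg_right ?_ (Nat.cast_nonneg _)
        have a1 : (1 : ℝ) ≤ (T.k : ℝ) ^ d := one_le_pow₀ hk'
        have a2 : 3 * ((n : ℝ) * (T.k : ℝ) ^ d + 1) ≤ T.Λ * (T.k : ℝ) ^ d := by nlinarith
        calc _ ≤ T.Λ * (T.k : ℝ) ^ d * (T.Λ * (T.k : ℝ) ^ d) ^ n := by gcongr; linarith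
          _ = _ := by ring))
    simp only [Tw.cc]
    push_cast at this ⊢
    linarith
  · have := T.lg_le_pow hT hE (by omega)
      (card_pos' ((T.nS_nonempty (Nat.le_add_right b m₁) hb hN hne).image _))
      (T.card_shift hT a hm hb N)
    have hm' : (1 : ℝ) ≤ m₁ := by exact_mod_cast hm
    simp only [Tw.cc]
    push_cast at this
    nlinarith
  · have g1 := card_pos' (T.nS_nonempty (Nat.le_add_right b a) (by omega) hN hne)
    have g2 := card_pos' (hne.image (cell T.k b a₁))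
    have g3 : 0 < T.mm b (b + a₁ + 1) := by linarith [T.mm1 b (b + a₁ + 1)]
    have := T.lg_le_pow hT hE le_rfl (mul_pos g1 (T.a0 _)) (T.card_FL hT h1 h2 h3 hb hN)
    rw [T.lg_mul g1 (T.a0 _), T.lg_mul (mul_pos g2 g3) (T.a0 _), T.lg_mul g2 g3] at this
    simp only [Tw.cc, Tw.C, Tw.m, Tw.A]
    push_cast [h2] at this
    linarith
  · obtain ⟨N', g1, g2, g3, g4⟩ := T.card_top hT hb hN hne
    refine ⟨N', g1, g2, by simp [Tw.cc, g3, Tw.lg], ?_⟩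
    have g5 := card_pos' (T.nS_nonempty hb le_rfl (g1.trans hN) g2)
    have := T.lg_le_pow hT hE (E' := 4 * n) (e := 0) (by omega) (mul_pos (card_pos' hne) g5)
      (by simpa using g4)
    rw [T.lg_mul (card_pos' hne) g5, T.lg_mul (card_pos' (T.al_nonempty le_rfl)) (card_pos' g2)]
      at this
    simp only [Tw.C]
    push_cast at this
    linarith
  · have := T.lg_le_pow hT hE (by omega) (mul_pos (card_pos' hne) (T.ν0 _))
      (T.card_W2 hT hB a hb hN)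
    rw [T.lg_mul (card_pos' hne) (T.ν0 _)] at this
    simp only [Tw.cc, Tw.C, Tw.nu]
    push_cast at this
    linarith

end Crest.Agent.N76.L
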