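import Crest.Agent.N76.L.BuildGeo

/-! # Row 76, Part I: realisation of the abstract tower by the Gaussian tower (helper13). -/

set_option autoImplicit false

open MeasureTheory Finset Metric Filter
open scoped RealInnerProductSpace Topology

namespace Crest.Agent.N76.L

open Crest.Agent.N76.Red (V)
open Crest.Agent.N76.G

variable {n : ℕ}

/-- labels -/
abbrev LabB (n M L : ℕ) :=
  (Fin (M + 1) → Fin (L + 1)) × (Fin (M + 1) → Fin (n + 1) → Prop) × Fin (L + 1) × Prop × Prop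

/-- the statistic which is made uniform -/
noncomputable def stat (k : ℕ) (Λ : ℝ) (M L : ℕ) (X : Finset (V n × ℝ)) (w : V n × ℝ → ℝ) (v : ℝ)
    (j : ℕ) (al : ℕ → Finset (Nd n)) (c : Nd n) : LabB n M L :=
  (fun l => if j < (l : ℕ) then dyl L (nrF k Λ j l (al l) c).card else 0,
    fun l κ => j < (l : ℕ) ∧ NarAt k Λ j l (al l) κ c,
    dyl L (ms X id w (box k Λ j c) / v), v ≤ ms X id w (box k Λ j c), ‖fq k j c‖ ≤ Λ ^ 2)

theorem stat_congr (k : ℕ) (Λ : ℝ) (M L : ℕ) (X : Finset (V n × ℝ)) (w : V n × ℝ → ℝ) (v : ℝ)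
    (j : ℕ) (al al' : ℕ → Finset (Nd n)) (h : ∀ i, j < i → al i = al' i) :
    stat k Λ M L X w v j al = stat k Λ M L X w v j al' := by
  funext c
  refine Prod.ext (funext fun l => ?_) (Prod.ext (funext fun l => funext fun κ => ?_) rfl)
  · by_cases hl : j < (l : ℕ)
    · simp only [stat, if_pos hl, h l hl]
    · simp only [stat, if_neg hl]
  · by_cases hl : j < (l : ℕ)
    · simp only [stat, h l hl]
    · simp only [stat, hl, false_and]

theorem mem_nrF {k : ℕ} {Λ : ℝ} {i j : ℕ} {S : Finset (Nd n)} {c c' : Nd n} :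
    c' ∈ nrF k Λ i j S c ↔ c' ∈ S ∧ Nr k Λ i j c c' := by
  classical
  simp only [nrF, mem_filter]

theorem mem_nrG {k : ℕ} {Λ : ℝ} {i j : ℕ} {S N : Finset (Nd n)} {c' : Nd n} :
    c' ∈ nrG k Λ i j S N ↔ c' ∈ S ∧ ∃ c ∈ N, Nr k Λ i j c c' := by
  classical
  simp only [nrG, mem_filter]

theorem Nr.win_succ {k : ℕ} {Λ : ℝ} {j : ℕ} {c c' : Nd n} (h : Nr k Λ j (j + 1) c c') :
    c'.1 = c.1 / ((k ^ 2 : ℕ) : ℤ) := by
  rw [h.1, Nat.add_sub_cancel_left]; push_cast; rfl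

theorem ms_mono {α : Type*} {X : Finset α} {w : α → ℝ} (hw : ∀ z ∈ X, 0 ≤ w z) {E E' : Set α}
    (h : E ⊆ E') : ms X id w E ≤ ms X id w E' := by
  classical
  unfold ms
  refine sum_le_sum_of_subset_of_nonneg (fun z hz => ?_) fun z hz _ => hw z (mem_filter.1 hz).1
  rw [mem_filter] at hz ⊢
  exact ⟨hz.1, h hz.2⟩

theorem ms_le_total {α : Type*} {X : Finset α} {w : α → ℝ} (hw : ∀ z ∈ X, 0 ≤ w z) (E : Set α) :
    ms X id w E ≤ ∑ z ∈ X, w z := by
  classical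
  exact sum_le_sum_of_subset_of_nonneg (filter_subset _ _) fun z hz _ => hw z hz

theorem sum_le_sum_ms {α κ : Type*} {X Z : Finset α} {w : α → ℝ} (hw : ∀ z ∈ X, 0 ≤ w z)
    (hZ : Z ⊆ X) (S : Finset κ) (E : κ → Set α) (h : ∀ z ∈ Z, ∃ c ∈ S, z ∈ E c) :
    ∑ z ∈ Z, w z ≤ ∑ c ∈ S, ms X id w (E c) := by
  classical
  simp only [ms, sum_filter]
  rw [sum_comm]
  refine le_trans (sum_le_sum fun z hz => ?_) (sum_le_sum_of_subset_of_nonneg hZ fun z hz _ =>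
    sum_nonneg fun c _ => ?_)
  · obtain ⟨c, hc, hz'⟩ := h z hz
    refine le_trans (le_of_eq ?_) (single_le_sum (fun c' _ => ?_) hc)
    · exact (if_pos hz').symm
    · split_ifs; exacts [hw z (hZ hz), le_rfl]
  · split_ifs; exacts [hw z hz, le_rfl]

theorem norm_pt_tower {k : ℕ} (hk : 1 ≤ k) {A : ℕ → ℤ → Set (Ph n)}
    (hA : ∀ l s, MeasurableSet (A l s)) (M : ℕ) (h : L2 n) (z : V n × ℝ) :
    ‖inner ℂ (pt z) (tower k A 0 M h z.2)‖ ^ 2 ≤ ‖h‖ ^ 2 := by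
  refine pow_le_pow_left₀ (norm_nonneg _) ((norm_inner_le_norm _ _).trans ?_) 2
  rw [pt, norm_gam one_pos, one_mul]
  exact norm_tower_le hk hA _ _ _ _

theorem ar1 {x y N : ℝ} (hN : 1 ≤ N) (hy : 0 < y) (h : x ≤ y) : x ≤ N * (y + N * y) := by
  nlinarith [mul_pos (show 0 < N by linarith) hy, mul_pos (show 0 < N * N by positivity) hy]

theorem ar2 {N Λ a b : ℝ} (hN : 0 ≤ N) (h : 2 * (N * (N + 1)) ≤ Λ) (ha : 0 < a) (hb : 0 < b) :
    2 * (N * (a + N * a)) * (N * (b + N * b)) ≤ Λ ^ 2 * a * b := by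
  have h1 : (2 * (N * (N + 1))) ^ 2 ≤ Λ ^ 2 := pow_le_pow_left₀ (by positivity) h 2
  have h2 := mul_le_mul_of_nonneg_right h1 (mul_pos ha hb).le
  have h3 : 0 ≤ (N * (N + 1)) ^ 2 * (a * b) := by positivity
  linarith

theorem ar3 {x Λ : ℝ} (h : x ≤ Λ) (h1 : 1 ≤ Λ) : x ≤ Λ ^ 2 := by nlinarith

theorem ar4 {Λ : ℝ} (h : 8 ≤ Λ) : 3 * Λ * (3 * Λ) ≤ Λ ^ 4 := by
  have : 9 ≤ Λ ^ 2 := by nlinarith
  nlinarith [sq_nonneg Λ]

theorem ar5 {x y z Λ i M : ℝ} (h1 : x ≤ Λ * i) (h2 : z ≤ x + y) (h3 : y ≤ Λ) (h4 : i ≤ M)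
    (h5 : 2 * M + 2 ≤ Λ) (h6 : 0 ≤ M) : z ≤ Λ ^ 2 := by nlinarith

set_option maxHeartbeats 2000000 in
theorem mk_tw (hn : 1 ≤ n) {M k L : ℕ} {Λ τ τ' : ℝ} (h8 : 8 * (n : ℝ) ≤ Λ)
    (hM : 2 * (M : ℝ) + 2 ≤ Λ) (hΛk : Λ ≤ k) (h2n : 8000 * 2 ^ n ≤ Λ)
    (hn2 : 2 * ((n : ℝ) * (n + 1)) ≤ Λ) (hτ : 0 < τ) (hτ' : 0 < τ') (hL : 1 ≤ τ * 2 ^ L)
    (hL' : 1 ≤ τ' * 2 ^ L) (htail : 4 * 2 ^ n * Real.exp (-Real.pi * (Λ ^ 2 / 32)) ≤ τ)
    (X : Finset (V n × ℝ)) (w : V n × ℝ → ℝ) (s₀ : ℤ) (hw : ∀ z ∈ X, 0 ≤ w z)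
    (hW : 0 < ∑ z ∈ X, w z) (hX : ∀ z ∈ X, win k M z.2 = s₀)
    {A : ℕ → ℤ → Set (Ph n)} (hA : ∀ l s, MeasurableSet (A l s)) {h : L2 n} (hh : h ≠ 0)
    {al : ℕ → Finset (Nd n)} {amp : ℕ → ℝ}
    (hU : T.Unif k A M h X id τ (stat k Λ M L X w (τ' * ∑ z ∈ X, w z)) 0 al amp) :
    En X id w (fun z => tower k (T.Aset k A al) 0 M h z.2) ≤
      (τ + (k : ℝ) ^ (2 * M) * τ' / τ) * (∑ z ∈ X, w z) * ‖h‖ ^ 2 ∨
    ∃ T : Tw n M, T.k = k ∧ T.X = X ∧ T.w = w ∧ T.s₀ = s₀ ∧ T.Λ = Λ ∧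
      (∀ i ≤ M, ∀ c ∈ T.al i, (A i c.1 ∩ tile k i c).Nonempty) ∧
      (∀ c ∈ T.al M, ∀ E : Set (V n), (∀ᵐ ξ : V n, ξ ∉ E → h ξ = 0) →
        ∃ ξ ∈ E, ‖ξ - fq k M c‖ ≤ Λ / (k : ℝ) ^ M) ∧
      En X id w (fun z => tower k (Crest.Agent.N76.T.Aset k A al) 0 M h z.2) ≤
        (4 * Λ ^ (8 * n + 1) * (T.a 0 * T.ν 0 * (T.al 0).card) + τ * ∑ z ∈ X, w z) * ‖h‖ ^ 2 := by
  classical
  set W := ∑ z ∈ X, w z with hWdef
  set v := τ' * W with hv
  have hv0 : 0 < v := mul_pos hτ' hW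
  have hn1 : (1 : ℝ) ≤ n := by exact_mod_cast hn
  have hM0 : (0 : ℝ) ≤ M := Nat.cast_nonneg M
  have hΛ8 : 8 ≤ Λ := by linarith
  have hk1 : (1 : ℝ) ≤ k := by linarith
  have hk : 1 ≤ k := by exact_mod_cast hk1
  have hkM : 2 * M + 1 ≤ k := by
    have : ((2 * M + 1 : ℕ) : ℝ) ≤ k := by push_cast; linarith
    exact_mod_cast this
  have hH : 0 < ‖h‖ ^ 2 := pow_pos (norm_pos_iff.2 hh) 2
  set e : ℝ := 2 * 2 ^ n * Real.exp (-Real.pi * (Λ ^ 2 / 32)) * ‖h‖ ^ 2 with he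
  have he0 : 0 ≤ e := by positivity
  have heτ : 2 * e ≤ τ * ‖h‖ ^ 2 := by
    have := mul_le_mul_of_nonneg_right htail hH.le
    rw [he]; linarith
  have hlow : ∀ i ≤ M, τ * ‖h‖ ^ 2 ≤ amp i := fun i hi => hU.low i (Nat.zero_le _) hi
  have hamp : ∀ i ≤ M, 0 < amp i := fun i hi => (mul_pos hτ hH).trans_le (hlow i hi)
  have F1 : ∀ i < M, ∀ c ∈ al i, amp i ≤
      8 * ((nrF k Λ i (i + 1) (al (i + 1)) c).card : ℝ) ^ 2 * (2 / k) ^ n * amp (i + 1) := by
    intro i hi c hc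
    have h1 := T.fact_one hk hA al h hi c (nrF k Λ i (i + 1) (al (i + 1)) c)
      (fun γ hγ => (mem_nrF.1 hγ).1) (fun γ hγ => (mem_nrF.1 hγ).2.win_succ)
      (s := Λ ^ 2 / 32) (μ := 2 * amp (i + 1))
      (fun γ hγ => hU.le _ (Nat.zero_le _) γ (mem_nrF.1 hγ).1)
      (mul_nonneg zero_le_two (hamp _ hi).le)
      fun γ g1 g2 g3 β g4 β' g5 => far_step hk h8 g2 (fun g => g3 (mem_nrF.2 ⟨g1, g⟩)) g4 g5
    have h2 := hU.ge i (Nat.zero_le _) c hc
    have h3 := hlow i hi.le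
    rw [← he] at h1
    linarith
  have chain : ∀ i, ∀ c ∈ al i, ∀ j, i ≤ j → j ≤ M → ∃ c' ∈ al j, Nr k Λ i j c c' := by
    intro i c hc j hij
    induction j, hij using Nat.le_induction with
    | base => exact fun _ => ⟨c, hc, Nr.refl _ _ _ _⟩
    | succ j hij ih =>
      intro hj
      obtain ⟨c', h1, h2⟩ := ih (by omega)
      have h3 : (nrF k Λ j (j + 1) (al (j + 1)) c').Nonempty := by
        by_contra h4
        have h5 := F1 j hj c' h1
        rw [not_nonempty_iff_eq_empty.1 h4] at h5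
        simp only [card_empty, Nat.cast_zero, ne_eq, OfNat.ofNat_ne_zero, not_false_eq_true,
          zero_pow, mul_zero, zero_mul] at h5
        exact absurd (hamp j (by omega)) (not_lt.2 h5)
      obtain ⟨c'', h4⟩ := h3
      exact ⟨c'', (mem_nrF.1 h4).1,
        h2.trans (by linarith) hij (Nat.le_succ j) (by omega) (mem_nrF.1 h4).2⟩
  have hsum : ∀ j ≤ M, ∀ S ⊆ al j, ∀ s : ℤ, (∀ c ∈ S, c.1 = s) →
      (S.card : ℝ) * amp j ≤ ‖h‖ ^ 2 := fun j _ S hS s hs => by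
    have h1 := card_nsmul_le_sum S _ (amp j) fun c hc => hU.ge j (Nat.zero_le _) c (hS hc)
    rw [nsmul_eq_mul] at h1
    exact h1.trans (T.sum_mass_le hk hA al M h j s S hs)
  have hcnt : ∀ j ≤ M, ∀ S ⊆ al j, ∀ s : ℤ, (∀ c ∈ S, c.1 = s) → (S.card : ℝ) ≤ 1 / τ :=
    fun j hj S hS s hs => by
      have h1 := (mul_le_mul_of_nonneg_left (hlow j hj) (Nat.cast_nonneg S.card)).trans
        (hsum j hj S hS s hs)
      rw [le_div_iff₀ hτ]
      exact le_of_mul_le_mul_right (by linarith) hH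
  set Z := X.filter fun z => ∃ c ∈ al 0, z ∈ box k Λ 0 c ∧ ‖fq k 0 c‖ ≤ Λ with hZ
  have hbot : ∀ B : ℝ, (∀ z ∈ Z, ‖inner ℂ (pt z) (tower k (T.Aset k A al) 0 M h z.2)‖ ^ 2 ≤ B + e) →
      En X id w (fun z => tower k (T.Aset k A al) 0 M h z.2) ≤ B * ∑ z ∈ Z, w z + e * W := by
    intro B hB
    rw [hZ, sum_filter, hWdef, mul_sum, mul_sum, ← sum_add_distrib]
    refine sum_le_sum fun z hz => ?_
    split_ifs with h1
    · have := mul_le_mul_of_nonneg_left (hB z (mem_filter.2 ⟨hz, h1⟩)) (hw z hz)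
      simp only [id]; linarith
    · have h2 := T.fact_bottom hk hA al M h z ∅ (empty_subset _) (by simp) (s := Λ ^ 2 / 32)
        (μ := 0) (by simp) le_rfl
        fun γ g1 g2 _ β' g4 => far_bottom hk h8 g2 (fun g => h1 ⟨γ, g1, g⟩) g4
      have := mul_le_mul_of_nonneg_left h2 (hw z hz)
      simp only [id]; rw [he]; linarith
  have hwZ : ∑ z ∈ Z, w z ≤ ∑ c ∈ al 0, ms X id w (box k Λ 0 c) :=
    sum_le_sum_ms hw (filter_subset _ _) _ _ fun z hz =>
      let ⟨c, h1, h2, _⟩ := (mem_filter.1 hz).2; ⟨c, h1, h2⟩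
  have heW : e * W ≤ τ * W * ‖h‖ ^ 2 := by
    linarith [mul_le_mul_of_nonneg_right heτ hW.le, mul_nonneg he0 hW.le]
  have hleft : ∑ z ∈ Z, w z ≤ (k : ℝ) ^ (2 * M) * τ' / τ * W →
      En X id w (fun z => tower k (T.Aset k A al) 0 M h z.2) ≤
        (τ + (k : ℝ) ^ (2 * M) * τ' / τ) * W * ‖h‖ ^ 2 := fun h1 => by
    have h2 := hbot (‖h‖ ^ 2) fun z _ => le_add_of_le_of_nonneg
      (norm_pt_tower hk (T.measurableSet_Aset k hA al) M h z) he0
    linarith [mul_le_mul_of_nonneg_left h1 hH.le]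
  by_cases hZe : Z = ∅
  · exact Or.inl (hleft (by rw [hZe, sum_empty]; positivity))
  obtain ⟨z₀, hz₀⟩ := nonempty_iff_ne_empty.2 hZe
  obtain ⟨c₀, hc₀, -, hq₀⟩ := (mem_filter.1 hz₀).2
  have hst := fun i => hU.stat i (Nat.zero_le i)
  by_cases hj : v ≤ ms X id w (box k Λ 0 c₀)
  swap
  · refine Or.inl (hleft (hwZ.trans ?_))
    have h1 : ∑ c ∈ al 0, ms X id w (box k Λ 0 c) ≤ (al 0).card * v := by
      rw [← nsmul_eq_mul]
      refine sum_le_card_nsmul _ _ _ fun c hc => ?_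
      have : (v ≤ ms X id w (box k Λ 0 c)) = (v ≤ ms X id w (box k Λ 0 c₀)) :=
        congrArg (fun x => x.2.2.2.1) (hst 0 c hc c₀ hc₀)
      exact (not_le.1 (this ▸ hj)).le
    have h2 : ((al 0).card : ℝ) ≤ (k : ℝ) ^ (2 * M) * (1 / τ) := by
      have h3 := card_le_image_mul (al 0) (fun c => c.1) (B := 1 / τ) fun s _ =>
        hcnt 0 (Nat.zero_le _) _ (filter_subset _ _) s fun c hc => (mem_filter.1 hc).2
      refine h3.trans (mul_le_mul_of_nonneg_right ?_ (by positivity))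
      have hK : (0 : ℤ) < ((k ^ (2 * M) : ℕ) : ℤ) := by exact_mod_cast pow_pos hk _
      have h4 : (al 0).image (fun c => c.1) ⊆
          Finset.Ico (s₀ * ((k ^ (2 * M) : ℕ) : ℤ)) ((s₀ + 1) * ((k ^ (2 * M) : ℕ) : ℤ)) := by
        intro s hs
        obtain ⟨c, hc, rfl⟩ := mem_image.1 hs
        obtain ⟨z, hz, e1⟩ := hU.window 0 le_rfl c hc
        have e2 := hX z hz
        rw [win_eq_div k (Nat.zero_le M), Nat.sub_zero] at e2
        simp only [id] at e1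
        rw [e1] at e2
        rw [← e2, Finset.mem_Ico]
        exact ⟨Int.ediv_mul_le _ hK.ne', Int.lt_ediv_add_one_mul_self _ hK⟩
      have h5 := card_le_card h4
      rw [Int.card_Ico, add_mul, one_mul, add_sub_cancel_left, Int.toNat_natCast] at h5
      exact_mod_cast h5
    refine h1.trans ((mul_le_mul_of_nonneg_right h2 hv0.le).trans (le_of_eq ?_))
    rw [hv]; ring
  right
  have hrep : ∀ i, ∃ c, i ≤ M → c ∈ al i ∧ Nr k Λ 0 i c₀ c := fun i => by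
    by_cases hi : i ≤ M
    · obtain ⟨c, h1, h2⟩ := chain 0 c₀ hc₀ i (Nat.zero_le _) hi
      exact ⟨c, fun _ => ⟨h1, h2⟩⟩
    · exact ⟨c₀, fun h' => absurd h' hi⟩
  choose rep hrep using hrep
  have h2L : 1 / τ ≤ 2 ^ L := by rw [div_le_iff₀ hτ]; linarith
  have hbig : ∀ i ≤ M, ∀ c ∈ al i, v ≤ ms X id w (box k Λ i c) := fun i hi c hc => by
    have : (v ≤ ms X id w (box k Λ i c)) = (v ≤ ms X id w (box k Λ i (rep i))) :=
      congrArg (fun x => x.2.2.2.1) (hst i c hc _ (hrep i hi).1)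
    rw [this]
    exact hj.trans (ms_mono hw (box_mono (by linarith) (Nat.zero_le i) (by omega) (hrep i hi).2))
  have hνc : ∀ i ≤ M, ∀ c ∈ al i,
      2 ^ (dyl L (ms X id w (box k Λ i (rep i)) / v) : ℕ) * v ≤ ms X id w (box k Λ i c) ∧
      ms X id w (box k Λ i c) ≤ Λ * (2 ^ (dyl L (ms X id w (box k Λ i (rep i)) / v) : ℕ) * v) := by
    intro i hi c hc
    have h1 : dyl L (ms X id w (box k Λ i c) / v) = dyl L (ms X id w (box k Λ i (rep i)) / v) :=
      congrArg (fun x => x.2.2.1) (hst i c hc _ (hrep i hi).1)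
    obtain ⟨h2, h3⟩ := dyl_spec (L := L) ((one_le_div hv0).2 (hbig i hi c hc)) (by
      rw [div_le_iff₀ hv0, hv]
      have := ms_le_total hw (box k Λ i c)
      linarith [mul_le_mul_of_nonneg_right hL' hW.le])
    rw [h1, le_div_iff₀ hv0] at h2
    rw [h1, div_le_iff₀ hv0] at h3
    refine ⟨h2, h3.trans ?_⟩
    rw [mul_assoc]
    exact mul_le_mul_of_nonneg_right (by linarith) (by positivity)
  have hkp : ∀ i : ℕ, (0 : ℝ) < (k : ℝ) ^ i := fun i => by positivity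
  refine ⟨{ k := k, Λ := Λ, X := X, w := w, s₀ := s₀, al := al
            a := fun i => if i ≤ M then amp i / (‖h‖ ^ 2 * ((k : ℝ) ^ i) ^ n) else 1
            ν := fun i => 2 ^ (dyl L (ms X id w (box k Λ i (rep i)) / v) : ℕ) * v
            mm := fun i j => if i < j then 2 ^ (dyl L (nrF k Λ i j (al j) (rep i)).card : ℕ) else 1
            w0 := hw, top := fun c hc => ?_, ne := ⟨c₀, hc₀⟩, a0 := fun i => ?_
            ν0 := fun i => by positivity, mm1 := fun i j => ?_, fqb := fun i hi c hc => ?_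
            mmc := fun i j hij hj c hc => ?_, νc := hνc
            narc := fun i j κ hij hj c hc c' hc' hN => ?_, e1 := fun i hi c hc => ?_
            e2 := fun i hi S hS s κ O y₀ ζ₀ th wd hs hth hwd h1 h2 => ?_, e3 := ?_ },
    rfl, rfl, rfl, rfl, rfl, fun i hi c hc => ?_, fun c hc E hE => ?_, ?_⟩
  · obtain ⟨z, hz, e1⟩ := hU.window M (Nat.zero_le _) c hc
    rw [← e1]; exact hX z hz
  · split_ifs with hi
    · exact div_pos (hamp i hi) (by positivity)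
    · exact one_pos
  · split_ifs
    · exact one_le_pow₀ one_le_two
    · exact le_rfl
  · have : (‖fq k i c‖ ≤ Λ ^ 2) = (‖fq k i (rep i)‖ ≤ Λ ^ 2) :=
      congrArg (fun x => x.2.2.2.2) (hst i c hc _ (hrep i hi).1)
    rw [this]
    have h1 := (hrep i hi).2.2.1
    have h2 := norm_add_le (fq k i (rep i) - fq k 0 c₀) (fq k 0 c₀)
    have h3 : (i : ℝ) ≤ M := by exact_mod_cast hi
    simp only [sub_add_cancel, pow_zero, div_one, Nat.cast_zero, sub_zero] at h1 h2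
    exact ar5 h1 h2 hq₀ h3 hM hM0
  · rcases hij.lt_or_eq with hlt | rfl
    · rw [if_pos hlt]
      have h1 : dyl L (nrF k Λ i j (al j) c).card = dyl L (nrF k Λ i j (al j) (rep i)).card := by
        have := congrFun (congrArg (fun x => x.1) (hst i c hc _ (hrep i (by omega)).1))
          ⟨j, by omega⟩
        simpa only [stat, if_pos hlt] using this
      obtain ⟨c', g1, g2⟩ := chain i c hc j hij hj
      obtain ⟨h2, h3⟩ := dyl_spec (L := L) (q := (nrF k Λ i j (al j) c).card)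
        (by exact_mod_cast card_pos.2 ⟨c', mem_nrF.2 ⟨g1, g2⟩⟩)
        ((hcnt j hj _ (fun γ hγ => (mem_nrF.1 hγ).1) _ fun γ hγ => (mem_nrF.1 hγ).2.1).trans h2L)
      rw [← h1]
      exact ⟨h2, h3.trans (mul_le_mul_of_nonneg_right (by linarith) (by positivity))⟩
    · have : nrF k Λ i i (al i) c = {c} := eq_singleton_iff_unique_mem.2
        ⟨mem_nrF.2 ⟨hc, Nr.refl _ _ _ _⟩, fun c' h' => (mem_nrF.1 h').2.eq hk⟩
      rw [if_neg (lt_irrefl i), this, card_singleton]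
      constructor <;> simp; linarith
  · rcases hij.lt_or_eq with hlt | rfl
    · by_cases hκ : κ ≤ n
      · have : (i < j ∧ NarAt k Λ i j (al j) κ c) = (i < j ∧ NarAt k Λ i j (al j) κ c') :=
          congrFun (congrFun (congrArg (fun x => x.2.1) (hst i c hc c' hc')) ⟨j, by omega⟩)
            ⟨κ, by omega⟩
        exact (this ▸ (⟨hlt, hN⟩ : i < j ∧ NarAt k Λ i j (al j) κ c)).2
      · exact ⟨EuclideanSpace.basisFun (Fin n) ℝ, 0, fun _ _ _ l hl => by omega⟩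
    · refine ⟨EuclideanSpace.basisFun (Fin n) ℝ, fq k i c', fun c'' _ h' l _ => ?_⟩
      rw [h'.eq hk, sub_self, inner_zero_right, abs_zero]; positivity
  · rw [if_pos hi.le, if_pos (show i + 1 ≤ M from hi), div_le_iff₀ (by positivity)]
    refine (F1 i hi c hc).trans ?_
    have h1 := (hamp _ (show i + 1 ≤ M from hi)).le
    calc 8 * ((nrF k Λ i (i + 1) (al (i + 1)) c).card : ℝ) ^ 2 * (2 / k) ^ n * amp (i + 1)
        = (8 * 2 ^ n) * (((nrF k Λ i (i + 1) (al (i + 1)) c).card : ℝ) ^ 2 * amp (i + 1) / k ^ n) := by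
          rw [div_pow]; ring
      _ ≤ Λ ^ 2 * (((nrF k Λ i (i + 1) (al (i + 1)) c).card : ℝ) ^ 2 * amp (i + 1) / k ^ n) := by
          refine mul_le_mul_of_nonneg_right (ar3 ?_ (by linarith)) (by positivity)
          linarith [pow_pos (two_pos (α := ℝ)) n]
      _ = _ := by rw [pow_succ (k : ℝ) i, mul_pow]; field_simp
  · rw [if_pos hi.le, if_pos (show i + 1 ≤ M from hi)]
    set G := nrG k Λ i (i + 1) (al (i + 1)) S
    have hth0 : 0 < th := (hkp i).trans_le hth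
    have hwd0 : 0 < wd := lt_of_lt_of_le (by positivity) hwd
    have g1 := T.fact_spread hk hA al h hi s S hs G (fun γ hγ => (mem_nrG.1 hγ).1)
      (fun γ hγ => by
        obtain ⟨c, f1, f2⟩ := (mem_nrG.1 hγ).2
        rw [f2.win_succ, hs c f1]) (s := Λ ^ 2 / 32)
      (fun ν f0 γ f1 f2 f3 β f4 β' f5 => by
        have := far_step hk h8 (c := ν) (c' := γ) (by rw [f2, hs ν f0])
          (fun g => f3 (mem_nrG.2 ⟨f1, ν, f0, g⟩)) f4 f5
        rwa [hs ν f0] at this)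
      (nsp O κ) ζ₀ y₀ (w := n * (wd + n * wd)) (th := n * (th + n * th)) (ar1 hn1 hwd0 hwd)
      (by positivity)
      (fun ν f0 β f1 => by
        rw [tile_eq] at f1
        refine proj_le_of_slab O κ hth0.le (by positivity) (h1 ν f0) ?_
        rw [← hs ν f0]
        exact (tile_ctr hk f1).trans (by gcongr))
      (fun γ f0 β f1 => by
        rw [tile_eq] at f1
        refine proj_le_of_slab O κ hwd0.le (by positivity) (h2 γ f0) ?_
        refine (tile_fq hk f1).trans ?_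
        rw [div_eq_mul_one_div]; gcongr)
    rw [finrank_nsp] at g1
    have g2 := card_nsmul_le_sum S _ (amp i) fun c hc => hU.ge i (Nat.zero_le _) c (hS hc)
    have g3 := sum_le_card_nsmul G _ (2 * amp (i + 1))
      fun γ hγ => hU.le _ (Nat.zero_le _) γ (mem_nrG.1 hγ).1
    rw [nsmul_eq_mul] at g2 g3
    have g4 : (2 * (n * (th + n * th)) * (n * (wd + n * wd))) ^ (n - κ) ≤
        (Λ ^ 2 * th * wd) ^ (n - κ) := by
      exact pow_le_pow_left₀ (by positivity) (ar2 (by positivity) hn2 hth0 hwd0) _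
    have ha1 := (hamp _ (show i + 1 ≤ M from hi)).le
    have g5 : (S.card : ℝ) * amp i ≤
        Λ ^ 2 * (Λ ^ 2 * th * wd) ^ (n - κ) * (G.card * amp (i + 1)) := by
      have f1 : 2000 * 2 ^ n * (2 * (n * (th + n * th)) * (n * (wd + n * wd))) ^ (n - κ) *
          ∑ γ ∈ G, T.mass k A al M h (i + 1) γ ≤
          2000 * 2 ^ n * (Λ ^ 2 * th * wd) ^ (n - κ) * (G.card * (2 * amp (i + 1))) :=
        (mul_le_mul_of_nonneg_left g3 (by positivity)).trans (by gcongr)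
      have f2 : (S.card : ℝ) * (2 * e) ≤ S.card * amp i :=
        mul_le_mul_of_nonneg_left (heτ.trans (hlow i hi.le)) (Nat.cast_nonneg _)
      have f3 : 8000 * 2 ^ n * ((Λ ^ 2 * th * wd) ^ (n - κ) * (G.card * amp (i + 1))) ≤
          Λ ^ 2 * ((Λ ^ 2 * th * wd) ^ (n - κ) * (G.card * amp (i + 1))) :=
        mul_le_mul_of_nonneg_right (ar3 h2n (by linarith)) (by positivity)
      rw [he] at f2
      linarith
    rw [← mul_div_assoc, div_le_iff₀ (by positivity)]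
    refine g5.trans (le_of_eq ?_)
    rw [pow_succ (k : ℝ) i, mul_pow ((k : ℝ) ^ i)]; field_simp
  · rw [if_pos le_rfl]
    have h1 := hsum M le_rfl (al M) subset_rfl s₀ fun c hc => by
      obtain ⟨z, hz, e1⟩ := hU.window M (Nat.zero_le _) c hc
      rw [← e1]; exact hX z hz
    rw [show ((al M).card : ℝ) * (amp M / (‖h‖ ^ 2 * ((k : ℝ) ^ M) ^ n)) * ((k : ℝ) ^ M) ^ n =
      (al M).card * amp M / ‖h‖ ^ 2 by field_simp, div_le_one hH]
    exact h1
  · by_contra h1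
    have h2 := hU.ge i (Nat.zero_le _) c hc
    rw [T.mass, tile_eq, Set.not_nonempty_iff_eq_empty.1 h1, setIntegral_empty] at h2
    exact absurd (hamp i hi) (not_lt.2 h2)
  · by_contra h1
    push Not at h1
    have h2 := T.mass_top_far hk A al M h c (ρ := Λ / 2 / (k : ℝ) ^ M) (by positivity)
      fun β hβ => by
        rw [tile_eq] at hβ
        filter_upwards [hE] with ξ g1 g2
        refine g1 fun g3 => absurd (h1 ξ g3) (not_lt.2 ?_)
        rw [show ξ - fq k M c = (ξ - β.2) + (β.2 - fq k M c) by abel]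
        refine (norm_add_le _ _).trans ((add_le_add g2.le (tile_fq hk hβ)).trans ?_)
        rw [← add_div]; gcongr; linarith
    have h3 : Real.exp (-Real.pi * ((k : ℝ) ^ M) ^ 2 * (Λ / 2 / (k : ℝ) ^ M) ^ 2) ≤
        Real.exp (-Real.pi * (Λ ^ 2 / 32)) := by
      refine Real.exp_le_exp.2 ?_
      rw [show -Real.pi * ((k : ℝ) ^ M) ^ 2 * (Λ / 2 / (k : ℝ) ^ M) ^ 2 = -Real.pi * (Λ ^ 2 / 4) by
        field_simp; ring]
      linarith [mul_nonneg Real.pi_pos.le (sq_nonneg Λ)]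
    have h4 := (hlow M le_rfl).trans ((hU.ge M (Nat.zero_le _) c hc).trans h2)
    have h5 : 2 ^ n * Real.exp (-Real.pi * ((k : ℝ) ^ M) ^ 2 * (Λ / 2 / (k : ℝ) ^ M) ^ 2) *
        ‖h‖ ^ 2 ≤ 2 ^ n * Real.exp (-Real.pi * (Λ ^ 2 / 32)) * ‖h‖ ^ 2 := by gcongr
    have h6 := mul_pos hτ hH
    rw [he] at heτ
    linarith
  · have ha0 := (hamp 0 (Nat.zero_le _)).le
    have h1 := hbot (4 * Λ ^ (8 * n) * amp 0) fun z hz => by
      set Nz := (al 0).filter fun c => z ∈ box k Λ 0 c ∧ ‖fq k 0 c‖ ≤ Λ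
      have g1 := T.fact_bottom hk hA al M h z Nz (filter_subset _ _)
        (fun γ hγ => (mem_filter.1 hγ).2.1.1.symm) (s := Λ ^ 2 / 32) (μ := 2 * amp 0)
        (fun γ hγ => hU.le 0 le_rfl γ (mem_filter.1 hγ).1) (by positivity)
        fun γ f1 f2 f3 β' f4 => far_bottom hk h8 f2 (fun g => f3 (mem_filter.2 ⟨f1, g⟩)) f4
      have g2 := card_nd hk 0 Nz (win k 0 z.2) 0 z.1 z.2 (ρ₁ := Λ) (ρ₂ := Λ) (by linarith)
        (by linarith) fun c hc => by
          obtain ⟨-, ⟨f1, f2⟩, f3⟩ := mem_filter.1 hc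
          refine ⟨f1.symm, by simpa using f3, ?_⟩
          rw [norm_sub_rev]; simpa using f2
      have g3 : (Nz.card : ℝ) ≤ Λ ^ (4 * n) := by
        refine g2.trans ?_
        rw [← mul_pow, pow_mul]
        exact pow_le_pow_left₀ (by positivity) (ar4 hΛ8) _
      have g4 : (Nz.card : ℝ) ^ 2 ≤ Λ ^ (8 * n) := by
        rw [show 8 * n = 4 * n * 2 by ring, pow_mul]; gcongr
      rw [← he] at g1
      linarith [mul_le_mul_of_nonneg_right g4 ha0]
    have h2 := sum_le_card_nsmul (al 0) _ _ fun c hc => (hνc 0 (Nat.zero_le _) c hc).2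
    rw [nsmul_eq_mul] at h2
    have h3 := mul_le_mul_of_nonneg_left (hwZ.trans h2)
      (show 0 ≤ 4 * Λ ^ (8 * n) * amp 0 by positivity)
    simp only [if_pos (Nat.zero_le M), pow_zero, one_pow, mul_one]
    refine h1.trans ((add_le_add h3 heW).trans (le_of_eq ?_))
    field_simp; ring

theorem card_lab (n M L : ℕ) :
    (L + 1) * Fintype.card (LabB n M L) + 1 ≤ (2 ^ ((n + 1) * (M + 1)) * 4 + 1) * (L + 1) ^ (M + 3) := by
  have h1 : (L + 1) * Fintype.card (LabB n M L) = 2 ^ ((n + 1) * (M + 1)) * 4 * (L + 1) ^ (M + 3) := by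
    simp only [Fintype.card_prod, Fintype.card_fun, Fintype.card_fin, Fintype.card_prop]
    rw [← pow_mul]; ring
  rw [h1, add_mul (2 ^ ((n + 1) * (M + 1)) * 4) 1, one_mul]
  exact Nat.add_le_add_left (Nat.one_le_pow _ _ (Nat.succ_pos L)) _

set_option maxHeartbeats 2000000 in
/-- **Realisation of the abstract tower.** -/
theorem build (n : ℕ) (hn : 1 ≤ n) : Build n := by
  intro M N₀ m C₀
  set m₁ := m * M + 2 * (n * (2 * M + 1)) + 4 with hm₁
  set m₂ := m₁ + 2 * M + m * M + 3 with hm₂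
  set c₁ : ℝ := ((2 ^ ((n + 1) * (M + 1)) * 4 + 1 : ℕ) : ℝ) ^ (2 * (M + 1)) with hc₁
  have hC4 := T.four_le_C0
  have hn0 : (0 : ℝ) ≤ n := Nat.cast_nonneg n
  have hM0 : (0 : ℝ) ≤ M := Nat.cast_nonneg M
  have hc0 : 0 ≤ c₁ := by positivity
  have h2 : (0 : ℝ) < 2 ^ n := by positivity
  have hC₀ := le_abs_self C₀
  have hC₀' := abs_nonneg C₀
  have hnn : (0 : ℝ) ≤ n * (n + 1) := by positivity
  obtain ⟨k₀, hk₀⟩ := asym (N₀ + 8 * n + 3) m₂ ((M + 3) * (2 * (M + 1))) (by omega)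
    (|C₀| + 8 * n + (2 * M + 2) + 8000 * 2 ^ n + 2 * (n * (n + 1)) + T.C0 + c₁) (by positivity)
  refine ⟨k₀, fun k hk X w s₀ hw _ hX A hA h => ?_⟩
  obtain ⟨Λ, h1, hΛN, h3, h4⟩ := hk₀ k hk
  have hΛ4 : 4 ≤ Λ := by linarith
  have hΛp : ∀ a, a ≤ N₀ + 8 * n + 3 → Λ ^ a ≤ k := fun a ha =>
    hΛN ▸ pow_le_pow_right₀ (by linarith) ha
  have hΛk : Λ ≤ k := by simpa using hΛp 1 (by omega)
  have hk4 : (4 : ℝ) ≤ k := hΛ4.trans hΛk
  have hk1 : 1 ≤ k := by exact_mod_cast (show (1 : ℝ) ≤ k by linarith)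
  have hk0 : (0 : ℝ) < k := by linarith
  set W := ∑ z ∈ X, w z with hWdef
  have hW0 : 0 ≤ W := sum_nonneg hw
  have htriv : En X id w (fun z => tower k A 0 M h z.2) ≤ W * ‖h‖ ^ 2 := by
    rw [hWdef, sum_mul]
    exact sum_le_sum fun z hz => mul_le_mul_of_nonneg_left (norm_pt_tower hk1 hA M h z) (hw z hz)
  by_cases hh : h = 0
  · left; simpa [hh] using htriv
  rcases hW0.eq_or_lt with hW | hW
  · left; simpa [← hW] using htriv
  set L := m₂ * (Nat.log 2 k + 1) with hLdef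
  have hL : ∀ a, a ≤ m₂ → 1 ≤ 1 / (k : ℝ) ^ a * 2 ^ L := fun a ha => by
    rw [one_div, ← div_eq_inv_mul, one_le_div (by positivity), hLdef, mul_comm, pow_mul]
    refine (pow_le_pow_right₀ (by linarith) ha).trans (pow_le_pow_left₀ hk0.le ?_ _)
    exact_mod_cast (Nat.lt_pow_succ_log_self one_lt_two k).le
  have htail : 4 * 2 ^ n * Real.exp (-Real.pi * (Λ ^ 2 / 32)) ≤ 1 / (k : ℝ) ^ m₁ := by
    rw [le_div_iff₀ (by positivity)]
    refine le_trans ?_ h4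
    rw [mul_right_comm]
    refine mul_le_mul_of_nonneg_right (mul_le_mul (by linarith)
      (pow_le_pow_right₀ (by linarith) (by omega)) (by positivity) (by positivity)) (by positivity)
  obtain ⟨al, amp, hU, hE⟩ := T.decomp hk1 hA M hh X id w hw (τ := 1 / (k : ℝ) ^ m₁)
    (by positivity) (hL m₁ (by omega)) (stat k Λ M L X w (1 / (k : ℝ) ^ m₂ * W))
    (stat_congr k Λ M L X w _)
  have hN : (((L + 1) * Fintype.card (LabB n M L) + 1 : ℕ) : ℝ) ^ (2 * (M + 1)) ≤ Λ := by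
    refine le_trans ?_ h3
    have g1 : (((L + 1) * Fintype.card (LabB n M L) + 1 : ℕ) : ℝ) ≤
        ((2 ^ ((n + 1) * (M + 1)) * 4 + 1 : ℕ) : ℝ) * ((L + 1 : ℕ) : ℝ) ^ (M + 3) := by
      exact_mod_cast card_lab n M L
    refine (pow_le_pow_left₀ (Nat.cast_nonneg _) g1 _).trans ?_
    rw [mul_pow, ← pow_mul, ← hc₁]
    exact mul_le_mul_of_nonneg_right (by linarith) (by positivity)
  simp only [id] at hE
  set P : ℝ := (k : ℝ) ^ (m * M) with hP
  have hP0 : 0 < P := by positivity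
  have hH : 0 ≤ ‖h‖ ^ 2 := by positivity
  have hWH : 0 ≤ W / P * ‖h‖ ^ 2 := by positivity
  have hq : ∀ x : ℝ, 0 ≤ x → x * (P * k ^ 2) ≤ 1 → Λ * (x * W * ‖h‖ ^ 2) ≤ W / P * ‖h‖ ^ 2 / 4 := by
    intro x hx g1
    have g2 : Λ * x ≤ 1 / P / 4 := by
      rw [le_div_iff₀ four_pos, le_div_iff₀ hP0]
      calc Λ * x * 4 * P ≤ k * x * k * P := by gcongr
        _ = x * (P * k ^ 2) := by ring
        _ ≤ 1 := g1
    calc Λ * (x * W * ‖h‖ ^ 2) = Λ * x * (W * ‖h‖ ^ 2) := by ring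
      _ ≤ 1 / P / 4 * (W * ‖h‖ ^ 2) := by gcongr
      _ = _ := by ring
  have q1 := hq (1 / (k : ℝ) ^ m₁) (by positivity) (by
    rw [one_div, ← div_eq_inv_mul, div_le_one (by positivity), hP, ← pow_add]
    exact pow_le_pow_right₀ (by linarith) (by omega))
  have q2 := hq ((k : ℝ) ^ (2 * M) * (1 / (k : ℝ) ^ m₂) / (1 / (k : ℝ) ^ m₁)) (by positivity) (by
    rw [show (k : ℝ) ^ (2 * M) * (1 / (k : ℝ) ^ m₂) / (1 / (k : ℝ) ^ m₁) * (P * k ^ 2) =
      (k : ℝ) ^ (2 * M) * (k : ℝ) ^ m₁ * (P * k ^ 2) / (k : ℝ) ^ m₂ by field_simp,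
      div_le_one (by positivity), hP, ← pow_add, ← pow_add, ← pow_add]
    exact pow_le_pow_right₀ (by linarith) (by omega))
  have q3 := hq ((M + 1) * (T.C0 * k) ^ (n * (2 * M + 1)) * (1 / (k : ℝ) ^ m₁)) (by positivity) (by
    rw [show ((M : ℝ) + 1) * (T.C0 * k) ^ (n * (2 * M + 1)) * (1 / (k : ℝ) ^ m₁) * (P * k ^ 2) =
      (M + 1) * (T.C0 * k) ^ (n * (2 * M + 1)) * (P * k ^ 2) / (k : ℝ) ^ m₁ by field_simp,
      div_le_one (by positivity)]
    calc ((M : ℝ) + 1) * (T.C0 * k) ^ (n * (2 * M + 1)) * (P * k ^ 2)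
        ≤ k * (k * k) ^ (n * (2 * M + 1)) * (P * k ^ 2) := by gcongr <;> linarith
      _ = (k : ℝ) ^ (m * M + 2 * (n * (2 * M + 1)) + 3) := by
          rw [hP, ← sq, ← pow_mul]; ring
      _ ≤ _ := pow_le_pow_right₀ (by linarith) (by omega))
  have hE0 : 0 ≤ En X id w (fun z => tower k (T.Aset k A al) 0 M h z.2) :=
    sum_nonneg fun z hz => mul_nonneg (hw z hz) (by positivity)
  have hE' := hE.trans (mul_le_mul_of_nonneg_right hN (by positivity))
  rw [← hWdef] at hE'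
  rcases mk_tw hn (by linarith) (by linarith) hΛk (by linarith) (by linarith) (by positivity)
    (by positivity) (hL m₁ (by omega)) (hL m₂ le_rfl) htail X w s₀ hw hW hX hA hh hU with g | g
  · left
    have g1 := mul_le_mul_of_nonneg_left g (show 0 ≤ Λ by linarith)
    rw [← hWdef] at g1
    linarith
  · obtain ⟨T, t1, t2, t3, t4, t5, t6, t7, t8⟩ := g
    refine Or.inr ⟨T, t1, t2, t3, t4, by rw [t5]; linarith, by rw [t5]; exact hΛp _ (by omega), t6,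
      by rw [t5]; exact t7, ?_⟩
    have g1 := mul_le_mul_of_nonneg_left t8 (show 0 ≤ Λ by linarith)
    rw [← hWdef] at g1
    have g2 : 0 ≤ T.a 0 * T.ν 0 * (T.al 0).card * ‖h‖ ^ 2 := by
      have := T.a0 0
      have := T.ν0 0
      positivity
    have g3 : Λ * (4 * Λ ^ (8 * n + 1)) ≤ k := by
      refine le_trans ?_ (hΛp (8 * n + 3) (by omega))
      calc Λ * (4 * Λ ^ (8 * n + 1)) ≤ Λ * (Λ * Λ ^ (8 * n + 1)) := by gcongr
        _ = Λ ^ (8 * n + 3) := by ring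
    have g4 := mul_le_mul_of_nonneg_right g3 g2
    linarith

end Crest.Agent.N76.L
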