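import Crest.Agent.N76.L.Slice
import Crest.Agent.N76.L.Bas1
import Crest.Agent.N76.MK.Main

/-! # Row 76, Part I (helper15): the broad core `CoreS n`. -/

set_option autoImplicit false

open Finset
open scoped RealInnerProductSpace

namespace Crest.Agent.N76.L

open Crest.Agent.N76.Red (V)
open Crest.Agent.N76.G

variable {n M : ℕ}

/-- multilinear Kakeya with constant `C` -/
def MKc (n κ : ℕ) (C ε : ℝ) : Prop :=
  ∀ (s : Fin (κ + 1) → Finset (Nd n)) (w : Nd n → ℝ) (p u : Nd n → Fin (κ + 1) → ℝ)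
    (X : Finset (Nd n)) (x : Nd n → Fin (κ + 1) → ℝ) (A : Nd n → Fin (κ + 1) → Finset (Nd n))
    (θ ρ R m : ℝ), 0 < θ → θ ≤ 1 → 1 ≤ ρ → 1 ≤ R → (∀ j, ∀ l ∈ s j, 0 ≤ w l) →
    (∀ j, ∀ l ∈ s j, ∀ i, |u l i| ≤ 1) → (∀ a ∈ X, ∀ i, |x a i| ≤ R) → MK.Mult X x m →
    (∀ a ∈ X, ∀ j, A a j ⊆ s j) →
    (∀ a ∈ X, ∀ j, ∀ l ∈ A a j, ∃ t : ℝ, ∀ i, |x a i - (p l i + t * u l i)| ≤ ρ) →
    (∀ a ∈ X, ∀ l : Fin (κ + 1) → Nd n, (∀ j, l j ∈ A a j) →
      θ ≤ |(Matrix.of fun i j => u (l j) i).det|) →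
    ∑ a ∈ X, ∏ j, (∑ l ∈ A a j, w l) ^ ((1 : ℝ) / κ) ≤
      C * m * ρ ^ (κ + 1) / θ ^ ((κ + 1) * (κ + 2)) * R ^ ε * ∏ j, (∑ l ∈ s j, w l) ^ ((1 : ℝ) / κ)

theorem good_mkc (M κ : ℕ) :
    Good n M fun T => 1 ≤ κ → ∃ C, 0 < C ∧ C ≤ T.Λ ∧ MKc n κ C (1 / ((M : ℝ) + 1)) := by
  by_cases h : 1 ≤ κ
  · obtain ⟨C, h1, h2⟩ := MK.mk.{0, 0} (D := Fin (κ + 1)) (Fintype.card_fin _) h
      (1 / ((M : ℝ) + 1)) (by positivity)
    exact ⟨0, C, fun T hC _ _ => ⟨C, h1, hC, fun s w p u X x A => h2 s w p u X x A⟩⟩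
  · exact good_true fun _ h' => absurd h' h

theorem rpow_prod_const {κ : ℕ} (h1 : 1 ≤ κ) {x : ℝ} (hx : 0 ≤ x) :
    ∏ _j : Fin (κ + 1), x ^ ((1 : ℝ) / κ) = x ^ (((κ : ℝ) + 1) / κ) := by
  rw [prod_const, card_univ, Fintype.card_fin, ← Real.rpow_natCast, ← Real.rpow_mul hx]
  congr 1; push_cast; ring

/-- exponent of the loss in the group inequality -/
def eMK (n m₀ : ℕ) : ℕ := 4 * n + 4 + (n * m₀ + n + 2) * ((n + 1) * (n + 2))

theorem Grp.mk' {T : Tw n M} {κ : ℕ} {hκ : κ ≤ n} {b m₀ a a₁ : ℕ} {G : Finset (Nd n)}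
    {O : OrthonormalBasis (Fin n) ℝ (V n)} {ζ₀ : V n} {cs : Nd n → Fin (κ + 1) → Nd n}
    (D : Grp T hκ b m₀ (b + (n * m₀ + 2)) a a₁ G O ζ₀ cs) (hT : T.Std) (h1 : 1 ≤ κ)
    (hbig : 2 * ((n + 1).factorial * (((n : ℝ) + 1) * (T.Λ ^ 2) ^ (n + 2))) ≤ (T.k : ℝ) ^ 2)
    {C : ℝ} (hC0 : 0 < C) (hC : C ≤ T.Λ) (hMK : MKc n κ C (1 / ((M : ℝ) + 1)))
    (hm : n * m₀ + 2 ≤ a) (ha : a ≤ a₁) (ha₁ : a₁ ≤ 2 * a) (hM : b + a ≤ M) {W : ℝ} (hW0 : 0 ≤ W)
    (hW : ∀ j, ((T.nS (b + (n * m₀ + 2)) (b + a) (G.image fun c => cs c j)).card : ℝ) ≤ W) :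
    ((G.image (L.cell T.k b a)).card : ℝ) *
      T.mm (b + (n * m₀ + 2)) (b + a) ^ (((κ : ℝ) + 1) / κ) ≤
      (T.k : ℝ) ^ eMK n m₀ * W ^ (((κ : ℝ) + 1) / κ) := by
  obtain ⟨hk, hk', hΛ, hMΛ, hnΛ, hΛk⟩ := hT.num
  rcases G.eq_empty_or_nonempty with rfl | ⟨c₀, h₀⟩
  · simp only [image_empty, card_empty, Nat.cast_zero, zero_mul]; positivity
  obtain ⟨Y, hYG, hinj, hY⟩ := Finset.exists_subset_injOn_image_eq_of_surjOn
    (f := L.cell T.k b a) (G : Set (Nd n)) (G.image (L.cell T.k b a)) (by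
      rw [coe_image]; exact Set.surjOn_image _ _)
  have hYG' : Y ⊆ G := fun c hc => mem_coe.1 (hYG (mem_coe.2 hc))
  have hΛ2 : 1 ≤ T.Λ ^ 2 := one_le_pow₀ hΛ
  have hΛ2k : T.Λ ^ 2 ≤ T.k := (pow_le_pow_right₀ hΛ (by norm_num)).trans hΛk
  have hΛ20 : 0 < T.Λ ^ 2 := by positivity
  have hM0 : (0 : ℝ) ≤ M := Nat.cast_nonneg _
  have hn0 : (0 : ℝ) ≤ n := Nat.cast_nonneg _
  have h2M : 2 * T.Λ * M ≤ T.Λ ^ 2 := by nlinarith
  set b' := b + (n * m₀ + 2) with hb'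
  set v : Nd n → Fin κ → ℝ := fun l =>
    tv O hκ ((T.k : ℝ) ^ b) (fq T.k b c₀) (fq T.k (b + a) l) with hv
  set θ : ℝ := (T.Λ ^ 2)⁻¹ ^ (κ + 1) * (1 / (2 * (T.k : ℝ) ^ (n * m₀))) with hθ
  have hq : (1 : ℝ) ≤ (T.k : ℝ) ^ (n * m₀) := one_le_pow₀ hk'
  have hθ0 : 0 < θ := by positivity
  have hθ1 : θ ≤ 1 := mul_le_one₀ (pow_le_one₀ (by positivity) (inv_le_one_of_one_le₀ hΛ2))
    (by positivity) ((div_le_one (by positivity)).2 (by linarith))
  have hkM : (1 : ℝ) ≤ (T.k : ℝ) ^ M := one_le_pow₀ hk'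
  have key := hMK (fun j => T.nS b' (b + a) (G.image fun c => cs c j)) (fun _ => 1)
    (fun l => Fin.cons 0 (li T.k b a O hκ c₀ l))
    (fun l i => (T.Λ ^ 2)⁻¹ * (Fin.cons 1 (v l) : Fin (κ + 1) → ℝ) i) Y
    (fun c => Fin.cons (ct T.k b a c₀ c) (cx T.k b a O hκ c₀ c))
    (fun c j => T.nr b' (b + a) (cs c j)) θ (T.Λ ^ 2) ((n + 1) * (T.k : ℝ) ^ M)
    ((T.k : ℝ) ^ (3 * n + 1)) hθ0 hθ1 hΛ2 (by nlinarith) (fun _ _ _ => zero_le_one) ?_ ?_ ?_ ?_ ?_ ?_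
  · have hmm := T.mm1 b' (b + a)
    have e1 : ((G.image (L.cell T.k b a)).card : ℝ) * T.mm b' (b + a) ^ (((κ : ℝ) + 1) / κ) ≤
        ∑ c ∈ Y, ∏ j, (∑ _l ∈ T.nr b' (b + a) (cs c j), (1 : ℝ)) ^ ((1 : ℝ) / κ) := by
      rw [← hY, card_image_of_injOn hinj, ← nsmul_eq_mul, ← sum_const]
      refine sum_le_sum fun c hc => ?_
      rw [← rpow_prod_const h1 (by linarith)]
      refine prod_le_prod (fun _ _ => by positivity) fun j _ => ?_
      refine Real.rpow_le_rpow (by linarith) ?_ (by positivity)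
      rw [sum_const, nsmul_eq_mul, mul_one]
      exact (T.mmc b' (b + a) (by omega) hM _ (T.mem_nr.1 (D.near c (hYG' hc) j)).1).1
    have e2 : ∏ j, (∑ _l ∈ T.nS b' (b + a) (G.image fun c => cs c j), (1 : ℝ)) ^ ((1 : ℝ) / κ) ≤
        W ^ (((κ : ℝ) + 1) / κ) := by
      rw [← rpow_prod_const h1 hW0]
      refine prod_le_prod (fun _ _ => by positivity) fun j _ => ?_
      refine Real.rpow_le_rpow (by positivity) ?_ (by positivity)
      rw [sum_const, nsmul_eq_mul, mul_one]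
      exact hW j
    have e3 : (((n : ℝ) + 1) * (T.k : ℝ) ^ M) ^ (1 / ((M : ℝ) + 1)) ≤ T.k := by
      have : ((n : ℝ) + 1) * (T.k : ℝ) ^ M ≤ (T.k : ℝ) ^ (M + 1) := by
        rw [pow_succ']
        gcongr
        linarith [hT.Λ_ge.2.1, hT.Λ_ge.2.2.2]
      refine (Real.rpow_le_rpow (by positivity) this (by positivity)).trans (le_of_eq ?_)
      rw [one_div, ← Nat.cast_succ, Real.pow_rpow_inv_natCast (by positivity) (Nat.succ_ne_zero _)]
    have e4 : 1 / θ ^ ((κ + 1) * (κ + 2)) ≤ (T.k : ℝ) ^ ((n * m₀ + n + 2) * ((n + 1) * (n + 2))) := by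
      have f1 : 1 / θ ≤ (T.k : ℝ) ^ (n * m₀ + n + 2) := by
        have f2 : (T.Λ ^ 2) ^ (κ + 1) ≤ (T.k : ℝ) ^ (n + 1) :=
          (pow_le_pow_left₀ hΛ20.le hΛ2k _).trans (pow_le_pow_right₀ hk' (by omega))
        have f3 : (2 : ℝ) ≤ T.k := by exact_mod_cast hT.two_le_k
        calc 1 / θ = (T.Λ ^ 2) ^ (κ + 1) * (2 * (T.k : ℝ) ^ (n * m₀)) := by
              rw [hθ, inv_pow]; field_simp
          _ ≤ (T.k : ℝ) ^ (n + 1) * (T.k * (T.k : ℝ) ^ (n * m₀)) := by gcongr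
          _ = _ := by ring
      rw [← one_div_pow, pow_mul (T.k : ℝ)]
      refine (pow_le_pow_left₀ (by positivity) f1 _).trans
        (pow_le_pow_right₀ (one_le_pow₀ hk') (Nat.mul_le_mul (by omega) (by omega)))
    have e5 : (T.Λ ^ 2) ^ (κ + 1) ≤ (T.k : ℝ) ^ (n + 1) :=
      (pow_le_pow_left₀ hΛ20.le hΛ2k _).trans (pow_le_pow_right₀ hk' (by omega))
    refine e1.trans (key.trans (mul_le_mul ?_ e2 (prod_nonneg fun _ _ => by positivity)
      (by positivity)))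
    have e6 : C ≤ T.k := hC.trans hT.Λ_ge.2.2.2
    calc _ = C * (T.k : ℝ) ^ (3 * n + 1) * (T.Λ ^ 2) ^ (κ + 1) * (1 / θ ^ ((κ + 1) * (κ + 2))) *
          (((n : ℝ) + 1) * (T.k : ℝ) ^ M) ^ (1 / ((M : ℝ) + 1)) := by ring
      _ ≤ T.k * (T.k : ℝ) ^ (3 * n + 1) * (T.k : ℝ) ^ (n + 1) *
          (T.k : ℝ) ^ ((n * m₀ + n + 2) * ((n + 1) * (n + 2))) * T.k := by gcongr
      _ = _ := by rw [eMK]; ring
  · intro j l hl i
    obtain ⟨_, c', hc', h⟩ := T.mem_nS.1 hl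
    obtain ⟨c, hc, rfl⟩ := mem_image.1 hc'
    rw [abs_mul, abs_of_pos (inv_pos.2 hΛ20), inv_mul_le_iff₀ hΛ20, mul_one]
    refine Fin.cases (by simpa using hΛ2) (fun i => ?_) i
    rw [Fin.cons_succ, hv]
    dsimp only
    rw [← fq_congr T.k b (cell_eq hk (D.cell c hc c₀ h₀)).1]
    exact ((D.nr_trans hT (by omega) (by omega) hM hc h).tv_le hk (by linarith) hM O hκ i).trans h2M
  · intro c hc i
    obtain ⟨f1, f2⟩ := D.bd hk ha h₀ (hYG' hc)
    have f3 : (T.k : ℝ) ^ (a₁ - a) ≤ (T.k : ℝ) ^ M := pow_le_pow_right₀ hk' (by omega)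
    refine Fin.cases ?_ (fun i => ?_) i
    · rw [Fin.cons_zero]; nlinarith
    · rw [Fin.cons_succ]; nlinarith [f2 i]
  · intro y
    have key : ∀ S : Finset (Nd n), (∀ c ∈ S, c ∈ Y ∧ ∀ i,
        |(Fin.cons (ct T.k b a c₀ c) (cx T.k b a O hκ c₀ c) : Fin (κ + 1) → ℝ) i - y i| ≤ 1) →
        (S.card : ℝ) ≤ (T.k : ℝ) ^ (3 * n + 1) := by
      intro S hS
      have hSY : S ⊆ Y := fun c hc => (hS c hc).1
      rw [← card_image_of_injOn (hinj.mono (coe_subset.2 hSY))]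
      refine D.mult hT c₀ _ (hSY.trans hYG') (fun l => y l.succ) (y 0) fun c hc => ?_
      have := (hS c hc).2
      exact ⟨by simpa using this 0, fun l => by simpa using this l.succ⟩
    exact key _ fun c hc => by simpa only [mem_filter] using hc
  · intro c hc j l hl
    obtain ⟨f1, f2⟩ := T.mem_nr.1 hl
    exact T.mem_nS.2 ⟨f1, _, mem_image_of_mem _ (hYG' hc), f2⟩
  · intro c hc j l hl
    refine ⟨T.Λ ^ 2 * ct T.k b a c₀ c, fun i => Fin.cases ?_ (fun i => ?_) i⟩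
    · simp only [Fin.cons_zero]
      rw [zero_add, mul_one, mul_right_comm, mul_inv_cancel₀ hΛ20.ne', one_mul, sub_self, abs_zero]
      exact hΛ20.le
    · simp only [Fin.cons_succ]
      have f1 := D.near_line hT hM h₀ (hYG' hc)
        (D.nr_trans hT (by omega) (by omega) hM (hYG' hc) (T.mem_nr.1 hl).2) i
      have f2 : T.Λ ^ 2 * ct T.k b a c₀ c * ((T.Λ ^ 2)⁻¹ * v l i) = ct T.k b a c₀ c * v l i := by
        field_simp
      rw [f2, add_comm, ← sub_sub]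
      exact f1.trans (by nlinarith)
  · intro c hc l hl
    have f1 := D.det_ge hT hbig (by omega) hM h₀ l fun j => ⟨c, hYG' hc, (T.mem_nr.1 (hl j)).2⟩
    have f2 : (Matrix.of fun i j => (T.Λ ^ 2)⁻¹ * (Fin.cons 1 (v (l j)) : Fin (κ + 1) → ℝ) i) =
        (T.Λ ^ 2)⁻¹ • Matrix.of fun i j => (Fin.cons 1 (v (l j)) : Fin (κ + 1) → ℝ) i := rfl
    rw [f2, Matrix.det_smul, Fintype.card_fin, abs_mul, abs_of_pos (by positivity)]
    exact mul_le_mul_of_nonneg_left f1 (by positivity)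

/-- the number of tubes of one family in one leaf -/
theorem Grp.card_fam {T : Tw n M} {κ : ℕ} {hκ : κ ≤ n} {b m₀ b' a a₁ : ℕ} {G : Finset (Nd n)}
    {O : OrthonormalBasis (Fin n) ℝ (V n)} {ζ₀ : V n} {cs : Nd n → Fin (κ + 1) → Nd n}
    (D : Grp T hκ b m₀ b' a a₁ G O ζ₀ cs) (hT : T.Std) (hN : T.Λ ^ ((9 * n + 2) * M) ≤ T.k)
    (hbb : b ≤ b') (hb' : b' ≤ b + a) (ha : a ≤ a₁) (ha₁ : a₁ ≤ 2 * a) (hM : b + a₁ + 1 ≤ M)
    (j : Fin (κ + 1)) :
    ((T.nS b' (b + a) (G.image fun c => cs c j)).card : ℝ) ≤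
      (T.k : ℝ) ^ (κ * (a₁ - a) + (15 * n + 4)) *
        (T.mm b' (b + a₁ + 1) * (T.a (b + a₁ + 1) / T.a (b + a))) := by
  obtain ⟨hk, hk', hΛ, hMΛ, hnΛ, hΛk⟩ := hT.num
  obtain ⟨u, rfl⟩ := Nat.exists_eq_add_of_le ha
  rw [Nat.add_sub_cancel_left]
  have h1 := D.en hT (u := u) le_rfl ha₁ (by omega)
    (S := T.nS b' (b + a) (G.image fun c => cs c j)) fun l hl => by
      obtain ⟨f, c', hc', h⟩ := T.mem_nS.1 hl
      obtain ⟨c, hc, rfl⟩ := mem_image.1 hc'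
      exact T.mem_nS.2 ⟨f, c, hc, D.nr_trans hT hbb hb' (by omega) hc h⟩
  have h2 := D.absorb hT hbb (by omega) hM j
  have h3 : ((T.nS (b + a) (b + a + u) (T.nS b' (b + a) (G.image fun c => cs c j))).card : ℝ) ≤
      (T.nS b' (b + (a + u)) (G.image fun c => cs c j)).card := by
    rw [← add_assoc]
    exact_mod_cast card_le_card (T.nS_nS_subset hT hb' (by omega) (by omega) _)
  have h4 := T.a_step hT hM
  rw [← add_assoc] at h4
  have h5 : T.Λ ^ ((9 * n + 2) * u) ≤ T.k :=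
    (pow_le_pow_right₀ hΛ (Nat.mul_le_mul_left _ (by omega))).trans hN
  have h6 : T.Λ ≤ T.k := hT.Λ_ge.2.2.2
  have p1 := T.a0 (b + a)
  have p2 := (T.a0 (b + a + u)).le
  have p3 := (T.a0 (b + a + u + 1)).le
  have p4 : 0 ≤ T.mm b' (b + (a + u) + 1) := zero_le_one.trans (T.mm1 _ _)
  rw [← mul_div_assoc, ← mul_div_assoc, le_div_iff₀ p1]
  refine h1.trans ?_
  calc _ ≤ T.k * (T.k : ℝ) ^ (κ * u) *
        ((T.k : ℝ) ^ (4 * n + 1) * (T.k : ℝ) ^ n * T.mm b' (b + (a + u) + 1)) *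
        ((T.k : ℝ) ^ (8 * n + 2) * (T.k : ℝ) ^ (2 * n) * T.a (b + a + u + 1)) := by
        gcongr
        · refine (h3.trans h2).trans ?_
          gcongr
        · refine h4.trans ?_
          gcongr
    _ = _ := by rw [← add_assoc b a u]; ring

theorem card_img_le_sum {α β γ : Type*} [DecidableEq β] [DecidableEq γ] (S : Finset α) (f : α → β)
    (g : α → γ) : ((S.image f).card : ℝ) ≤
      ∑ y ∈ S.image g, (((S.filter fun x => g x = y).image f).card : ℝ) := by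
  have h1 : S.image f ⊆ (S.image g).biUnion fun y => (S.filter fun x => g x = y).image f := by
    intro z hz
    obtain ⟨a, ha, rfl⟩ := mem_image.1 hz
    exact mem_biUnion.2 ⟨g a, mem_image_of_mem _ ha, mem_image_of_mem _ (mem_filter.2 ⟨ha, rfl⟩)⟩
  exact_mod_cast (card_le_card h1).trans card_biUnion_le

theorem Tw.lg_rpow (T : Tw n M) {x : ℝ} (hx : 0 < x) (p : ℝ) : T.lg (x ^ p) = p * T.lg x :=
  Real.logb_rpow_eq_mul_logb_of_pos hx

/-- exponent of the loss in the counting of groups -/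
def eGr (n m₀ : ℕ) : ℕ := (n * m₀ + 2 + 1) * n * (n + 1) + 3 * n

/-- the constant of the core -/
def cCore (n : ℕ) : ℕ := eMK n 1 + eGr n 1 + 2 * (15 * n + 4)

theorem cCore_le (n : ℕ) {m₀ : ℕ} (h : 1 ≤ m₀) :
    (eMK n m₀ : ℝ) + eGr n m₀ + 2 * (15 * n + 4) ≤ cCore n * m₀ := by
  have : eMK n m₀ + eGr n m₀ + 2 * (15 * n + 4) ≤ cCore n * m₀ := by
    obtain ⟨e, rfl⟩ := Nat.exists_eq_add_of_le h
    unfold cCore eMK eGr
    nlinarith [Nat.zero_le (e * n), Nat.zero_le (e * n * n), Nat.zero_le (e * n * n * n)]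
  exact_mod_cast this

theorem core (n : ℕ) : CoreS n := by
  refine ⟨cCore n, by exact_mod_cast (by unfold cCore; omega : 1 ≤ cCore n), fun M => ?_⟩
  refine ((good_std M ((9 * n + 2) * M + (2 * n + 5))
    (2 * ((n + 1).factorial * ((n : ℝ) + 1)))).and
    (Good.forall_le n fun κ _ => good_mkc M κ)).mono ?_
  rintro T ⟨⟨hT, hC, hN⟩, hmk⟩ κ b m₀ a a₁ N h1 hκ hm hma ha ha₁ hM hNs hne hbr
  obtain ⟨C, hC0, hCΛ, hMK⟩ := hmk κ hκ h1
  obtain ⟨hk, hk', hΛ, hMΛ, hnΛ, hΛk⟩ := hT.num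
  have hN1 : T.Λ ^ ((9 * n + 2) * M) ≤ T.k := (pow_le_pow_right₀ hΛ (by omega)).trans hN
  have hbig : 2 * ((n + 1).factorial * (((n : ℝ) + 1) * (T.Λ ^ 2) ^ (n + 2))) ≤ (T.k : ℝ) ^ 2 := by
    calc _ = 2 * ((n + 1).factorial * ((n : ℝ) + 1)) * T.Λ ^ (2 * n + 4) := by ring
      _ ≤ T.Λ * T.Λ ^ (2 * n + 4) := by gcongr
      _ = T.Λ ^ (2 * n + 5) := by ring
      _ ≤ T.k := (pow_le_pow_right₀ hΛ (by omega)).trans hN
      _ ≤ _ := by nlinarith
  have hmm₀ : m₀ ≤ n * m₀ := Nat.le_mul_of_pos_left _ (by omega)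
  set b' := b + (n * m₀ + 2) with hb'
  have hbb : b' - b = n * m₀ + 2 := by omega
  have hκ0 : (0 : ℝ) < κ := by exact_mod_cast h1
  have hκ1 : (1 : ℝ) ≤ κ := by exact_mod_cast h1
  have hp : ((κ : ℝ) + 1) / κ = 1 + 1 / κ := by field_simp
  have hcc := cCore_le n hm
  have hpos : ∀ S : Finset (Nd n), S.Nonempty → (0 : ℝ) < S.card := fun S h => by
    exact_mod_cast h.card_pos
  have hmm : ∀ i j, 0 < T.mm i j := fun i j => one_pos.trans_le (T.mm1 i j)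
  have hL : T.cc b a N + ((κ : ℝ) + 1) / κ * T.m b' (b + a) =
      T.lg ((N.image (cell T.k b a)).card * T.mm b' (b + a) ^ (((κ : ℝ) + 1) / κ)) := by
    rw [T.lg_mul (hpos _ (hne.image _)) (Real.rpow_pos_of_pos (hmm _ _) _), T.lg_rpow (hmm _ _)]
    rfl
  have hL0 : (0 : ℝ) < (N.image (cell T.k b a)).card * T.mm b' (b + a) ^ (((κ : ℝ) + 1) / κ) :=
    mul_pos (hpos _ (hne.image _)) (Real.rpow_pos_of_pos (hmm _ _) _)
  have hnS := hpos _ (T.nS_nonempty (by omega : b ≤ b + a) hM hNs hne)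
  -- the inequality with the sum over the tubes
  have keyA : ∀ {O ζ₀ cs gl}, Dec T hκ b m₀ b' a (2 * a) N O ζ₀ cs gl → ∀ W : ℝ, 0 < W →
      (∀ y j, ((T.nS b' (b + a) ((N.filter fun c => gl c = y).image fun c => cs c j)).card : ℝ) ≤ W) →
      T.cc b a N + ((κ : ℝ) + 1) / κ * T.m b' (b + a) ≤
        eMK n m₀ + eGr n m₀ + T.C (T.nS b (b + a) N) + 1 / κ * T.lg W := by
    intro O ζ₀ cs gl D W hW0 hW
    have e1 : ((N.image (cell T.k b a)).card : ℝ) * T.mm b' (b + a) ^ (((κ : ℝ) + 1) / κ) ≤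
        (T.k : ℝ) ^ eMK n m₀ * ((T.k : ℝ) ^ eGr n m₀ * (T.nS b (b + a) N).card) *
          W ^ ((1 : ℝ) / κ) := by
      have e2 := D.sum_nS hT (by omega) (by omega) hM
      rw [hbb] at e2
      refine (mul_le_mul_of_nonneg_right (card_img_le_sum N _ gl)
        (Real.rpow_nonneg (hmm _ _).le _)).trans (le_trans ?_ (mul_le_mul_of_nonneg_right
          (mul_le_mul_of_nonneg_left e2 (by positivity)) (by positivity)))
      rw [sum_mul, mul_sum, sum_mul]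
      refine sum_le_sum fun y _ => ?_
      have G := D.grp hk y
      set s : ℝ := ((T.nS b (b + a) (N.filter fun c => gl c = y)).card : ℝ) with hs
      have hs0 : 0 ≤ s := Nat.cast_nonneg _
      have h0 : 0 ≤ min s W := le_min hs0 hW0.le
      refine (G.mk' hT h1 hbig hC0 hCΛ hMK hma (by omega) le_rfl hM h0 fun j =>
        le_min ?_ (hW y j)).trans ?_
      · refine Nat.cast_le.2 (card_le_card fun l hl => ?_)
        obtain ⟨f, c', hc', h⟩ := T.mem_nS.1 hl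
        obtain ⟨c, hc, rfl⟩ := mem_image.1 hc'
        exact T.mem_nS.2 ⟨f, c, hc, G.nr_trans hT (by omega) (by omega) hM hc h⟩
      · rw [mul_assoc, hp, Real.rpow_add' h0 (by positivity), Real.rpow_one]
        gcongr
        · exact min_le_left _ _
        · exact min_le_right _ _
    rw [hL]
    refine (Tw.lg_mono hT hL0 e1).trans (le_of_eq ?_)
    rw [T.lg_mul (by positivity) (by positivity), T.lg_mul (by positivity) (by positivity),
      T.lg_mul (by positivity) hnS, Tw.lg_pow hT, Tw.lg_pow hT, T.lg_rpow hW0, Tw.C]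
    ring
  refine ⟨fun hκn => ?_, fun hM1 hnar w hw => ?_⟩
  · obtain ⟨O, ζ₀, cs, gl, D⟩ := T.exists_dec hT (b' := b') (a₁ := 2 * a) a h1 hκ hm (by omega)
      (by omega) (by omega) hNs hbr (Or.inl hκn)
    have e1 := keyA D _ hnS fun y j => by
      refine Nat.cast_le.2 (card_le_card fun l hl => ?_)
      obtain ⟨f, c', hc', h⟩ := T.mem_nS.1 hl
      obtain ⟨c, hc, rfl⟩ := mem_image.1 hc'
      exact T.mem_nS.2 ⟨f, c, (mem_filter.1 hc).1,
        (D.grp hk y).nr_trans hT (by omega) (by omega) hM hc h⟩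
    rw [hp] at e1 ⊢
    have : T.lg ((T.nS b (b + a) N).card : ℝ) = T.C (T.nS b (b + a) N) := rfl
    rw [this] at e1
    have : (0 : ℝ) ≤ n := Nat.cast_nonneg _
    linarith
  · obtain ⟨O, ζ₀, cs, gl, D⟩ := T.exists_dec hT (b' := b') (a₁ := a₁) a h1 hκ hm (by omega)
      (by omega) (by omega) hNs hbr (Or.inr ⟨hM1, hnar⟩)
    set W : ℝ := (T.k : ℝ) ^ (κ * (a₁ - a) + (15 * n + 4)) *
      (T.mm b' (b + a₁ + 1) * (T.a (b + a₁ + 1) / T.a (b + a))) with hWdef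
    have p1 := T.a0 (b + a)
    have p2 := T.a0 (b + a₁ + 1)
    have p3 := hmm b' (b + a₁ + 1)
    have hW0 : 0 < W := by positivity
    have hW : ∀ y j,
        ((T.nS b' (b + a) ((N.filter fun c => gl c = y).image fun c => cs c j)).card : ℝ) ≤ W :=
      fun y j => (D.grp hk y).card_fam hT hN1 (by omega) (by omega) ha ha₁ hM1 j
    have hlW : T.lg W = w + (15 * n + 4) := by
      rw [hWdef, T.lg_mul (by positivity) (by positivity), T.lg_mul p3 (by positivity),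
        Tw.lg_pow hT, hw, Tw.lg, Tw.lg, Real.logb_div p2.ne' p1.ne']
      push_cast [Nat.cast_sub ha]
      simp only [Tw.m, Tw.A, Tw.lg]
      ring
    have hn0 : (0 : ℝ) ≤ 15 * n + 4 := by positivity
    have hik : 1 / (κ : ℝ) * (15 * n + 4) ≤ 15 * n + 4 :=
      mul_le_of_le_one_left hn0 ((div_le_one hκ0).2 hκ1)
    refine ⟨?_, fun h2a => ?_⟩
    · have e2 := D.sum_cells hT (by omega) (by omega) (u := a₁ - a) (by omega)
      rw [hbb, Nat.add_sub_cancel' ha] at e2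
      have e1 : ((N.image (cell T.k b a)).card : ℝ) * T.mm b' (b + a) ^ (((κ : ℝ) + 1) / κ) ≤
          (T.k : ℝ) ^ eMK n m₀ * ((T.k : ℝ) ^ ((n - κ) * (a₁ - a) + eGr n m₀) *
            (N.image (cell T.k b a₁)).card) * W ^ (((κ : ℝ) + 1) / κ) := by
        refine (mul_le_mul_of_nonneg_right (card_img_le_sum N _ gl)
          (Real.rpow_nonneg (hmm _ _).le _)).trans (le_trans ?_ (mul_le_mul_of_nonneg_right
            (mul_le_mul_of_nonneg_left e2 (by positivity)) (by positivity)))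
        rw [sum_mul, mul_sum, sum_mul]
        refine sum_le_sum fun y hy => ?_
        refine ((D.grp hk y).mk' hT h1 hbig hC0 hCΛ hMK hma ha ha₁ hM hW0.le (hW y)).trans ?_
        obtain ⟨c, hc, rfl⟩ := mem_image.1 hy
        have : (1 : ℝ) ≤ ((N.filter fun x => gl x = gl c).image (cell T.k b a₁)).card := by
          have : (N.filter fun x => gl x = gl c).Nonempty := ⟨c, mem_filter.2 ⟨hc, rfl⟩⟩
          exact_mod_cast (this.image _).card_pos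
        gcongr
        exact le_mul_of_one_le_right (by positivity) this
      rw [hL]
      refine (Tw.lg_mono hT hL0 e1).trans ?_
      have q := hpos _ (hne.image (cell T.k b a₁))
      rw [T.lg_mul (by positivity) (by positivity), T.lg_mul (by positivity) (by positivity),
        T.lg_mul (by positivity) q, Tw.lg_pow hT, Tw.lg_pow hT, T.lg_rpow hW0, hlW, Tw.cc]
      push_cast [Nat.cast_sub ha, Nat.cast_sub hκ]
      rw [hp]
      linarith
    · subst h2a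
      have e1 := keyA D W hW0 hW
      rw [hlW] at e1
      have : w / κ = 1 / κ * w := by ring
      linarith

end Crest.Agent.N76.L
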