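import Crest.Agent.N76.L.KAux

/-! # Row 76, Part I (helper60): an `n`-broad start is not critical (`Kill`). -/

set_option autoImplicit false

namespace Crest.Agent.N76.L

namespace K

variable {n M : ℕ} {T : Tw n M} {c : ℝ}

/-- the potential along the chain -/
noncomputable def Xp (T : Tw n M) (b m₁ : ℕ) (N : Finset (Nd n)) (a : ℕ) : ℝ :=
  T.A (b + a) + T.m (b + m₁) (b + a) + (n : ℝ) / (n + 1) * (T.cc b a N + ((n : ℝ) + 1) * a)

theorem mul_q {N x y z : ℝ} (hN : 0 < N) (h : x + (N + 1) / N * y ≤ (N + 1) / N * z) :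
    N / (N + 1) * x + y ≤ z := by
  have h1 := mul_le_mul_of_nonneg_left h (show 0 ≤ N / (N + 1) by positivity)
  have h2 : N / (N + 1) * ((N + 1) / N) = 1 := by field_simp
  rw [mul_add, ← mul_assoc, ← mul_assoc, h2, one_mul, one_mul] at h1
  exact h1

theorem chain (hn : 1 ≤ n) (hc : 0 ≤ c) (B1 : Bas1 c T) (B2 : Bas2 c T) (hC : CoreP c T)
    {b m₀ H : ℕ} {N : Finset (Nd n)} (hH : b + H = M) (hm : 1 ≤ m₀) (hN : N ⊆ T.al b)
    (hne : N.Nonempty) (hnar : ¬ T.Nar b (b + m₀) (n - 1)) (P : ℕ) :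
    ∀ a : ℕ, n * m₀ + 2 ≤ a → a ≤ H → H ≤ 2 ^ P * a →
      Xp T b (n * m₀ + 2) N a ≤ T.A M + T.C (T.nS b M N) + n * H + (P + 1) * (c * m₀ + c) := by
  have hN0 : (0 : ℝ) < n := by exact_mod_cast hn
  have hq0 : (0 : ℝ) ≤ (n : ℝ) / (n + 1) := by positivity
  have hq1 : (n : ℝ) / (n + 1) ≤ 1 := by rw [div_le_one (by positivity)]; linarith
  have hq2 : (n : ℝ) / (n + 1) * ((n : ℝ) + 1) = n := by field_simp
  have hcm : 0 ≤ c * m₀ := by positivity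
  have htop : n * m₀ + 2 ≤ H →
      Xp T b (n * m₀ + 2) N H ≤ T.A M + T.C (T.nS b M N) + n * H + c * m₀ := by
    intro h1
    have h2 := (hC n b m₀ H H N hn le_rfl hm h1 le_rfl (by omega) hH.le hN hne hnar).1 rfl
    have h3 : (T.cc b H N - c * m₀) + ((n : ℝ) + 1) / n * T.m (b + (n * m₀ + 2)) (b + H) ≤
        ((n : ℝ) + 1) / n * T.C (T.nS b (b + H) N) := by linarith
    have h4 := mul_q hN0 h3
    unfold Xp
    rw [hH] at h4 ⊢
    rw [mul_add, ← mul_assoc, hq2]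
    nlinarith
  have hstep : ∀ a a₂ : ℕ, n * m₀ + 2 ≤ a → a < a₂ → a₂ ≤ 2 * a → a₂ ≤ H →
      Xp T b (n * m₀ + 2) N a ≤ Xp T b (n * m₀ + 2) N a₂ + (c * m₀ + c) := by
    intro a a₂ h1 h2 h3 h4
    obtain ⟨a₁, rfl⟩ : ∃ a₁, a₂ = a₁ + 1 := ⟨a₂ - 1, by omega⟩
    have h5 := ((hC n b m₀ a a₁ N hn le_rfl hm h1 (by omega) (by omega) (by omega) hN hne
      hnar).2 (by omega) (B1.nar_n _ _) _ rfl).1
    have h6 := B2.cc_lip b a₁ (a₁ + 1) N (by omega) hne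
    have h7 : (T.cc b a N - T.cc b a₁ N - c * m₀) +
        ((n : ℝ) + 1) / n * T.m (b + (n * m₀ + 2)) (b + a) ≤ ((n : ℝ) + 1) / n *
          (n * ((a₁ : ℝ) - a) + T.m (b + (n * m₀ + 2)) (b + a₁ + 1) + T.A (b + a₁ + 1) -
            T.A (b + a)) := by linarith
    have h8 := mul_q hN0 h7
    have h9 := mul_le_mul_of_nonneg_left h6 hq0
    unfold Xp
    rw [mul_add, mul_add, ← mul_assoc, ← mul_assoc, hq2, ← add_assoc b a₁ 1]
    push_cast at h9 ⊢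
    have h10 : (n : ℝ) / (n + 1) * (T.cc b (a₁ + 1) N + ((n : ℝ) + 1) * ((a₁ : ℝ) + 1 - a₁) + c) =
        (n : ℝ) / (n + 1) * T.cc b (a₁ + 1) N + n + (n : ℝ) / (n + 1) * c := by
      field_simp; ring
    rw [h10] at h9
    nlinarith
  induction P with
  | zero =>
    intro a h1 h2 h3
    obtain rfl : a = H := by omega
    have := htop h1
    push_cast
    linarith
  | succ P ih =>
    intro a h1 h2 h3
    rcases Nat.eq_or_lt_of_le h2 with rfl | h4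
    · have := htop h1
      have h5 : (0 : ℝ) ≤ (P : ℝ) + 1 := by positivity
      push_cast
      nlinarith
    · have h5 := hstep a (min (2 * a) H) h1 (by omega) (by omega) (by omega)
      have h6 := ih (min (2 * a) H) (by omega) (by omega) (by
        rcases le_total (2 * a) H with h | h
        · rw [min_eq_left h, ← mul_assoc, ← pow_succ]; exact h3
        · rw [min_eq_right h]; exact Nat.le_mul_of_pos_left _ (by positivity))
      push_cast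
      linarith

noncomputable def K1 (N : ℝ) : ℝ := (N + 1) * (2 * N + 10)
noncomputable def K2 (N : ℝ) : ℝ := 4 * K1 N + 5 * N + 12
noncomputable def K3 (N : ℝ) : ℝ := 2 * (2 * K1 N + 2 * N + 7 + (N + 2) ^ 2 * (2 * K2 N + 2))
noncomputable def K4 (N : ℝ) : ℝ :=
  (N + 2) * (2 * K1 N + 3 * N + 8) + (N + 5) * (2 * K2 N + 1) + N
noncomputable def K5 (N : ℝ) : ℝ :=
  2 * (N + 5) * (2 * K2 N + 1) + (3 * N + 2) + (N + 1) * (2 * N + 4 + K1 N) + N * (2 * N + 6) +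
    (2 * K1 N + 2 * N + 5)
noncomputable def KK (N : ℝ) : ℝ := K2 N + K3 N + K4 N + K5 N + 2

theorem K1_pos {N : ℝ} (h : 0 ≤ N) : 0 < K1 N := by unfold K1; positivity
theorem K2_pos {N : ℝ} (h : 0 ≤ N) : 0 < K2 N := by have := K1_pos h; unfold K2; positivity
theorem K3_pos {N : ℝ} (h : 0 ≤ N) : 0 < K3 N := by
  have := K1_pos h; have := K2_pos h; unfold K3; positivity
theorem K4_pos {N : ℝ} (h : 0 ≤ N) : 0 < K4 N := by
  have := K1_pos h; have := K2_pos h; unfold K4; positivity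
theorem K5_pos {N : ℝ} (h : 0 ≤ N) : 0 < K5 N := by
  have := K1_pos h; have := K2_pos h; unfold K5; positivity
theorem KK_pos {N : ℝ} (h : 0 ≤ N) : 0 < KK N := by
  have := K2_pos h; have := K3_pos h; have := K4_pos h; have := K5_pos h; unfold KK; positivity

/-- the value of the tower in terms of the three slacks -/
theorem val_le (hn : 2 ≤ n) (B1 : Bas1 c T) (hb : T.Ball) {b H : ℕ} (hH : b + H = M)
    {N : Finset (Nd n)} (hN : N ⊆ T.al b) (hne : N.Nonempty)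
    (htc : T.C (T.nS 0 b (T.al 0)) - T.C N ≤ T.C (T.al M) - T.C (T.nS b M N) + c) {e : ℝ}
    (hg : T.g (n - 1) 0 b (T.al 0) ≤ e) :
    ((n : ℝ) + 1) * T.val ≤ 2 * n * M -
      ((n : ℝ) + 1) * (T.A M + T.C (T.nS b M N) + n * H - T.A b - (n : ℝ) / (n + 1) * T.C N) -
      (((n : ℝ) + 1) * b - T.nu b) - (((n : ℝ) + 1) * b - T.nu b + 2 * n * H - T.C N) +
      ((n : ℝ) + 1) * (e + 2 * c) := by
  have hN2 : (2 : ℝ) ≤ n := by exact_mod_cast hn
  have hd : ((n - 1 : ℕ) : ℝ) = n - 1 := by rw [Nat.cast_sub (by omega)]; simp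
  have hM : (M : ℝ) = b + H := by rw [← hH]; push_cast; ring
  have h1 := B1.W1 0 b (T.al 0) (Nat.zero_le _) (by omega) le_rfl T.ne
  have h2 := B1.nu_le hb 0 (Nat.zero_le _)
  have h3 := B1.top
  have _ := hN
  have _ := hne
  unfold Tw.g at hg
  rw [hd] at hg
  have h4 := mul_le_mul_of_nonneg_left hg (show (0 : ℝ) ≤ (n : ℝ) + 1 by positivity)
  have h5 : ((n : ℝ) + 1) * (T.A 0 - T.A b - T.m 0 b - ((n : ℝ) - 1) / (n - 1 + 2) *
      (((n : ℝ) + 2) * ((b : ℝ) - (0 : ℕ)) -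
        (T.C (T.al 0) + T.m 0 b - T.C (T.nS 0 b (T.al 0))))) =
      ((n : ℝ) + 1) * (T.A 0 - T.A b - T.m 0 b) - ((n : ℝ) - 1) *
      (((n : ℝ) + 2) * b - (T.C (T.al 0) + T.m 0 b - T.C (T.nS 0 b (T.al 0)))) := by
    have : (n : ℝ) - 1 + 2 = n + 1 := by ring
    rw [this]; field_simp; push_cast; ring
  have h6 : ((n : ℝ) + 1) * (T.A M + T.C (T.nS b M N) + n * H - T.A b -
      (n : ℝ) / (n + 1) * T.C N) =
      ((n : ℝ) + 1) * (T.A M + T.C (T.nS b M N) + n * H - T.A b) - n * T.C N := by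
    field_simp
  rw [h5] at h4
  rw [h6]
  have h7 := mul_le_mul_of_nonneg_left htc (show (0 : ℝ) ≤ (n : ℝ) + 1 by positivity)
  have h8 := mul_le_mul_of_nonneg_left h3 (show (0 : ℝ) ≤ (n : ℝ) + 1 by positivity)
  have h9 := mul_le_mul_of_nonneg_left h2 (show (0 : ℝ) ≤ (n : ℝ) - 1 by linarith)
  unfold Tw.val
  rw [hM] at h8 ⊢
  push_cast at h9
  nlinarith

/-- first half of the argument: consequences of criticality and of the chain -/
theorem kill1 (hn : 2 ≤ n) (hc : 0 ≤ c) (B1 : Bas1 c T) (B2 : Bas2 c T) (hC : CoreP c T)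
    {u θ : ℝ} (hcu : c ≤ u) (hcr : T.Crit θ) (hθ : θ * M ≤ u) {b m₀ H P a₀ : ℕ} (hH : b + H = M)
    (hm : 1 ≤ m₀) (hnar : ¬ T.Nar b (b + m₀) (n - 1)) (hg : T.g (n - 1) 0 b (T.al 0) ≤ u)
    (hP : (P + 1) * (c * m₀ + c) ≤ u) (ha1 : n * m₀ + 2 ≤ a₀) (ha2 : (a₀ : ℝ) ≤ u)
    (ha3 : H ≤ 2 ^ P * a₀) (ha4 : a₀ ≤ H) :
    ∃ N ⊆ T.al b, N.Nonempty ∧
      (∀ a, a₀ ≤ a → a ≤ H → n * (T.cc b a N - T.C N + ((n : ℝ) + 1) * a) ≤
        ((n : ℝ) + 1) * (T.D (b + (n * m₀ + 2)) (b + a) + (2 * n + 4 + K1 n) * u)) ∧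
      (∀ a : ℕ, a - (K1 n + 1) * u ≤ T.cc b a N - T.C N + ((n : ℝ) + 1) * a) ∧
      ((n : ℝ) + 1) * Br T (b + (n * m₀ + 2)) M (T.nS b (b + (n * m₀ + 2)) N) ≤
        2 * H + ((n : ℝ) + 1) * (T.D (b + (n * m₀ + 2)) M + (2 * K1 n + 2 * n + 5) * u) := by
  have hN2 : (2 : ℝ) ≤ n := by exact_mod_cast hn
  have hu : 0 ≤ u := hc.trans hcu
  have hbM : b ≤ M := by omega
  obtain ⟨N, hN1, hne, hcc, htc⟩ := B2.topcell b _ hbM (B1.nS_sub 0 b (T.al 0))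
    (B1.nS_ne 0 b _ (Nat.zero_le _) hbM le_rfl T.ne)
  have hN : N ⊆ T.al b := hN1.trans (B1.nS_sub _ _ _)
  have hMb : M - b = H := by omega
  rw [hMb] at hcc
  obtain ⟨hb, -, hv⟩ := hcr
  have hq0 : (0 : ℝ) ≤ (n : ℝ) / (n + 1) := by positivity
  have hq1 : (n : ℝ) / (n + 1) ≤ 1 := by rw [div_le_one (by positivity)]; linarith
  have hq2 : ((n : ℝ) + 1) * ((n : ℝ) / (n + 1)) = n := by field_simp
  have hch : ∀ a, a₀ ≤ a → a ≤ H → Xp T b (n * m₀ + 2) N a ≤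
      T.A M + T.C (T.nS b M N) + n * H + u := fun a h1 h2 => by
    have := chain (by omega) hc B1 B2 hC hH hm hN hne hnar P a (by omega) h2
      (ha3.trans (Nat.mul_le_mul_left _ h1))
    linarith
  have hAle : ∀ a : ℕ, a ≤ a₀ → T.A b ≤ T.A (b + a) + (2 * n + 3) * u := fun a h1 => by
    have h2 := B1.A_le b (b + a) (by omega) (by omega)
    have h3 := B1.m_nar b (b + a) n (by omega) (by omega) le_rfl (B1.nar_n _ _)
    have h4 : (a : ℝ) ≤ u := le_trans (by exact_mod_cast h1) ha2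
    have h5 := mul_le_mul_of_nonneg_left h4 (Nat.cast_nonneg (α := ℝ) n)
    push_cast at h3
    linarith
  set s1 := T.A M + T.C (T.nS b M N) + n * H - T.A b - (n : ℝ) / (n + 1) * T.C N with hs1
  set s2 := ((n : ℝ) + 1) * b - T.nu b with hs2
  have l1 : -((2 * n + 5) * u) ≤ s1 := by
    have h1 := hch a₀ le_rfl ha4
    have h2 := hAle a₀ le_rfl
    have h3 := B2.cc_lip b 0 a₀ N (Nat.zero_le _) hne
    rw [B2.cc_zero] at h3
    have h4 := mul_le_mul_of_nonneg_left h3 hq0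
    have h5 := B1.m_nonneg (b + (n * m₀ + 2)) (b + a₀)
    have h6 := mul_le_mul_of_nonneg_right hq1 hc
    unfold Xp at h1
    push_cast at h4
    linarith
  have l2 : -u ≤ s2 := by linarith [B1.nu_le hb b hbM]
  have l3 : -u ≤ s2 + 2 * n * H - T.C N := by
    have h1 := B2.W2 hb b (2 * H) N hbM hN hne
    rw [hcc] at h1
    push_cast at h1
    linarith
  have hval := val_le hn B1 hb hH hN hne htc hg
  have hv2 : 2 * n * M - ((n : ℝ) + 1) * u ≤ ((n : ℝ) + 1) * T.val := by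
    have h1 := mul_le_mul_of_nonneg_left hv (show (0 : ℝ) ≤ (n : ℝ) + 1 by positivity)
    have h2 := mul_le_mul_of_nonneg_left hθ (show (0 : ℝ) ≤ (n : ℝ) + 1 by positivity)
    have h3 : ((n : ℝ) + 1) * (2 * (n : ℝ) / (n + 1) * M) = 2 * n * M := by field_simp
    nlinarith
  have hcN := mul_le_mul_of_nonneg_left hcu (show (0 : ℝ) ≤ (n : ℝ) + 1 by positivity)
  have hsum : ((n : ℝ) + 1) * s1 + s2 + (s2 + 2 * n * H - T.C N) ≤ 4 * ((n : ℝ) + 1) * u := by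
    linarith
  have l1' := mul_le_mul_of_nonneg_left l1 (show (0 : ℝ) ≤ (n : ℝ) + 1 by positivity)
  have hNu : 0 ≤ (n : ℝ) * u := by positivity
  have hNNu : 0 ≤ (n : ℝ) * n * u := by positivity
  have hK : K1 n * u = 2 * (n * n * u) + 12 * (n * u) + 10 * u := by unfold K1; ring
  have u1 : s1 ≤ K1 n * u := by
    refine le_of_mul_le_mul_left ?_ (show (0 : ℝ) < (n : ℝ) + 1 by positivity)
    have h1 : 0 ≤ (n : ℝ) * (K1 n * u) := by have := K1_pos (Nat.cast_nonneg (α := ℝ) n); positivity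
    linarith
  have u2 : s2 ≤ K1 n * u := by linarith
  have u3 : s2 + 2 * n * H - T.C N ≤ K1 n * u := by linarith
  have hA' := hAle (n * m₀ + 2) ha1
  refine ⟨N, hN, hne, fun a h1 h2 => ?_, fun a => ?_, ?_⟩
  · have h3 := hch a h1 h2
    have h4 : (n : ℝ) / (n + 1) * (T.cc b a N - T.C N + ((n : ℝ) + 1) * a) ≤
        T.D (b + (n * m₀ + 2)) (b + a) + (2 * n + 4 + K1 n) * u := by
      unfold Xp at h3; unfold Tw.D; linarith
    have h5 := mul_le_mul_of_nonneg_left h4 (show (0 : ℝ) ≤ (n : ℝ) + 1 by positivity)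
    rwa [← mul_assoc, hq2] at h5
  · have h1 := B2.W2 hb b a N hbM hN hne
    linarith
  · have h1 := B1.C_br b (b + (n * m₀ + 2)) N (by omega) (by omega) hN hne
    have h2 := C_comp B1 (show b ≤ b + (n * m₀ + 2) by omega) (show _ ≤ M by omega) le_rfl hN hne
    have h3 := B1.m_nonneg b (b + (n * m₀ + 2))
    have hM : (M : ℝ) = b + H := by rw [← hH]; push_cast; ring
    have h4 : Br T (b + (n * m₀ + 2)) M (T.nS b (b + (n * m₀ + 2)) N) ≤
        2 * H - T.C N + (n : ℝ) / (n + 1) * T.C N + T.D (b + (n * m₀ + 2)) M +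
          (K1 n + 2 * n + 4) * u := by
      unfold Br Tw.D
      rw [hM]
      push_cast at h1 ⊢
      linarith
    have h5 := mul_le_mul_of_nonneg_left h4 (show (0 : ℝ) ≤ (n : ℝ) + 1 by positivity)
    have h6 : ((n : ℝ) + 1) * ((n : ℝ) / (n + 1) * T.C N) = n * T.C N := by rw [← mul_assoc, hq2]
    have h7 : 0 ≤ (n : ℝ) * (K1 n * u) := by have := K1_pos (Nat.cast_nonneg (α := ℝ) n); positivity
    linarith

/-- the profile statement for one tower -/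
def ProfT (T : Tw n M) (κ : ℕ) (η ε : ℝ) (L : ℕ) : Prop :=
  ∀ (i₀ j₀ m₀ : ℕ) (N₀ : Finset (Nd n)), i₀ + L ≤ j₀ → j₀ ≤ M → N₀ ⊆ T.al i₀ → N₀.Nonempty →
    T.Nar i₀ j₀ κ → 1 ≤ m₀ → (m₀ : ℝ) ≤ ε * ((j₀ : ℝ) - i₀) → ¬ T.Nar i₀ (i₀ + m₀) (κ - 1) →
    -(ε * ((j₀ : ℝ) - i₀)) ≤ T.g κ i₀ j₀ N₀ →
    ∃ x, i₀ ≤ x ∧ x ≤ j₀ ∧
      (∀ u, i₀ ≤ u → u ≤ x → κ * ((u : ℝ) - i₀) - η * ((j₀ : ℝ) - i₀) ≤ T.D i₀ u) ∧
      T.D i₀ j₀ ≤ T.D i₀ x + η * ((j₀ : ℝ) - i₀)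

theorem g_mul (κ i j : ℕ) (N : Finset (Nd n)) :
    ((κ : ℝ) + 2) * T.g κ i j N = ((κ : ℝ) + 2) * T.D i j - κ * Br T i j N := by
  rw [g_eq]; field_simp

/-- second half of the argument -/
theorem kill2 (hn : 2 ≤ n) (hc : 0 ≤ c) (B1 : Bas1 c T) (B2 : Bas2 c T) {u ε : ℝ} {L : ℕ}
    (hcu : c ≤ u) (hu1 : 1 ≤ u) {b m₁ H a₀ : ℕ} (hH : b + H = M) (hm : 1 ≤ m₁) (ha1 : m₁ ≤ a₀)
    (ha2 : (a₀ : ℝ) ≤ u) (hcm : c * m₁ ≤ u) (hL : (L : ℝ) ≤ u) (hε : 0 < ε)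
    (hK1 : KK n * u ≤ ε * H / 2) (hK2 : KK n * u ≤ H / 12)
    (hD1 : ∀ i j N, i ≤ j → j ≤ M → N ⊆ T.al i → N.Nonempty → T.g n i j N ≤ u)
    (hD2 : ∀ i j N, i ≤ j → j ≤ M → N ⊆ T.al i → N.Nonempty → T.Nar i j (n - 1) →
      T.g (n - 1) i j N ≤ u)
    (hP : ProfT T n (1 / 12) ε L) {N : Finset (Nd n)} (hN : N ⊆ T.al b) (hne : N.Nonempty)
    (k1 : ∀ a, a₀ ≤ a → a ≤ H → n * (T.cc b a N - T.C N + ((n : ℝ) + 1) * a) ≤
        ((n : ℝ) + 1) * (T.D (b + m₁) (b + a) + (2 * n + 4 + K1 n) * u))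
    (k2 : ∀ a : ℕ, a - (K1 n + 1) * u ≤ T.cc b a N - T.C N + ((n : ℝ) + 1) * a)
    (k3 : ((n : ℝ) + 1) * Br T (b + m₁) M (T.nS b (b + m₁) N) ≤
        2 * H + ((n : ℝ) + 1) * (T.D (b + m₁) M + (2 * K1 n + 2 * n + 5) * u)) : False := by
  have hN2 : (2 : ℝ) ≤ n := by exact_mod_cast hn
  have hN0 : (0 : ℝ) ≤ n := by linarith
  have hu : 0 ≤ u := hc.trans hcu
  have p1 := mul_le_mul_of_nonneg_left hu1 (K1_pos hN0).le
  have p2 := mul_le_mul_of_nonneg_left hu1 (K2_pos hN0).le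
  have p3 := mul_le_mul_of_nonneg_left hu1 (K3_pos hN0).le
  have p4 := mul_le_mul_of_nonneg_left hu1 (K4_pos hN0).le
  have p5 := mul_le_mul_of_nonneg_left hu1 (K5_pos hN0).le
  have q1 := K1_pos hN0
  have q2 := K2_pos hN0
  have q3 := K3_pos hN0
  have q4 := K4_pos hN0
  have q5 := K5_pos hN0
  have hKK : KK n * u = K2 n * u + K3 n * u + K4 n * u + K5 n * u + 2 * u := by unfold KK; ring
  have hm1 : (m₁ : ℝ) ≤ u := le_trans (by exact_mod_cast ha1) ha2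
  have hNu : 0 ≤ (n : ℝ) * u := by positivity
  have hM : (M : ℝ) = b + H := by rw [← hH]; push_cast; ring
  have hH24 : 24 * u ≤ H := by linarith
  have haH : a₀ ≤ H := by exact_mod_cast (show (a₀ : ℝ) ≤ H by linarith)
  have hmH : m₁ + L + 2 ≤ H := by exact_mod_cast (show (m₁ : ℝ) + L + 2 ≤ H by linarith)
  -- the lower bound for `D`
  have dlow : ∀ a, a₀ ≤ a → a ≤ H → n * (a : ℝ) ≤
      ((n : ℝ) + 1) * (T.D (b + m₁) (b + a) + (2 * K1 n + 2 * n + 5) * u) := fun a h1 h2 => by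
    have h3 := k1 a h1 h2
    have h4 := mul_le_mul_of_nonneg_left (k2 a) hN0
    linarith
  have dlow' : ∀ a, a₀ ≤ a → a ≤ H →
      2 / 3 * (a : ℝ) ≤ T.D (b + m₁) (b + a) + (2 * K1 n + 2 * n + 5) * u := fun a h1 h2 => by
    refine le_of_mul_le_mul_left (le_trans ?_ (dlow a h1 h2)) (show (0 : ℝ) < n + 1 by positivity)
    nlinarith [Nat.cast_nonneg (α := ℝ) a]
  set N' := T.nS b (b + m₁) N with hN'
  have hN'1 : N' ⊆ T.al (b + m₁) := B1.nS_sub _ _ _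
  have hN'2 : N'.Nonempty := B1.nS_ne _ _ _ (by omega) (by omega) hN hne
  have d1 := dlow H haH le_rfl
  have d2 := dlow' H haH le_rfl
  rw [hH] at d1 d2
  set D' := T.D (b + m₁) M with hD'
  set E1 := (2 * K1 n + 2 * n + 5) * u with hE1
  have hE0 : 0 ≤ E1 := by positivity
  have hg1 := g_mul (T := T) n (b + m₁) M N'
  have hg2 := mul_le_mul_of_nonneg_left k3 hN0
  have hg3 : 2 * (((n : ℝ) + 1) * D' - n * H) - n * (((n : ℝ) + 1) * E1) ≤
      ((n : ℝ) + 1) * (((n : ℝ) + 2) * T.g n (b + m₁) M N') := by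
    rw [hg1]; linarith
  have glow : -(K2 n * u) ≤ T.g n (b + m₁) M N' := by
    have h1 : K2 n * u = 2 * E1 + n * u + 2 * u := by rw [hE1]; unfold K2; ring
    have h2 : -E1 ≤ T.g n (b + m₁) M N' := by
      refine le_of_mul_le_mul_left ?_ (show (0 : ℝ) < (n + 1) * (n + 2) by positivity)
      linarith
    linarith
  have dup : ((n : ℝ) + 1) * D' ≤ n * H + ((n : ℝ) + 1) * (((n : ℝ) + 2) * (E1 + u)) := by
    have h1 := mul_le_mul_of_nonneg_left (hD1 (b + m₁) M N' (by omega) le_rfl hN'1 hN'2)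
      (show (0 : ℝ) ≤ (n + 1) * (n + 2) by positivity)
    have h2 : 0 ≤ ((n : ℝ) + 1) * (((n : ℝ) + 2) * u) := by positivity
    have h3 : 0 ≤ ((n : ℝ) + 1) * (((n : ℝ) + 4) * E1) := by positivity
    linarith
  have hK2u : u ≤ K2 n * u := by
    have h1 : K2 n * u = 2 * E1 + n * u + 2 * u := by rw [hE1]; unfold K2; ring
    linarith
  have hUB : UB T n (b + m₁) M (K2 n * u) := fun i j S _ h2 h3 h4 h5 =>
    (hD1 i j S h2 h3 h4 h5).trans hK2u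
  -- the broad start
  obtain ⟨a, ha3, ha4⟩ : ∃ a : ℕ, K3 n * u ≤ a ∧ (a : ℝ) ≤ K3 n * u + 1 :=
    ⟨⌈K3 n * u⌉₊, Nat.le_ceil _, (Nat.ceil_lt_add_one (by positivity)).le⟩
  have hK3 : K3 n * u = 2 * (E1 + 2 * u + ((n : ℝ) + 2) ^ 2 * (u + (2 * (K2 n * u) + u))) := by
    rw [hE1]; unfold K3; ring
  have hsq : 0 ≤ ((n : ℝ) + 2) ^ 2 * (u + (2 * (K2 n * u) + u)) := by positivity
  have ha5 : a₀ + 1 ≤ a := by exact_mod_cast (show (a₀ : ℝ) + 1 ≤ a by linarith)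
  have ha6 : a ≤ H := by exact_mod_cast (show (a : ℝ) ≤ H by linarith)
  have hbr : ¬ T.Nar (b + m₁) (b + m₁ + (a - m₁)) (n - 1) := by
    rw [show b + m₁ + (a - m₁) = b + a by omega]
    intro h
    have h1 := hD2 (b + m₁) (b + a) N' (by omega) (by omega) hN'1 hN'2 h
    have h2 := tight_init B1 hc le_rfl hN'1 hN'2 hUB glow (show b + m₁ ≤ b + a by omega)
      (by omega)
    have h3 : -(2 * (K2 n * u) + u) ≤ T.g (n - 1 + 1) (b + m₁) (b + a) N' := by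
      rw [show n - 1 + 1 = n by omega]; linarith
    have h4 := nb hu (by positivity) h1 h3
    rw [show ((n - 1 : ℕ) : ℝ) + 3 = n + 2 by rw [Nat.cast_sub (by omega)]; push_cast; ring] at h4
    have h5 := dlow' a (by omega) ha6
    linarith
  have hHm : (H : ℝ) / 2 ≤ (M : ℝ) - ((b + m₁ : ℕ) : ℝ) := by push_cast; linarith
  have hHm' : (M : ℝ) - ((b + m₁ : ℕ) : ℝ) ≤ H := by
    push_cast; linarith [Nat.cast_nonneg (α := ℝ) m₁]
  have hεH := mul_le_mul_of_nonneg_left hHm hε.le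
  obtain ⟨x, hx1, hx2, hx3, hx4⟩ := hP (b + m₁) M (a - m₁) N' (by omega) le_rfl hN'1 hN'2
    (B1.nar_n _ _) (by omega) (by
      have : ((a - m₁ : ℕ) : ℝ) ≤ a := by exact_mod_cast Nat.sub_le _ _
      linarith) hbr (by linarith)
  have hx5 := hx3 x hx1 le_rfl
  have tD := fun i j => tight_D B1 hc le_rfl hN'1 hN'2 (i := i) (j := j) (hu.trans hK2u) hUB glow
  set E2 := ((n : ℝ) + 5) * (2 * (K2 n * u) + u) with hE2
  have hE2' : ((n : ℝ) + 5) * (2 * (K2 n * u) + c) ≤ E2 :=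
    mul_le_mul_of_nonneg_left (by linarith) (by positivity)
  obtain ⟨x', hx'⟩ : ∃ x', b + m₁ + x' + 1 = M := ⟨H - m₁ - 1, by omega⟩
  have hx'1 : 1 ≤ x' := by omega
  have hx'2 : (x' : ℝ) + m₁ + 1 = H := by exact_mod_cast (show x' + m₁ + 1 = H by omega)
  have hxy : x ≤ b + m₁ + (x' + 1) / 2 := by
    by_contra hcon
    have h1 : x' + 2 ≤ 2 * (x - (b + m₁)) := by omega
    have h2 : (x' : ℝ) + 2 ≤ 2 * ((x : ℝ) - ((b + m₁ : ℕ) : ℝ)) := by
      rw [← Nat.cast_sub hx1]; exact_mod_cast h1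
    have h3 := tD x M hx1 hx2 le_rfl
    have h4 := mul_le_mul_of_nonneg_left h2 hN0
    have h5 : D' ≤ n * H / 3 + ((n : ℝ) + 2) * (E1 + u) := by
      refine le_of_mul_le_mul_left ?_ (show (0 : ℝ) < n + 1 by positivity)
      have : 0 ≤ ((n : ℝ) - 2) * (n * H) :=
        mul_nonneg (by linarith) (by positivity)
      linarith
    have h6 : K4 n * u = ((n : ℝ) + 2) * (E1 + u) + (n + 2) * ((n + 2) * u) + E2 + n * u := by
      rw [hE1, hE2]; unfold K4; ring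
    have h7 : 0 ≤ ((n : ℝ) + 2) * ((n + 2) * u) := by positivity
    have h8 := mul_le_mul_of_nonneg_left hm1 hN0
    have h9 : 2 * (H : ℝ) ≤ n * H := mul_le_mul_of_nonneg_right hN2 (Nat.cast_nonneg _)
    have h10 : (n : ℝ) * H = n * x' + n * m₁ + n := by rw [← hx'2]; ring
    linarith
  have hy := tD x _ hx1 hxy (by omega)
  have hfl := fl B2 hx'1 hx'.le hN'1 hN'2
  rw [hx'] at hfl
  have hgy := mul_le_mul_of_nonneg_left (hD1 (b + m₁) (b + m₁ + (x' + 1) / 2) N' (by omega)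
    (by omega) hN'1 hN'2) (show (0 : ℝ) ≤ n + 2 by positivity)
  rw [g_mul] at hgy
  have hsh := B2.cc_shift b m₁ x' N hm (by omega) hN hne
  have hlip := B2.cc_lip b (x' + m₁) H N (by omega) hne
  have hbr2 := B1.C_br b (b + m₁) N (by omega) (by omega) hN hne
  have hm0 := B1.m_nonneg b (b + m₁)
  push_cast at hlip hbr2
  have hup : T.cc (b + m₁) x' N' - T.C N' + ((n : ℝ) + 1) * x' ≤
      T.cc b H N - T.C N + ((n : ℝ) + 1) * H + 4 * u := by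
    have h10 : (n : ℝ) * H = n * x' + n * m₁ + n := by rw [← hx'2]; ring
    linarith
  have hk := k1 H haH le_rfl
  rw [hH] at hk
  have hfl2 := mul_le_mul_of_nonneg_left (hfl.trans hup) hN0
  have hcn := mul_le_mul_of_nonneg_left hcu hN0
  have hun := mul_le_mul_of_nonneg_left hu1 hN0
  have hK5 : K5 n * u = 2 * E2 + (3 * n + 2) * u + ((n : ℝ) + 1) * ((2 * n + 4 + K1 n) * u) +
      n * ((2 * n + 6) * u) + E1 := by rw [hE1, hE2]; unfold K5; ring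
  have hNNu : 0 ≤ (n : ℝ) * (n * u) := by positivity
  linarith

theorem large {ρ B : ℝ} (hρ : 0 < ρ) {M : ℕ} (h : ⌈B / ρ⌉₊ ≤ M) : B ≤ ρ * M := by
  have h1 : B / ρ ≤ M := Nat.ceil_le.1 h
  rwa [div_le_iff₀ hρ, mul_comm] at h1

end K

open K in
theorem kill_of {n : ℕ} (h1 : BasS1 n) (h2 : BasS2 n) (hc : CoreS n) (hD1 : DEC n n)
    (hD2 : DEC n (n - 1)) (hP : Prof n n) (hn : 2 ≤ n) : Kill n := by
  obtain ⟨c1, hc1, h1⟩ := h1
  obtain ⟨c2, hc2, h2⟩ := h2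
  obtain ⟨c3, hc3, h3⟩ := hc
  intro η hη
  obtain ⟨ε, L, hε, hP⟩ := hP (1 / 12) (by norm_num)
  have hN0 : (0 : ℝ) ≤ n := Nat.cast_nonneg _
  have hKK := KK_pos hN0
  obtain ⟨c, hc⟩ : ∃ c, c = c1 + c2 + c3 := ⟨_, rfl⟩
  have hc0 : 1 ≤ c := by linarith
  obtain ⟨κ, hκ0, hκ1, hκ2⟩ : ∃ κ : ℝ, 0 < κ ∧ κ ≤ ε / 2 ∧ κ ≤ 1 / 12 :=
    ⟨min (ε / 2) (1 / 12), by positivity, min_le_left _ _, min_le_right _ _⟩
  obtain ⟨ρ, hρ0, hρ⟩ : ∃ ρ : ℝ, 0 < ρ ∧ KK n * ρ = κ * η :=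
    ⟨κ * η / KK n, by positivity, by field_simp⟩
  obtain ⟨P, hP2⟩ := pow_unbounded_of_one_lt (2 / ρ) (show (1 : ℝ) < 2 by norm_num)
  obtain ⟨θ, hθ0, hθ⟩ : ∃ θ : ℝ, 0 < θ ∧ 2 * ((P : ℝ) + 1) * c * (n + 2) * θ = ρ :=
    ⟨ρ / (2 * ((P : ℝ) + 1) * c * (n + 2)), by positivity, by field_simp⟩
  obtain ⟨L1, hD1⟩ := hD1 (ρ / 2) (by positivity)
  obtain ⟨L2, hD2⟩ := hD2 (ρ / 2) (by positivity)
  refine ⟨θ, ⌈(2 + c + 2 * |L1| + 2 * |L2| + L) / ρ⌉₊, hθ0, fun M hM => ?_⟩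
  have hM1 := large hρ0 hM
  refine (((((h1 M).and (h2 M)).and (h3 M)).and (hD1 M)).and ((hD2 M).and (hP M))).mono ?_
  rintro T ⟨⟨⟨⟨B1, B2⟩, hC⟩, hD1⟩, hD2, hP⟩ hcr b m₀ hb hm hmθ hg
  by_contra hnar
  have B1' : Bas1 c T := bas1_mono B1 (by linarith)
  have B2' : Bas2 c T := bas2_mono B2 (by linarith)
  have hC' : CoreP c T := core_mono hC (by linarith)
  have hM0 : (0 : ℝ) ≤ M := Nat.cast_nonneg _
  have hL1 := abs_nonneg L1
  have hL2 := abs_nonneg L2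
  have hL0 : (0 : ℝ) ≤ L := Nat.cast_nonneg _
  have hbM : b ≤ M := by
    have := mul_nonneg hη.le hM0
    exact_mod_cast (show (b : ℝ) ≤ M by linarith)
  obtain ⟨H, hH⟩ := Nat.exists_eq_add_of_le hbM
  have hH' : η * M ≤ H := by
    have : (M : ℝ) = b + H := by rw [hH]; push_cast; ring
    linarith
  have hH0 : (0 : ℝ) ≤ H := Nat.cast_nonneg _
  have hKu : KK n * (ρ * M) ≤ κ * H := by
    rw [← mul_assoc, hρ, mul_assoc]; exact mul_le_mul_of_nonneg_left hH' hκ0.le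
  have hm' : (1 : ℝ) ≤ m₀ := by exact_mod_cast hm
  have hP0 : (0 : ℝ) ≤ P := Nat.cast_nonneg _
  have hρM : ρ * M = 2 * ((P : ℝ) + 1) * c * (n + 2) * (θ * M) := by rw [← hθ]; ring
  have hw : 2 * ((P : ℝ) + 1) * c * (n + 2) * m₀ ≤ ρ * M := by
    rw [hρM]; exact mul_le_mul_of_nonneg_left hmθ (by positivity)
  have hθM : θ * M ≤ ρ * M := by
    rw [hρM]
    refine le_mul_of_one_le_left (by positivity) ?_
    have : (1 : ℝ) ≤ 2 * ((P : ℝ) + 1) := by linarith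
    exact one_le_mul_of_one_le_of_one_le (one_le_mul_of_one_le_of_one_le this hc0) (by linarith)
  have hcm0 : c ≤ c * m₀ := le_mul_of_one_le_right (by linarith) hm'
  have hw1 : ((P : ℝ) + 1) * (c * m₀ + c) ≤ ρ * M := by
    have h4 := mul_le_mul_of_nonneg_left hcm0 (show (0 : ℝ) ≤ P + 1 by positivity)
    have h5 : 0 ≤ ((P : ℝ) + 1) * c * (n + 1) * m₀ := by positivity
    linarith
  have hw2 : c * ((n * m₀ + 2 : ℕ) : ℝ) ≤ ρ * M := by
    have h5 : 0 ≤ (P : ℝ) * c * (n + 2) * m₀ := by positivity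
    have h6 : 0 ≤ c * (n + 2) * m₀ := by positivity
    push_cast
    linarith
  have hw3 : ((max (n * m₀ + 2) (M / 2 ^ P + 1) : ℕ) : ℝ) ≤ ρ * M := by
    rcases le_total (n * m₀ + 2) (M / 2 ^ P + 1) with h | h
    · rw [max_eq_right h]
      have h4 : ((M / 2 ^ P : ℕ) : ℝ) ≤ (M : ℝ) / ((2 ^ P : ℕ) : ℝ) := Nat.cast_div_le
      have h5 : (M : ℝ) / ((2 ^ P : ℕ) : ℝ) ≤ ρ * M / 2 := by
        push_cast
        rw [div_lt_iff₀ hρ0] at hP2
        rw [div_le_iff₀ (by positivity)]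
        nlinarith
      push_cast
      linarith
    · rw [max_eq_left h]
      exact (le_mul_of_one_le_left (Nat.cast_nonneg _) hc0).trans hw2
  have hw4 : H ≤ 2 ^ P * max (n * m₀ + 2) (M / 2 ^ P + 1) := by
    have h4 : M < 2 ^ P * (M / 2 ^ P + 1) := Nat.lt_mul_div_succ M (by positivity)
    have h5 := Nat.mul_le_mul_left (2 ^ P) (le_max_right (n * m₀ + 2) (M / 2 ^ P + 1))
    omega
  have hK1 : KK n * (ρ * M) ≤ ε * H / 2 := by nlinarith
  have hK2 : KK n * (ρ * M) ≤ H / 12 := by nlinarith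
  have hKK2 : ρ * M ≤ KK n * (ρ * M) := by
    refine le_mul_of_one_le_left (by positivity) ?_
    have := K2_pos hN0; have := K3_pos hN0; have := K4_pos hN0; have := K5_pos hN0
    unfold KK; linarith
  have hw5 : max (n * m₀ + 2) (M / 2 ^ P + 1) ≤ H := by
    exact_mod_cast (show ((max (n * m₀ + 2) (M / 2 ^ P + 1) : ℕ) : ℝ) ≤ H by linarith)
  have hdec : ∀ i j : ℕ, j ≤ M → ρ / 2 * ((j : ℝ) - i) ≤ ρ * M / 2 := fun i j hj => by
    have h4 : (j : ℝ) ≤ M := by exact_mod_cast hj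
    have h5 : (0 : ℝ) ≤ i := Nat.cast_nonneg _
    nlinarith
  obtain ⟨N, hN, hne, k1, k2, k3⟩ := kill1 hn (by linarith) B1' B2' hC' (u := ρ * M) (by linarith)
    hcr hθM hH.symm hm hnar (hg.trans hθM) hw1 (le_max_left _ _) hw3 hw4 hw5
  refine kill2 hn (by linarith) B1' B2' (u := ρ * M) (by linarith) (by linarith) hH.symm
    (by omega) (le_max_left _ _) hw3 hw2 (by linarith) hε hK1 hK2 ?_ ?_ hP hN hne k1 k2 k3
  · intro i j S h4 h5 h6 h7
    linarith [hD1 i j S h4 h5 h6 h7 (B1.nar_n _ _), hdec i j h5, le_abs_self L1]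
  · intro i j S h4 h5 h6 h7 h8
    linarith [hD2 i j S h4 h5 h6 h7 h8, hdec i j h5, le_abs_self L2]

end Crest.Agent.N76.L
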