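import Mathlib

/-! # Row 76, Part I (helper9): the real-variable core of the profile theorem. -/

set_option autoImplicit false

open Filter Topology

namespace Crest.Agent.N76.L.Pf

/-- an almost monotone function is almost affine on a long subinterval -/
theorem exists_affine (f : ℕ → ℝ) (x1 K T : ℕ) {E s0 ρ κ : ℝ} (hK : 1 ≤ K) (hρ : 0 < ρ)
    (hE : 0 < E) (hκ : 0 ≤ κ) (hlo : ∀ u v, u ≤ v → v ≤ x1 → -E ≤ f v - f u)
    (h0 : f x1 - f 0 ≤ s0 * x1) (hs0 : s0 ≤ κ) (hT : κ + 2 ≤ T * ρ)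
    (hx : E * (K : ℝ) ^ T ≤ x1) :
    ∃ (y lam : ℕ) (s : ℝ), y + lam ≤ x1 ∧ (x1 : ℝ) ≤ (K : ℝ) ^ T * lam ∧ s ≤ s0 ∧
      ∀ u ≤ lam, |f (y + u) - f y - s * u| ≤ (ρ + κ / K) * lam + E := by
  classical
  let P : ℕ → Prop := fun t => ∃ y lam : ℕ, y + lam ≤ x1 ∧ x1 ≤ K ^ t * lam ∧
    f (y + lam) - f y ≤ (s0 - t * ρ) * lam
  have hK' : (1 : ℝ) ≤ K := by exact_mod_cast hK
  have hKT : (0 : ℝ) < (K : ℝ) ^ T := by positivity
  have P0 : P 0 := ⟨0, x1, by simp, by simp, by simpa using h0⟩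
  have PT : ¬ P T := by
    rintro ⟨y, lam, h1, h2, h3⟩
    have h4 : (x1 : ℝ) ≤ (K : ℝ) ^ T * lam := by exact_mod_cast h2
    have h5 : E ≤ lam := by
      by_contra h
      push Not at h
      nlinarith
    have h6 := hlo y (y + lam) (by omega) h1
    have h7 : (s0 - T * ρ) * lam ≤ -2 * lam :=
      mul_le_mul_of_nonneg_right (by linarith) (Nat.cast_nonneg _)
    linarith
  have hex : ∃ t, ¬ P t := ⟨T, PT⟩
  have hne : Nat.find hex ≠ 0 := fun h => Nat.find_spec hex (h ▸ P0)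
  obtain ⟨t, ht⟩ := Nat.exists_eq_succ_of_ne_zero hne
  have hPt : P t := by
    by_contra h
    have := Nat.find_min' hex h
    omega
  have hnt : ¬ P (t + 1) := by
    have := Nat.find_spec hex
    rwa [ht] at this
  have htT : t ≤ T := by
    have := Nat.find_min' hex PT
    omega
  obtain ⟨y, lam, h1, h2, h3⟩ := hPt
  set s := s0 - t * ρ with hs
  have hss : s ≤ s0 := by
    have : 0 ≤ (t : ℝ) * ρ := by positivity
    linarith
  have hlam : (0 : ℝ) ≤ lam := Nat.cast_nonneg _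
  have key : ∀ y' lam' : ℕ, y' + lam' ≤ x1 → lam' ≤ lam →
      s * lam' - ((ρ + κ / K) * lam + E) ≤ f (y' + lam') - f y' := by
    intro y' lam' h4 h5
    have h5' : (lam' : ℝ) ≤ lam := by exact_mod_cast h5
    have hl' : (0 : ℝ) ≤ lam' := Nat.cast_nonneg _
    have a1 : 0 ≤ ρ * lam := by positivity
    have a2 : 0 ≤ κ / K * lam := by positivity
    by_cases h6 : lam ≤ K * lam'
    · have h7 : ¬ (f (y' + lam') - f y' ≤ (s0 - ((t + 1 : ℕ) : ℝ) * ρ) * lam') := fun h =>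
        hnt ⟨y', lam', h4, h2.trans (by
          rw [pow_succ, mul_assoc]; exact Nat.mul_le_mul_left _ h6), h⟩
      push Not at h7
      push_cast at h7
      have a3 : ρ * lam' ≤ ρ * lam := mul_le_mul_of_nonneg_left h5' hρ.le
      have a4 : (s0 - (t + 1) * ρ) * lam' = s * lam' - ρ * lam' := by rw [hs]; ring
      nlinarith
    · push Not at h6
      have h7 : (K : ℝ) * lam' ≤ lam := by exact_mod_cast h6.le
      have h8 := hlo y' (y' + lam') (by omega) h4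
      have a3 : s * lam' ≤ κ * lam' := mul_le_mul_of_nonneg_right (by linarith) hl'
      have a4 : κ * lam' ≤ κ / K * lam := by
        rw [div_mul_eq_mul_div, le_div_iff₀ (by positivity)]
        nlinarith
      nlinarith
  refine ⟨y, lam, s, h1, ?_, hss, fun u hu => ?_⟩
  · have h4 : (x1 : ℝ) ≤ (K : ℝ) ^ t * lam := by exact_mod_cast h2
    exact h4.trans (mul_le_mul_of_nonneg_right (pow_le_pow_right₀ hK' htT) hlam)
  · have a1 := key y u (by omega) hu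
    have a2 := key (y + u) (lam - u) (by omega) (by omega)
    rw [show y + u + (lam - u) = y + lam by omega, Nat.cast_sub hu] at a2
    rw [abs_le]
    constructor <;> nlinarith

/-- the last broad grid point -/
theorem grid (f : ℕ → ℝ) (B : ℕ → Prop) {l m : ℕ} {E : ℝ} (hE : 0 ≤ E) (h0 : B 0)
    (hnb : ∀ b, b + m ≤ l → ¬ B b → f (b + m) - f b ≤ E) (t : ℕ) (ht : (t + 1) * m ≤ l) :
    ∃ b ≤ t * m, B b ∧ f ((t + 1) * m) ≤ f (b + m) + t * E := by
  induction t with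
  | zero => exact ⟨0, by simp, h0, by simp⟩
  | succ t ih =>
    have e : (t + 1 + 1) * m = (t + 1) * m + m := by ring
    by_cases h : B ((t + 1) * m)
    · refine ⟨(t + 1) * m, le_rfl, h, ?_⟩
      rw [e]
      have : 0 ≤ ((t + 1 : ℕ) : ℝ) * E := by positivity
      linarith
    · obtain ⟨b, h1, h2, h3⟩ := ih (by omega)
      refine ⟨b, h1.trans (Nat.mul_le_mul_right _ (by omega)), h2, ?_⟩
      have := hnb _ (by omega) h
      rw [e]
      push_cast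
      linarith

/-- summing the doubling inequality -/
theorem dbl_sum (f : ℕ → ℝ) {l a0 : ℕ} {E W Z α : ℝ} (hE : 0 ≤ E) (hW : 0 ≤ W) (ha0 : 4 ≤ a0)
    (hα0 : 0 ≤ α) (hα : 8 * (Z + W + E) ≤ α * a0)
    (hlo : ∀ u v, u ≤ v → v ≤ l → -E ≤ f v - f u)
    (hd : ∀ x, a0 ≤ 2 * x → 2 * x + 1 ≤ l →
      f (2 * x + 1) - f x ≤ 2 * (f x - f ((x + 1) / 2)) + W)
    (hZ : ∀ x, a0 ≤ 2 * x → x ≤ a0 → f x - f ((x + 1) / 2) ≤ Z) (hl : a0 ≤ l) (x : ℕ) :
    a0 ≤ 2 * x → 2 * x + 1 ≤ l → f (2 * x + 1) - f x ≤ α * ((x : ℝ) - 1) - (2 * E + W) ∧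
      f (2 * x + 1) - f a0 ≤ 2 * α * ((x : ℝ) - 1) := by
  induction x using Nat.strong_induction_on with
  | _ x ih =>
    intro h1 h2
    have d := hd x h1 h2
    have hx1 : (1 : ℝ) ≤ x := by exact_mod_cast (show 1 ≤ x by omega)
    have hax : 0 ≤ α * ((x : ℝ) - 1) := mul_nonneg hα0 (by linarith)
    by_cases hx : x ≤ a0
    · have z := hZ x h1 hx
      have a1 : (a0 : ℝ) ≤ 2 * x := by exact_mod_cast h1
      have a2 : (4 : ℝ) ≤ a0 := by exact_mod_cast ha0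
      have a3 : α * a0 ≤ α * (4 * ((x : ℝ) - 1)) := mul_le_mul_of_nonneg_left (by linarith) hα0
      have a4 := hlo x a0 hx hl
      constructor <;> nlinarith
    · obtain ⟨i1, i2⟩ := ih ((x + 1) / 2) (by omega) (by omega) (by omega)
      have a1 := hlo x (2 * ((x + 1) / 2) + 1) (by omega) (by omega)
      have a2 : 2 * (((x + 1) / 2 : ℕ) : ℝ) ≤ x + 1 := by
        exact_mod_cast (show 2 * ((x + 1) / 2) ≤ x + 1 by omega)
      have a3 : α * (2 * (((x + 1) / 2 : ℕ) : ℝ) - 2) ≤ α * ((x : ℝ) - 1) :=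
        mul_le_mul_of_nonneg_left (by linarith) hα0
      constructor <;> nlinarith

theorem ev_small (A : ℝ) {B : ℝ} (hB : 0 < B) : ∀ᶠ θ in 𝓝[>] (0 : ℝ), A * θ ≤ B := by
  have h : Tendsto (fun θ : ℝ => A * θ) (𝓝 0) (𝓝 (A * 0)) :=
    (continuous_const.mul continuous_id).tendsto 0
  rw [mul_zero] at h
  exact (h.eventually (ge_mem_nhds hB)).filter_mono nhdsWithin_le_nhds

/-- the hypotheses of the core lemma -/
structure Hyp (n : ℕ) (κ K η δ : ℝ) (l m0 : ℕ) (E : ℝ) (f : ℕ → ℝ) (B : ℕ → ℕ → Prop) :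
    Prop where
  f0 : -E ≤ f 0
  lo : ∀ u v, u ≤ v → v ≤ l → -E ≤ f v - f u
  hi : ∀ u v, u ≤ v → v ≤ l → f v - f u ≤ κ * ((v : ℝ) - u) + E
  b0 : ∀ m, m0 ≤ m → m ≤ l → B 0 m
  nb : ∀ b m, b + m ≤ l → ¬ B b m → f (b + m) - f b ≤ E
  dbl : ∀ b m x, 1 ≤ m → B b m → n * m + 2 ≤ x → b + 2 * x + 1 ≤ l →
    f (b + 2 * x + 1) - f (b + x) ≤ 2 * (f (b + x) - f (b + (x + 1) / 2)) + E + K * m
  brw : ∀ (b m a : ℕ) (s r : ℝ), 1 ≤ m → B b m → b + 4 * a + 1 ≤ l → η / 64 ≤ s →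
    s ≤ κ - η / 2 → (∀ u ≤ 4 * a + 1, |f (b + u) - f b - s * u| ≤ r) →
    r + E + m + 1 ≤ δ * a → False

variable {n : ℕ} {κ K η δ : ℝ} {l m0 : ℕ} {E : ℝ} {f : ℕ → ℝ} {B : ℕ → ℕ → Prop}

/-- an affine window of intermediate slope is impossible -/
theorem Hyp.case_big (h : Hyp n κ K η δ l m0 E f B) (hη : 0 < η) (hδ1 : δ ≤ 1) {y lam : ℕ}
    {s ρ θ : ℝ} (hE1 : 1 ≤ E) (hy : y + lam ≤ l) (hs1 : η / 64 ≤ s) (hs2 : s ≤ κ - η / 2)
    (hρ0 : 0 ≤ ρ) (haff : ∀ u ≤ lam, |f (y + u) - f y - s * u| ≤ ρ * lam + E)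
    (hρ : (1 + 64 / η) * ρ ≤ δ / 16) (hθ : (2 * (1 + 64 / η) + 2) * θ ≤ δ / 16)
    (hEθ : E ≤ θ * lam) (h8 : 8 ≤ lam) : False := by
  have hlam : (8 : ℝ) ≤ lam := by exact_mod_cast h8
  set r := ρ * lam + E with hr
  have hr0 : 0 ≤ r + E := by positivity
  set m := ⌊(r + E) * (64 / η)⌋₊ + 1 with hm
  have m1 : (r + E) * (64 / η) < m := by rw [hm]; push_cast; exact Nat.lt_floor_add_one _
  have m2 : (m : ℝ) ≤ (r + E) * (64 / η) + 1 := by
    rw [hm]; push_cast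
    have := Nat.floor_le (show 0 ≤ (r + E) * (64 / η) by positivity)
    linarith
  have hq : 0 < 64 / η := by positivity
  set a := (lam - 1) / 4 with ha
  have a1 : (lam : ℝ) ≤ 8 * a := by exact_mod_cast (show lam ≤ 8 * a by omega)
  have a2 : (a : ℝ) ≤ lam := by exact_mod_cast (show a ≤ lam by omega)
  have hδ0 : 0 ≤ δ := by nlinarith [mul_nonneg (show 0 ≤ 1 + 64 / η by positivity) hρ0]
  have b1 : (1 + 64 / η) * ρ * lam ≤ δ / 16 * lam := mul_le_mul_of_nonneg_right hρ (by linarith)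
  have b2 : (2 * (1 + 64 / η) + 2) * θ * lam ≤ δ / 16 * lam :=
    mul_le_mul_of_nonneg_right hθ (by linarith)
  have b3 : (2 * (1 + 64 / η) + 2) * E ≤ (2 * (1 + 64 / η) + 2) * (θ * lam) :=
    mul_le_mul_of_nonneg_left hEθ (by positivity)
  have b4 : δ * lam ≤ δ * (8 * a) := mul_le_mul_of_nonneg_left a1 hδ0
  have b5 : r + E + m + 1 ≤ δ * a := by
    have : r + E + ((r + E) * (64 / η) + 1) + 1 =
        (1 + 64 / η) * ρ * lam + 2 * (1 + 64 / η) * E + 2 := by rw [hr]; ring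
    nlinarith
  have b6 : m ≤ lam := by
    have : δ * a ≤ 1 * a := mul_le_mul_of_nonneg_right hδ1 (Nat.cast_nonneg _)
    exact_mod_cast (show (m : ℝ) ≤ lam by linarith)
  have hB : B y m := by
    by_contra hn
    have c1 := h.nb y m (by omega) hn
    have c2 := (abs_le.1 (haff m b6)).1
    have c3 : η / 64 * m ≤ s * m := mul_le_mul_of_nonneg_right hs1 (Nat.cast_nonneg _)
    have c4 : η / 64 * ((r + E) * (64 / η)) < η / 64 * m :=
      mul_lt_mul_of_pos_left m1 (by positivity)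
    have c5 : η / 64 * ((r + E) * (64 / η)) = r + E := by field_simp
    linarith
  exact h.brw y m a s r (by omega) hB (by omega) hs1 hs2 (fun u hu => haff u (by omega)) b5

/-- after an affine window of small slope the function hardly grows -/
theorem Hyp.case_small (h : Hyp n κ K η δ l m0 E f B) (hη : 0 < η) (hκ : 0 ≤ κ) (hK : 0 ≤ K)
    {y lam : ℕ} {s ρ θ : ℝ} (hE1 : 1 ≤ E) (hy : y + lam ≤ l) (hs1 : s ≤ η / 64)
    (haff : ∀ u ≤ lam, |f (y + u) - f y - s * u| ≤ ρ * lam + E) (hρ : ρ ≤ η / 64)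
    (hθ1 : 8 * (7 + 2 * K) * θ ≤ η / 4) (hθ2 : (4 * (n : ℝ) + 8) * θ ≤ 1)
    (hEθ : E ≤ θ * lam) (hm0 : (m0 : ℝ) ≤ θ * lam) (hl : l * E ≤ (θ * lam) ^ 2) :
    f l ≤ f (y + lam) + η / 2 * l + κ + E := by
  have hn0 : (0 : ℝ) ≤ n := Nat.cast_nonneg _
  have hlam0 : (0 : ℝ) ≤ lam := Nat.cast_nonneg _
  have hτ : 1 ≤ θ * lam := hE1.trans hEθ
  set τ := θ * lam with hτd
  have t1 : (4 * (n : ℝ) + 8) * τ ≤ lam := by
    have := mul_le_mul_of_nonneg_right hθ2 hlam0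
    rw [hτd]; linarith
  have t2 : 8 * (7 + 2 * K) * τ ≤ η / 4 * lam := by
    have := mul_le_mul_of_nonneg_right hθ1 hlam0
    rw [hτd]; linarith
  have hnτ : (n : ℝ) ≤ n * τ := le_mul_of_one_le_right hn0 hτ
  set m := ⌊τ⌋₊ + 1 with hm
  have m1 : τ < m := by rw [hm]; push_cast; exact Nat.lt_floor_add_one _
  have m2 : (m : ℝ) ≤ 2 * τ := by
    rw [hm]; push_cast
    have := Nat.floor_le (show 0 ≤ τ by linarith)
    linarith
  have m3 : 4 * m ≤ lam := by exact_mod_cast (show 4 * (m : ℝ) ≤ lam by linarith)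
  have m4 : 2 * (n * m + 2) ≤ lam := by
    have : (n : ℝ) * m ≤ n * (2 * τ) := mul_le_mul_of_nonneg_left m2 hn0
    exact_mod_cast (show 2 * ((n : ℝ) * m + 2) ≤ lam by linarith)
  have m5 : m0 ≤ m := by exact_mod_cast (show (m0 : ℝ) ≤ m by linarith)
  have mpos : 0 < m := by omega
  obtain ⟨t, g1, g2⟩ : ∃ t, t * m ≤ y ∧ y ≤ (t + 1) * m :=
    ⟨y / m, Nat.div_mul_le_self y m, by
      rw [add_mul, one_mul]; exact (Nat.lt_div_mul_add mpos).le⟩
  have g3 : (t + 1) * m ≤ l := by rw [add_mul, one_mul]; omega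
  obtain ⟨b, hb1, hb2, hb3⟩ := grid f (fun b => B b m) (l := l) (m := m) (E := E) (by linarith)
    (h.b0 m m5 (by omega)) (fun b h1 h2 => h.nb b m h1 h2) t g3
  have g4 : t * E ≤ τ := by
    have e1 : (t : ℝ) * m ≤ l := by exact_mod_cast (show t * m ≤ l by omega)
    have e2 : (t : ℝ) * τ ≤ t * m := mul_le_mul_of_nonneg_left m1.le (Nat.cast_nonneg _)
    have e3 : (t : ℝ) * τ * E ≤ l * E := mul_le_mul_of_nonneg_right (by linarith) (by linarith)
    exact le_of_mul_le_mul_left (a := τ) (by linarith) (by linarith)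
  obtain ⟨a0, ha0⟩ : ∃ a0, y + lam = b + a0 := ⟨y + lam - b, by omega⟩
  have a1 : lam ≤ a0 := by omega
  have a1' : (lam : ℝ) ≤ a0 := by exact_mod_cast a1
  obtain ⟨l', hl'⟩ : ∃ l', l = b + l' := ⟨l - b, by omega⟩
  have hZ : ∀ u v, b + m ≤ u → u ≤ v → v ≤ y + lam → f v - f u ≤ η / 32 * lam + 5 * τ := by
    intro u v h1 h2 h3
    have c1 := h.lo v (y + lam) h3 hy
    have c2 := h.lo (b + m) u h1 (by omega)
    have c3 := (abs_le.1 (haff lam le_rfl)).2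
    have c4 := h.lo y ((t + 1) * m) g2 g3
    have c5 : s * lam ≤ η / 64 * lam := mul_le_mul_of_nonneg_right hs1 hlam0
    have c6 : ρ * lam ≤ η / 64 * lam := mul_le_mul_of_nonneg_right hρ hlam0
    linarith
  have hKm : K * m ≤ K * (2 * τ) := mul_le_mul_of_nonneg_left m2 hK
  have hηa : η * lam ≤ η * a0 := mul_le_mul_of_nonneg_left a1' hη.le
  have hS := dbl_sum (fun u => f (b + u)) (l := l') (a0 := a0) (E := E) (W := E + K * m)
    (Z := η / 32 * lam + 5 * τ) (α := η / 2) (by linarith) (by positivity) (by omega)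
    (by positivity) (by linarith) (fun u v h1 h2 => h.lo _ _ (by omega) (by omega))
    (fun x h1 h2 => by
      have := h.dbl b m x mpos hb2 (by omega) (by omega)
      simp only [← add_assoc]
      linarith)
    (fun x h1 h2 => hZ _ _ (by omega) (by omega) (by omega)) (by omega) ((l' - 1) / 2)
  have hl0 : (0 : ℝ) ≤ l := Nat.cast_nonneg _
  have hηl : 0 ≤ η / 2 * l := by positivity
  by_cases hc : a0 ≤ 2 * ((l' - 1) / 2)
  · have c1 := (hS hc (by omega)).2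
    rw [← ha0] at c1
    have c2 := h.hi (b + (2 * ((l' - 1) / 2) + 1)) l (by omega) le_rfl
    have c3 : (l : ℝ) ≤ ((b + (2 * ((l' - 1) / 2) + 1) : ℕ) : ℝ) + 1 := by
      exact_mod_cast (show l ≤ b + (2 * ((l' - 1) / 2) + 1) + 1 by omega)
    have c4 : κ * ((l : ℝ) - ((b + (2 * ((l' - 1) / 2) + 1) : ℕ) : ℝ)) ≤ κ * 1 :=
      mul_le_mul_of_nonneg_left (by linarith) hκ
    have c5 : 2 * (((l' - 1) / 2 : ℕ) : ℝ) ≤ l := by
      exact_mod_cast (show 2 * ((l' - 1) / 2) ≤ l by omega)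
    have c6 := mul_le_mul_of_nonneg_left c5 hη.le
    linarith
  · have c2 := h.hi (y + lam) l hy le_rfl
    have c3 : (l : ℝ) ≤ ((y + lam : ℕ) : ℝ) + 1 := by
      exact_mod_cast (show l ≤ y + lam + 1 by omega)
    have c4 : κ * ((l : ℝ) - ((y + lam : ℕ) : ℝ)) ≤ κ * 1 :=
      mul_le_mul_of_nonneg_left (by linarith) hκ
    linarith

/-- **the core lemma** -/
theorem prof_core (n : ℕ) {κ K η δ : ℝ} (hκ : 1 ≤ κ) (hK : 0 ≤ K) (hη : 0 < η) (hη1 : η ≤ 1)
    (hδ : 0 < δ) (hδ1 : δ ≤ 1) :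
    ∃ ε : ℝ, 0 < ε ∧ ∀ (l m0 : ℕ) (E : ℝ) (f : ℕ → ℝ) (B : ℕ → ℕ → Prop), 1 ≤ E → E ≤ ε * l →
      (m0 : ℝ) ≤ ε * l → Hyp n κ K η δ l m0 E f B →
      ∃ x ≤ l, (∀ u ≤ x, κ * u - η * l ≤ f u) ∧ f l ≤ f x + η * l := by
  classical
  obtain ⟨ρ, ⟨hρ1, hρ2⟩, hρ0⟩ := (((ev_small (2 * (1 + 64 / η)) (show 0 < δ / 16 by positivity)).and
    (ev_small 2 (show 0 < η / 64 by positivity))).and self_mem_nhdsWithin).exists
  obtain ⟨θ, ⟨⟨⟨hθ1, hθ2⟩, hθ3⟩, hθ4⟩, hθ0⟩ :=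
    (((((ev_small (2 * (1 + 64 / η) + 2) (show 0 < δ / 16 by positivity)).and
    (ev_small (8 * (7 + 2 * K)) (show 0 < η / 4 by positivity))).and
    (ev_small (4 * (n : ℝ) + 8) one_pos)).and
    (ev_small (2 * κ + 3) (show 0 < η / 2 by positivity))).and self_mem_nhdsWithin).exists
  have hρ0' : 0 < ρ := hρ0
  have hθ0' : 0 < θ := hθ0
  obtain ⟨Kn, hKn⟩ := exists_nat_ge (κ / ρ + 1)
  obtain ⟨T, hT⟩ := exists_nat_ge ((κ + 2) / ρ)
  have hκρ : 0 ≤ κ / ρ := by positivity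
  have hK1 : (1 : ℝ) ≤ Kn := by linarith
  have hKρ : κ / Kn ≤ ρ := by
    rw [div_le_iff₀ (by linarith)]
    have : κ / ρ ≤ Kn := by linarith
    rw [div_le_iff₀ hρ0'] at this
    linarith
  rw [div_le_iff₀ hρ0'] at hT
  have hKT : (1 : ℝ) ≤ (Kn : ℝ) ^ T := one_le_pow₀ hK1
  set Q := (Kn : ℝ) ^ T with hQ
  set β := η / (2 * κ * Q) with hβ
  have hβ0 : 0 < β := by positivity
  have hβe : β * (2 * κ * Q) = η := by rw [hβ]; field_simp
  have hβ1 : β ≤ 1 := by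
    rw [hβ, div_le_one (by positivity)]
    have : 1 * 1 ≤ κ * Q := mul_le_mul hκ hKT zero_le_one (by linarith)
    linarith
  have hn0 : (0 : ℝ) ≤ n := Nat.cast_nonneg _
  have hθ8 : 8 * θ ≤ 1 := by linarith [mul_nonneg hn0 hθ0'.le]
  have hθβ1 : θ * β ≤ θ := mul_le_of_le_one_right hθ0'.le hβ1
  have hθβ2 : θ * β ≤ β := mul_le_of_le_one_left hβ0.le (by linarith)
  refine ⟨(θ * β) ^ 2, by positivity, fun l m0 E f B hE1 hE hm0 h => ?_⟩
  have hl0 : (0 : ℝ) ≤ l := Nat.cast_nonneg _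
  by_cases hex : ∃ u, u ≤ l ∧ f u < κ * u - η * l
  swap
  · push Not at hex
    refine ⟨l, le_rfl, hex, ?_⟩
    have : 0 ≤ η * l := by positivity
    linarith
  set x1 := Nat.find hex with hx1
  obtain ⟨x1l, x1f⟩ : x1 ≤ l ∧ f x1 < κ * x1 - η * l := Nat.find_spec hex
  have x1l' : (x1 : ℝ) ≤ l := by exact_mod_cast x1l
  have hθβ : θ * β ≤ 1 := by linarith
  have e1 : (θ * β) ^ 2 * l ≤ θ * β * l := by
    have : (θ * β) ^ 2 ≤ θ * β := by
      rw [sq]; exact mul_le_of_le_one_left (by positivity) hθβ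
    exact mul_le_mul_of_nonneg_right this hl0
  have e2 : θ * β * l ≤ θ * l := mul_le_mul_of_nonneg_right hθβ1 hl0
  have e3 : θ * β * l ≤ β * l := mul_le_mul_of_nonneg_right hθβ2 hl0
  have e4 : (2 * κ + 3) * θ * l ≤ η / 2 * l := mul_le_mul_of_nonneg_right hθ4 hl0
  have e5 : (2 * κ + 3) * E ≤ (2 * κ + 3) * (θ * l) :=
    mul_le_mul_of_nonneg_left (by linarith) (by linarith)
  have e6 : (2 * κ + 3) * E ≤ η / 2 * l := by linarith
  have e8 : E ≤ κ * E := le_mul_of_one_le_left (by linarith) hκ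
  have e9 : κ ≤ κ * E := le_mul_of_one_le_right (by linarith) hE1
  have e7 : 5 * E ≤ η / 2 * l := by linarith
  have c1 := h.lo 0 x1 (Nat.zero_le _) x1l
  have c2 := h.f0
  have c3 : η / 2 * l ≤ κ * x1 := by linarith
  have c4 : β * l * Q ≤ x1 := by
    have : κ * (β * l * Q) ≤ κ * x1 := by
      have : κ * (β * l * Q) = β * (2 * κ * Q) / 2 * l := by ring
      rw [this, hβe]; exact c3
    exact le_of_mul_le_mul_left this (by linarith)
  have c5 : η / 2 * x1 ≤ η / 2 * l := mul_le_mul_of_nonneg_left x1l' (by positivity)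
  obtain ⟨y, lam, s, h1, h2, h3, h4⟩ := exists_affine f x1 Kn T (E := E) (s0 := κ - η / 2)
    (ρ := ρ) (κ := κ) (by exact_mod_cast hK1) hρ0' (by linarith) (by linarith)
    (fun u v a b => h.lo u v a (b.trans x1l)) (by linarith) (by linarith) hT
    ((mul_le_mul_of_nonneg_right (by linarith) (by positivity)).trans c4)
  have hlam0 : (0 : ℝ) ≤ lam := Nat.cast_nonneg _
  have c6 : β * l ≤ lam := by
    have : Q * (β * l) ≤ Q * lam := by linarith
    exact le_of_mul_le_mul_left this (by linarith)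
  have c7 : θ * β * l ≤ θ * lam := by
    rw [mul_assoc]; exact mul_le_mul_of_nonneg_left c6 hθ0'.le
  have haff : ∀ u ≤ lam, |f (y + u) - f y - s * u| ≤ 2 * ρ * lam + E := fun u hu =>
    (h4 u hu).trans (by linarith [mul_le_mul_of_nonneg_right hKρ hlam0])
  have hEθ : E ≤ θ * lam := by linarith
  by_cases hs : η / 64 ≤ s
  · refine (h.case_big hη hδ1 hE1 (h1.trans x1l) hs h3 (by positivity) haff (θ := θ)
      (by linarith) hθ1 hEθ ?_).elim
    have := mul_le_mul_of_nonneg_right hθ8 hlam0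
    exact_mod_cast (show (8 : ℝ) ≤ lam by linarith)
  have hx0 : x1 ≠ 0 := by
    intro h0
    rw [h0] at c3
    simp only [Nat.cast_zero, mul_zero] at c3
    linarith
  obtain ⟨x, hx⟩ := Nat.exists_eq_succ_of_ne_zero hx0
  have d1 := h.case_small hη (by linarith) hK hE1 (h1.trans x1l) (not_le.1 hs).le haff hρ2 hθ2 hθ3
    hEθ (by linarith) (by
      have a1 : l * E ≤ l * ((θ * β) ^ 2 * l) := mul_le_mul_of_nonneg_left hE hl0
      have a2 : (θ * β * l) ^ 2 ≤ (θ * lam) ^ 2 := pow_le_pow_left₀ (by positivity) c7 2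
      linarith)
  have d2 := h.lo (y + lam) x1 h1 x1l
  have d3 := h.hi x x1 (by omega) x1l
  have d4 : (x1 : ℝ) - x = 1 := by rw [hx]; push_cast; ring
  rw [d4] at d3
  refine ⟨x, by omega, fun u hu => ?_, by linarith⟩
  have := Nat.find_min hex (show u < Nat.find hex by omega)
  push Not at this
  exact this (by omega)

end Crest.Agent.N76.L.Pf
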