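import Crest.Agent.N76.L.Tight
import Crest.Agent.N76.L.ProfA

/-! # Row 76, Part I (helper9): the profile theorem. -/

set_option autoImplicit false

open Finset

namespace Crest.Agent.N76.L

variable {n M : ℕ}

/-- the statement of `BRW` for one tower -/
def BRWP (κ : ℕ) (c ε : ℝ) (T : Tw n M) : Prop :=
  ∀ (b m₀ a : ℕ) (N : Finset (Nd n)) (σ : ℝ), 1 ≤ m₀ → ((n * m₀ + 2 : ℕ) : ℝ) ≤ ε * a →
    b + 2 * a + 1 ≤ M → N ⊆ T.al b → N.Nonempty → ¬ T.Nar b (b + m₀) (κ - 1) →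
    T.Nar b (b + 2 * a + 1) κ → c ≤ σ → σ ≤ 1 - c →
    (∀ u ≤ a, T.cc b (a + u) N + ((n : ℝ) - κ) * u + ((κ : ℝ) + 1) * σ * u ≤ T.cc b a N + ε * a) →
    T.m (b + (n * m₀ + 2)) (b + 2 * a + 1) ≤
      T.m (b + (n * m₀ + 2)) (b + a) + T.m (b + a) (b + 2 * a) + ε * a →
    c * a ≤ T.m (b + (n * m₀ + 2)) (b + a) →
    (∀ u, 1 ≤ u → u ≤ a → (κ : ℝ) * u - T.D (b + a) (b + a + u + 1) ≤ κ * σ * u + ε * a) →
    False

namespace Tgt

variable {T : Tw n M} {κ i₀ j₀ : ℕ} {N₀ : Finset (Nd n)} {E : ℝ}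

/-- upper and lower bounds for the cell function in an affine window -/
theorem cell_aff (h : Tgt T κ i₀ j₀ N₀ E) {c₁ c₂ c₃ : ℝ} (h1 : Bas1 c₁ T) (h2 : Bas2 c₂ T)
    (h3 : CoreP c₃ T) (hκ : 1 ≤ κ) (hκn : κ ≤ n) (hj₀ : j₀ ≤ M) (hnar : T.Nar i₀ j₀ κ)
    {b m a u : ℕ} {s ζ : ℝ} (hb : i₀ ≤ b) (hm : 1 ≤ m) (hbr : ¬ T.Nar b (b + m) (κ - 1))
    (hba : b + 4 * a + 1 ≤ j₀) (hp : n * m + 2 ≤ a) (hu : u ≤ a) (hs : 0 ≤ s)
    (haff : ∀ u ≤ 4 * a + 1, |T.D b (b + u) - s * u| ≤ ζ) (hE : E ≤ ζ) (hm' : (m : ℝ) ≤ ζ)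
    (hc₁ : c₁ ≤ ζ) (hc₂ : c₂ ≤ ζ) (hc₃ : 0 ≤ c₃) :
    κ * T.Fc b (a + u) (T.nS i₀ b N₀) - κ * T.Fc b a (T.nS i₀ b N₀) - ((κ : ℝ) + 1) * s * u ≤
      κ * (((n : ℝ) ^ 2 + 2 * n + 20 + c₃) * ζ) := by
  have hk : (1 : ℝ) ≤ κ := by exact_mod_cast hκ
  have hn0 : (0 : ℝ) ≤ n := Nat.cast_nonneg _
  have hm1 : (1 : ℝ) ≤ m := by exact_mod_cast hm
  have hζ : 1 ≤ ζ := hm1.trans hm'
  have U := h.uf h1 h3 hκ hκn hj₀ (x := a + u) hb hm (by omega) (by omega) hbr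
    (h1.nar_sub i₀ b _ j₀ κ hb (by omega) (by omega) hj₀ hnar)
  have L := h2.fl (b := b) (x := a) (by omega) (by omega) (h.sub b) (h.ne b hb (by omega))
  have L' := mul_le_mul_of_nonneg_left L (show (0 : ℝ) ≤ κ by linarith)
  have b1 := (h.Br_D (i := b) (j := b + (a + u)) hb (by omega) (by omega)).2
  have b2 := (h.Br_D (i := b) (j := b + (a + 1) / 2) hb (by omega) (by omega)).1
  have f1 := abs_le.1 (haff (a + u) (by omega))
  have f2 := abs_le.1 (haff (2 * (a + u) + 1) (by omega))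
  have f3 := abs_le.1 (haff ((a + 1) / 2) (by omega))
  have f4 := abs_le.1 (haff (a + 1) (by omega))
  have d1 := abs_le.1 (h.D_add b (b + (a + u)) (b + 2 * (a + u) + 1) hb (by omega) (by omega)
    (by omega))
  rw [← add_assoc b (2 * (a + u)) 1] at f2
  rw [← add_assoc b a 1] at f4
  have y1 : (a : ℝ) ≤ 2 * (((a + 1) / 2 : ℕ) : ℝ) := by
    exact_mod_cast (show a ≤ 2 * ((a + 1) / 2) by omega)
  have y2 := mul_le_mul_of_nonneg_left y1 hs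
  push_cast at f1 f2 f4
  have e1 : ((κ : ℝ) + 2) * (T.D b (b + (a + u)) + E) ≤ ((κ : ℝ) + 2) * (s * (a + u) + 2 * ζ) :=
    mul_le_mul_of_nonneg_left (by linarith [f1.2]) (by linarith)
  have e2 : (κ : ℝ) * (2 * E + n * ((n : ℝ) * m + 2) + c₁ + c₃ * m) ≤
      κ * (((n : ℝ) ^ 2 + 2 * n + 3 + c₃) * ζ) := by
    refine mul_le_mul_of_nonneg_left ?_ (by linarith)
    have a1 : (n : ℝ) ^ 2 * m ≤ (n : ℝ) ^ 2 * ζ := mul_le_mul_of_nonneg_left hm' (by positivity)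
    have a2 : (n : ℝ) ≤ n * ζ := le_mul_of_one_le_right hn0 hζ
    have a3 : c₃ * m ≤ c₃ * ζ := mul_le_mul_of_nonneg_left hm' hc₃
    linarith
  have e3 : (κ : ℝ) * (s * a - ζ) ≤ κ * T.D b (b + a + 1) :=
    mul_le_mul_of_nonneg_left (by linarith [f4.1]) (by linarith)
  have e4 : (κ : ℝ) * (E + 1 + c₂) ≤ κ * (3 * ζ) :=
    mul_le_mul_of_nonneg_left (by linarith) (by linarith)
  have e5 : ζ ≤ κ * ζ := le_mul_of_one_le_left (by linarith) hk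
  linarith [f1.2, f2.1, f3.1, d1.2]

/-- an affine window of intermediate slope after a broad start contradicts `BRW` -/
theorem brw_use (h : Tgt T κ i₀ j₀ N₀ E) {c₁ c₂ c₃ : ℝ} (h1 : Bas1 c₁ T) (h2 : Bas2 c₂ T)
    (h3 : CoreP c₃ T) (hκ : 1 ≤ κ) (hκn : κ ≤ n) (hj₀ : j₀ ≤ M) (hnar : T.Nar i₀ j₀ κ)
    {η εB : ℝ} (hη : 0 < η) (hη1 : η ≤ 1) (hB : BRWP κ (η / (128 * n)) εB T)
    {b m a : ℕ} {s ζ : ℝ} (hb : i₀ ≤ b) (hm : 1 ≤ m) (hbr : ¬ T.Nar b (b + m) (κ - 1))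
    (hba : b + 4 * a + 1 ≤ j₀) (hs1 : η / 64 ≤ s) (hs2 : s ≤ κ - η / 2)
    (haff : ∀ u ≤ 4 * a + 1, |T.D b (b + u) - s * u| ≤ ζ) (hE : E ≤ ζ) (hm' : (m : ℝ) ≤ ζ)
    (hc₁ : c₁ ≤ ζ) (hc₂ : c₂ ≤ ζ) (hc₃ : 0 ≤ c₃)
    (hζ1 : ((n : ℝ) ^ 2 + 2 * n + 20 + c₃) * ζ ≤ εB * a)
    (hζ2 : ((n : ℝ) ^ 2 + 2 * n + 20 + c₃) * ζ ≤ η / 128 * a) : False := by
  have hk : (1 : ℝ) ≤ κ := by exact_mod_cast hκ
  have hkn : (κ : ℝ) ≤ n := by exact_mod_cast hκn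
  have hn0 : (0 : ℝ) ≤ n := Nat.cast_nonneg _
  have ha0 : (0 : ℝ) ≤ a := Nat.cast_nonneg _
  have hm1 : (1 : ℝ) ≤ m := by exact_mod_cast hm
  have hζ : 1 ≤ ζ := hm1.trans hm'
  have hs0 : 0 ≤ s := by linarith
  have z1 : (n : ℝ) ≤ n * ζ := le_mul_of_one_le_right hn0 hζ
  have z2 : (n : ℝ) * m ≤ n * ζ := mul_le_mul_of_nonneg_left hm' hn0
  have z3 : 0 ≤ (n : ℝ) ^ 2 * ζ := by positivity
  have z4 : 0 ≤ c₃ * ζ := by positivity
  have z5 : η * a ≤ 1 * a := mul_le_mul_of_nonneg_right hη1 ha0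
  have hp : n * m + 2 ≤ a := by exact_mod_cast (show (n : ℝ) * m + 2 ≤ a by linarith)
  have hκ0 : (0 : ℝ) < κ := by linarith
  have hsk : (κ : ℝ) * (1 - s / κ) = κ - s := by field_simp
  have hc : (n : ℝ) * (η / (128 * n)) = η / 128 := by
    have : (n : ℝ) ≠ 0 := by linarith
    field_simp
  have hc0 : 0 ≤ η / (128 * n) := by positivity
  have hc1 : (κ : ℝ) * (η / (128 * n)) ≤ η / 128 := by
    rw [← hc]; exact mul_le_mul_of_nonneg_right hkn hc0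
  have hc2 : η / (128 * n) ≤ η / 128 := by
    have := mul_le_mul_of_nonneg_right hk hc0
    linarith
  refine hB b m a (T.nS i₀ b N₀) (1 - s / κ) hm (by push_cast; linarith) (by omega) (h.sub b)
    (h.ne b hb (by omega)) hbr (h1.nar_sub i₀ b _ j₀ κ hb (by omega) (by omega) hj₀ hnar)
    (le_of_mul_le_mul_left (by rw [hsk]; linarith) hκ0)
    (le_of_mul_le_mul_left (by rw [hsk]; linarith) hκ0) (fun u hu => ?_) ?_ ?_
    (fun u hu1 hu => ?_)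
  · have c := h.cell_aff h1 h2 h3 hκ hκn hj₀ hnar hb hm hbr hba hp hu hs0 haff hE hm' hc₁ hc₂ hc₃
    have c' := mul_le_mul_of_nonneg_left hζ1 hκ0.le
    refine le_of_mul_le_mul_left ?_ hκ0
    have e : (κ : ℝ) * (((κ : ℝ) + 1) * (1 - s / κ) * u) = ((κ : ℝ) + 1) * (κ - s) * u := by
      rw [← hsk]; ring
    unfold Tw.Fc at c
    push_cast at c
    linarith
  · have a1 := h.m_add (b + (n * m + 2)) (b + a) (b + 2 * a + 1) (by omega) (by omega) (by omega)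
      (by omega)
    have a2 := h.m_add (b + a) (b + 2 * a) (b + 2 * a + 1) (by omega) (by omega) (by omega)
      (by omega)
    have a3 := h1.m_nar (b + 2 * a) (b + 2 * a + 1) n (by omega) (by omega) le_rfl (h1.nar_n _ _)
    push_cast at a3
    linarith
  · have a1 := h1.D_le_m (i := b + (n * m + 2)) (j := b + a) (by omega) (by omega)
    have a2 := abs_le.1 (h.D_add b (b + (n * m + 2)) (b + a) hb (by omega) (by omega) (by omega))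
    have f1 := abs_le.1 (haff a (by omega))
    have f2 := abs_le.1 (haff (n * m + 2) (by omega))
    push_cast at f2
    have a3 : s * ((n : ℝ) * m + 2) ≤ n * (n * ζ + 2 * ζ) :=
      mul_le_mul (by linarith) (by linarith) (by positivity) hn0
    have a4 := mul_le_mul_of_nonneg_right hs1 ha0
    have a5 := mul_le_mul_of_nonneg_right hc2 ha0
    linarith [a2.2, f1.1, f2.2]
  · have a2 := abs_le.1 (h.D_add b (b + a) (b + a + u + 1) hb (by omega) (by omega) (by omega))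
    have f1 := abs_le.1 (haff a (by omega))
    have f2 := abs_le.1 (haff (a + u + 1) (by omega))
    rw [show b + (a + u + 1) = b + a + u + 1 by omega] at f2
    push_cast at f2
    rw [hsk]
    linarith [a2.2, f1.2, f2.1]

/-- the hypotheses of the real-variable core -/
theorem hyp (h : Tgt T κ i₀ j₀ N₀ E) {c₁ c₂ c₃ : ℝ} (h1 : Bas1 c₁ T) (h2 : Bas2 c₂ T)
    (h3 : CoreP c₃ T) (hκ : 1 ≤ κ) (hκn : κ ≤ n) (hj₀ : j₀ ≤ M) (hnar : T.Nar i₀ j₀ κ)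
    {η εB δ : ℝ} (hη : 0 < η) (hη1 : η ≤ 1) (hB : BRWP κ (η / (128 * n)) εB T)
    {l m₀ : ℕ} (hl : j₀ = i₀ + l) (hbr : ¬ T.Nar i₀ (i₀ + m₀) (κ - 1))
    (hE : 1 ≤ E) (hc₁ : c₁ ≤ E) (hc₂ : c₂ ≤ E) (hc₃ : 0 ≤ c₃)
    (UB : ∀ i j, i₀ ≤ i → i ≤ j → j ≤ j₀ → T.Nar i j (κ - 1) →
      T.g (κ - 1) i j (T.nS i₀ i N₀) ≤ E)
    (hδ1 : ((n : ℝ) ^ 2 + 2 * n + 20 + c₃) * δ ≤ εB)
    (hδ2 : ((n : ℝ) ^ 2 + 2 * n + 20 + c₃) * δ ≤ η / 128) :
    Pf.Hyp n κ (κ * ((n : ℝ) ^ 2 + c₃)) η δ l m₀ (13 * ((n : ℝ) + 1) ^ 2 * E)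
      (fun u => T.D i₀ (i₀ + u)) (fun b m => ¬ T.Nar (i₀ + b) (i₀ + b + m) (κ - 1)) := by
  have hk : (1 : ℝ) ≤ κ := by exact_mod_cast hκ
  have hkn : (κ : ℝ) ≤ n := by exact_mod_cast hκn
  have hn0 : (0 : ℝ) ≤ n := Nat.cast_nonneg _
  have z1 : 0 ≤ (n : ℝ) * E := by positivity
  have z2 : 0 ≤ (n : ℝ) ^ 2 * E := by positivity
  refine ⟨?_, fun u v huv hv => ?_, fun u v huv hv => ?_, fun m hm1 hm2 hn => ?_,
    fun b m hbm hn => ?_, fun b m x hm hb hx hbx => ?_, fun b m a s r hm hb hba s1 s2 haff hr => ?_⟩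
  · have := h.D_lo i₀ i₀ le_rfl le_rfl (by omega)
    simp only [add_zero]
    linarith
  · have := h.D_mono (i := i₀) (j := i₀ + u) (l := i₀ + v) le_rfl (by omega) (by omega) (by omega)
    linarith
  · have a1 := abs_le.1 (h.D_add i₀ (i₀ + u) (i₀ + v) le_rfl (by omega) (by omega) (by omega))
    have a2 := h1.D_le (i := i₀ + u) (j := i₀ + v) (by omega) (by omega) hκn
      (h1.nar_sub i₀ _ _ j₀ κ (by omega) (by omega) (by omega) hj₀ hnar)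
    push_cast at a2
    linarith [a1.2]
  · exact hbr (h1.nar_sub (i₀ + 0) i₀ (i₀ + m₀) (i₀ + 0 + m) _ (by omega) (by omega) (by omega)
      (by omega) hn)
  · rw [not_not] at hn
    have a1 := (h.nb hκ (i := i₀ + b) (j := i₀ + b + m) (by omega) (by omega) (by omega)
      (show 0 ≤ E by linarith) (UB _ _ (by omega) (by omega) (by omega) hn)).2
    have a2 := abs_le.1 (h.D_add i₀ (i₀ + b) (i₀ + b + m) le_rfl (by omega) (by omega) (by omega))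
    have a3 : ((κ : ℝ) + 2) ^ 2 * (E + E) ≤ ((n : ℝ) + 2) ^ 2 * (E + E) :=
      mul_le_mul_of_nonneg_right (pow_le_pow_left₀ (by linarith) (by linarith) 2) (by linarith)
    simp only [← add_assoc]
    linarith [a2.2]
  · have a1 := h.dbl h1 h2 h3 hκ hκn hj₀ (b := i₀ + b) (by omega) hm hx (by omega) hb
      (h1.nar_sub i₀ _ _ j₀ κ (by omega) (by omega) (by omega) hj₀ hnar)
    have a2 : (n : ℝ) ≤ n * E := le_mul_of_one_le_right hn0 hE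
    have a3 : (κ : ℝ) * (2 * E + 2 * n + c₁ + 1 + c₂) ≤ n * (5 * E + 2 * (n * E)) :=
      mul_le_mul hkn (by linarith) (by
        have := h1.c_nonneg
        have := h2.cc_anti 0 0 0 (T.al 0) le_rfl T.ne
        linarith) hn0
    have a4 : (κ : ℝ) * E ≤ n * E := mul_le_mul_of_nonneg_right hkn (by linarith)
    simp only [← add_assoc]
    linarith
  · have hr0 : 0 ≤ r := (abs_nonneg _).trans (haff 0 (Nat.zero_le _))
    have hm0 : (0 : ℝ) ≤ m := Nat.cast_nonneg _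
    have ha0 : (0 : ℝ) ≤ a := Nat.cast_nonneg _
    refine h.brw_use h1 h2 h3 hκ hκn hj₀ hnar hη hη1 hB (b := i₀ + b) (a := a) (ζ := δ * a)
      (by omega) hm hb (by omega) s1 s2 (fun u hu => ?_) (by linarith) (by linarith) (by linarith)
      (by linarith) hc₃ (by linarith [mul_le_mul_of_nonneg_right hδ1 ha0])
      (by linarith [mul_le_mul_of_nonneg_right hδ2 ha0])
    have a1 := abs_le.1 (haff u hu)
    have a2 := abs_le.1 (h.D_add i₀ (i₀ + b) (i₀ + b + u) le_rfl (by omega) (by omega) (by omega))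
    simp only [← add_assoc] at a1
    rw [abs_le]
    constructor <;> linarith [a1.1, a1.2, a2.1, a2.2]

end Tgt

/-- **The profile theorem.** -/
theorem prof_of {n κ : ℕ} (h1 : BasS1 n) (h2 : BasS2 n) (hc : CoreS n) (hd : DEC n κ)
    (hd' : DEC n (κ - 1)) (hb : BRW n κ) (hκ : 1 ≤ κ) (hκn : κ ≤ n) : Prof n κ := by
  intro η₀ hη₀
  obtain ⟨c₁, hc₁, h1⟩ := h1
  obtain ⟨c₂, hc₂, h2⟩ := h2
  obtain ⟨c₃, hc₃, hc⟩ := hc
  have hk : (1 : ℝ) ≤ κ := by exact_mod_cast hκ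
  have hkn : (κ : ℝ) ≤ n := by exact_mod_cast hκn
  have hn0 : (0 : ℝ) ≤ n := Nat.cast_nonneg _
  obtain ⟨η, hη, hη1, hηη⟩ : ∃ η : ℝ, 0 < η ∧ η ≤ 1 ∧ η ≤ η₀ :=
    ⟨min η₀ 1, lt_min hη₀ one_pos, min_le_right _ _, min_le_left _ _⟩
  obtain ⟨εB, hεB, hb⟩ := hb (η / (128 * n)) (by
    have : (0 : ℝ) < n := by linarith
    positivity)
  obtain ⟨δ, ⟨⟨hδ1, hδ2⟩, hδ3⟩, hδ0⟩ := ((((Pf.ev_small ((n : ℝ) ^ 2 + 2 * n + 20 + c₃) hεB).and
    (Pf.ev_small ((n : ℝ) ^ 2 + 2 * n + 20 + c₃) (show 0 < η / 128 by positivity))).and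
    (Pf.ev_small 1 one_pos)).and self_mem_nhdsWithin).exists
  obtain ⟨εP, hεP, hP⟩ := Pf.prof_core n (κ := κ) (K := κ * ((n : ℝ) ^ 2 + c₃)) (η := η) (δ := δ)
    hk (by positivity) hη hη1 hδ0 (by linarith)
  obtain ⟨G, hG⟩ : ∃ G : ℝ, G = 13 * ((n : ℝ) + 1) ^ 2 * (4 * ((n : ℝ) + 3)) := ⟨_, rfl⟩
  have hG1 : 1 ≤ G := by
    have : (1 : ℝ) ≤ ((n : ℝ) + 1) ^ 2 := one_le_pow₀ (by linarith)
    rw [hG]; nlinarith
  obtain ⟨γ, hγ⟩ : ∃ γ : ℝ, γ = εP / (4 * G) := ⟨_, rfl⟩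
  have hγ0 : 0 < γ := by rw [hγ]; positivity
  have hγG : G * γ = εP / 4 := by rw [hγ]; field_simp
  obtain ⟨L₁, hd⟩ := hd γ hγ0
  obtain ⟨L₂, hd'⟩ := hd' γ hγ0
  obtain ⟨L, hL⟩ := exists_nat_ge ((|L₁| + |L₂| + c₁ + c₂ + 1) / γ)
  rw [div_le_iff₀ hγ0] at hL
  refine ⟨γ, L, hγ0, fun M => ?_⟩
  refine ((((((h1 M).and (h2 M)).and (hc M)).and (hd M)).and (hd' M)).and (hb M)).mono ?_
  rintro T ⟨⟨⟨⟨⟨t1, t2⟩, t3⟩, td⟩, td'⟩, tb⟩ i₀ j₀ m₀ N₀ hL' hj₀ hN hne hnar hm₀ hm₀' hbr hg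
  obtain ⟨l, rfl⟩ : ∃ l, j₀ = i₀ + l := ⟨j₀ - i₀, by omega⟩
  have hl : ((i₀ + l : ℕ) : ℝ) - i₀ = l := by push_cast; ring
  rw [hl] at hm₀' hg ⊢
  have hl0 : (0 : ℝ) ≤ l := Nat.cast_nonneg _
  have hLl : (L : ℝ) ≤ l := by exact_mod_cast (show L ≤ l by omega)
  have hγl : γ * L ≤ γ * l := mul_le_mul_of_nonneg_left hLl hγ0.le
  have hγl0 : 0 ≤ γ * l := by positivity
  have p1 := le_abs_self L₁
  have p2 := le_abs_self L₂
  have p3 := abs_nonneg L₁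
  have p4 := abs_nonneg L₂
  have len : ∀ i j : ℕ, i₀ ≤ i → j ≤ i₀ + l → γ * ((j : ℝ) - i) ≤ γ * l := by
    intro i j hi hj
    have a1 : (i₀ : ℝ) ≤ i := by exact_mod_cast hi
    have a2 : (j : ℝ) ≤ i₀ + l := by exact_mod_cast hj
    exact mul_le_mul_of_nonneg_left (by linarith) hγ0.le
  have ht := tight (e := 2 * (γ * l)) t1 hκ hκn hj₀ hN hne (by linarith)
    (fun i j N a1 a2 a3 a4 a5 => by
      have := td i j N a2 (a3.trans hj₀) a4 a5 (t1.nar_sub i₀ i j _ κ a1 a2 a3 hj₀ hnar)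
      linarith [len i j a1 a3]) (by linarith)
  obtain ⟨E, hE⟩ : ∃ E, E = 4 * ((n : ℝ) + 3) * (2 * (γ * l) + c₁) := ⟨_, rfl⟩
  rw [← hE] at ht
  have hE1 : 2 * (γ * l) + c₁ ≤ E := by
    rw [hE]; exact le_mul_of_one_le_left (by linarith) (by linarith)
  have hH := ht.hyp t1 t2 t3 hκ hκn hj₀ hnar hη hη1 tb rfl hbr (by linarith) (by linarith)
    (by linarith) (by linarith) (fun i j a1 a2 a3 a4 => by
      have := td' i j _ a2 (a3.trans hj₀) (ht.sub i) (ht.ne i a1 (a2.trans a3)) a4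
      linarith [len i j a1 a3]) hδ1 hδ2
  have hEG : 13 * ((n : ℝ) + 1) ^ 2 * E ≤ G * (3 * (γ * l)) := by
    have : 13 * ((n : ℝ) + 1) ^ 2 * E = G * (2 * (γ * l) + c₁) := by rw [hE, hG]; ring
    rw [this]; exact mul_le_mul_of_nonneg_left (by linarith) (by linarith)
  have hGl : G * (γ * l) = εP / 4 * l := by rw [← mul_assoc, hγG]
  have hεl : 0 ≤ εP * l := by positivity
  have hγ2 : γ * l ≤ G * (γ * l) := le_mul_of_one_le_left hγl0 hG1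
  obtain ⟨x, hx, hx1, hx2⟩ := hP l m₀ _ _ _ (by
      have : (1 : ℝ) ≤ ((n : ℝ) + 1) ^ 2 := one_le_pow₀ (by linarith)
      nlinarith) (by linarith) (by linarith) hH
  have hηl : η * l ≤ η₀ * l := mul_le_mul_of_nonneg_right hηη hl0
  refine ⟨i₀ + x, by omega, by omega, fun u hu1 hu2 => ?_, by linarith⟩
  obtain ⟨u, rfl⟩ : ∃ u', u = i₀ + u' := ⟨u - i₀, by omega⟩
  have := hx1 u (by omega)
  push_cast
  linarith

end Crest.Agent.N76.L
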