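import Crest.Agent.N76.L.Cnt
import Crest.Agent.N76.II.Net

/-! # Row 76, Part I: the sparse gain `SG` from the abstract tower (helper6). -/

set_option autoImplicit false

open MeasureTheory Finset Metric
open scoped RealInnerProductSpace

namespace Crest.Agent.N76.L

open Crest.Agent.N76.Red (V)
open Crest.Agent.N76.G

namespace WS

variable {n M : ℕ}

open Classical in
/-- total weight of the fibre -/
noncomputable def fw {ι α : Type*} (X : Finset ι) (p : ι → α) (w : ι → ℝ) (z : α) : ℝ :=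
  ∑ i ∈ X.filter (fun i => p i = z), w i

open Classical in
theorem sum_fw {ι α : Type*} (X : Finset ι) (p : ι → α) (w : ι → ℝ) (f : α → ℝ) :
    ∑ z ∈ X.image p, fw X p w z * f z = ∑ i ∈ X, w i * f (p i) := by
  rw [← sum_fiberwise_of_maps_to (fun i hi => mem_image_of_mem p hi)]
  refine sum_congr rfl fun z _ => ?_
  rw [fw, sum_mul]
  exact sum_congr rfl fun i hi => by rw [(mem_filter.1 hi).2]

open Classical in
theorem ms_eq {ι α : Type*} (X : Finset ι) (p : ι → α) (w : ι → ℝ) (E : Set α) :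
    ms X p w E = ∑ i ∈ X, w i * if p i ∈ E then 1 else 0 := by
  rw [ms, sum_filter]
  exact sum_congr rfl fun i _ => by split_ifs <;> simp

open Classical in
theorem ms_fw {ι α : Type*} (X : Finset ι) (p : ι → α) (w : ι → ℝ) (E : Set α) :
    ms (X.image p) id (fw X p w) E = ms X p w E := by
  rw [ms_eq, ms_eq]
  exact sum_fw X p w fun z => if z ∈ E then 1 else 0

theorem exists_red {ι α : Type*} (X : Finset ι) (p : ι → α) {w : ι → ℝ} (hw : ∀ i ∈ X, 0 ≤ w i) :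
    ∃ (X' : Finset α) (w' : α → ℝ), (∀ z ∈ X', 0 ≤ w' z) ∧ (∀ z ∈ X', ∃ i ∈ X, p i = z) ∧
      (∀ f : α → ℝ, ∑ z ∈ X', w' z * f z = ∑ i ∈ X, w i * f (p i)) ∧
      ∀ E, ms X' id w' E = ms X p w E := by
  classical
  exact ⟨X.image p, fw X p w, fun z _ => sum_nonneg fun i hi => hw i (mem_filter.1 hi).1,
    fun z hz => mem_image.1 hz, sum_fw X p w, ms_fw X p w⟩

theorem ms_cover {ι α κ : Type*} {X : Finset ι} {p : ι → α} {w : ι → ℝ} (hw : ∀ i ∈ X, 0 ≤ w i)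
    {E : Set α} (t : Finset κ) (E' : κ → Set α) (h : ∀ i ∈ X, p i ∈ E → ∃ c ∈ t, p i ∈ E' c) :
    ms X p w E ≤ ∑ c ∈ t, ms X p w (E' c) := by
  classical
  simp only [ms_eq]
  rw [sum_comm]
  refine sum_le_sum fun i hi => ?_
  rw [← mul_sum]
  refine mul_le_mul_of_nonneg_left ?_ (hw i hi)
  split_ifs with h1
  · obtain ⟨c, hc, h2⟩ := h i hi h1
    refine le_trans ?_ (single_le_sum (f := fun c => if p i ∈ E' c then (1 : ℝ) else 0)
      (fun c _ => by split_ifs <;> norm_num) hc)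
    simp [h2]
  · exact sum_nonneg fun c _ => by split_ifs <;> norm_num

theorem ms_ball_le {ι : Type*} {X : Finset ι} {p : ι → V n × ℝ} {w : ι → ℝ}
    (hw : ∀ i ∈ X, 0 ≤ w i) {r L N : ℝ} (hr : 0 < r) (hL : 0 ≤ L) (hN : 0 ≤ N)
    (h : ∀ c, ms X p w (closedBall c r) ≤ N) (u : V n × ℝ) :
    ms X p w (closedBall u (L * r)) ≤ (2 * L + 1) ^ (n + 1) * N := by
  classical
  obtain ⟨t, ht, hsep, hnet⟩ := II.exists_net (X.filter fun i => p i ∈ closedBall u (L * r)) p hr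
  have hc := II.card_le_of_sep_st t p u (by positivity : 0 ≤ L * r) hr
    (fun c hc => (mem_filter.1 (ht hc)).2) hsep
  rw [show 2 * (L * r) / r = 2 * L by field_simp] at hc
  refine (ms_cover hw t (fun c => closedBall (p c) r) fun i hi h1 => ?_).trans ?_
  · obtain ⟨c, hc, h2⟩ := hnet i (mem_filter.2 ⟨hi, h1⟩)
    exact ⟨c, hc, h2.le⟩
  · refine (sum_le_card_nsmul _ _ N fun c _ => h _).trans ?_
    rw [nsmul_eq_mul]
    exact mul_le_mul_of_nonneg_right hc hN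

/-- mass of the tube of an alive node -/
theorem nu_le (T : Tw n M) (hT : T.Std) {l P : ℕ} (hl : l ≤ M) {r N : ℝ} (hr : (T.k : ℝ) ^ l ≤ r)
    (hP : (T.k : ℝ) ^ (2 * l) ≤ P * r) (hN : 0 ≤ N)
    (h : ∀ c, ms T.X id T.w (closedBall c r) ≤ N) :
    T.ν l ≤ (P + 1) * ((T.k : ℝ) ^ (n + 1) * N) := by
  obtain ⟨h1, -, h3, -⟩ := hT.Λ_ge
  have hk : 1 ≤ T.k := by have := hT.k_ge; omega
  have hr0 : 0 < r := lt_of_lt_of_le (by positivity) hr
  obtain ⟨c, hc⟩ := T.al_nonempty hl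
  refine (T.νc l hl c hc).1.trans ((ms_cover T.w0 (range (P + 1)) (fun q : ℕ => closedBall
    (ps T.k l c (tm T.k l c + q * r), tm T.k l c + q * r) (3 * T.Λ ^ 2 * r)) fun z _ hz => ?_).trans ?_)
  · obtain ⟨h4, h5⟩ := box_tm hk hz
    simp only [id] at h4 h5 hz ⊢
    have h6 : 0 ≤ (z.2 - tm T.k l c) / r := div_nonneg (by linarith) hr0.le
    have h7 := Nat.floor_le h6
    have h8 := Nat.lt_floor_add_one ((z.2 - tm T.k l c) / r)
    refine ⟨⌊(z.2 - tm T.k l c) / r⌋₊, mem_range.2 (Nat.lt_succ_of_le (Nat.floor_le_of_le ?_)), ?_⟩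
    · rw [div_le_iff₀ hr0]; linarith
    generalize (⌊(z.2 - tm T.k l c) / r⌋₊ : ℝ) = q at h7 h8
    rw [le_div_iff₀ hr0] at h7
    rw [div_lt_iff₀ hr0] at h8
    have h9 : |z.2 - (tm T.k l c + q * r)| ≤ r := by rw [abs_le]; constructor <;> linarith
    rw [mem_closedBall, Prod.dist_eq, Real.dist_eq, dist_eq_norm]
    have hΛ : r ≤ T.Λ ^ 2 * r := le_mul_of_one_le_left hr0.le (by nlinarith)
    refine max_le ?_ (by linarith)
    have e : z.1 - ps T.k l c (tm T.k l c + q * r) = (z.1 - ps T.k l c z.2) -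
        (2 * (z.2 - (tm T.k l c + q * r))) • fq T.k l c := by
      rw [ps_sub T.k l c z.2 (tm T.k l c + q * r)]; abel
    rw [e]
    refine (norm_sub_le _ _).trans ?_
    rw [norm_smul, Real.norm_eq_abs, abs_mul, abs_two]
    have hlM : (l : ℝ) ≤ M := by exact_mod_cast hl
    have a1 : T.Λ * ((l : ℝ) + 1) * (T.k : ℝ) ^ l ≤ T.Λ ^ 2 * r :=
      mul_le_mul (by nlinarith) hr (by positivity) (by positivity)
    have a2 := mul_le_mul h9 (T.fqb l hl c hc) (norm_nonneg _) hr0.le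
    linarith [hz.2]
  · refine (sum_le_card_nsmul _ _ ((T.k : ℝ) ^ (n + 1) * N) fun q _ =>
      (ms_ball_le T.w0 hr0 (by positivity) hN h _).trans ?_).trans_eq (by simp)
    have a1 : T.Λ ^ 3 ≤ T.Λ ^ 10 := pow_le_pow_right₀ (by linarith) (by norm_num)
    gcongr
    nlinarith [hT.2]

/-- a line of a tile follows the node during its time window -/
theorem tile_close {k : ℕ} (hk : 1 ≤ k) {i : ℕ} {c : Nd n} {β : Ph n} (h : β ∈ tile k i c) :
    ‖β.2 - fq k i c‖ ≤ n / (k : ℝ) ^ i ∧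
    ∀ t, |t - tm k i c| ≤ (k : ℝ) ^ (2 * i) → ‖pos t β - ps k i c t‖ ≤ 3 * n * (k : ℝ) ^ i := by
  have hK : (0 : ℝ) < (k : ℝ) ^ i := by positivity
  have h1 : ‖β.2 - fq k i c‖ ≤ n / (k : ℝ) ^ i := by
    have := norm_sub_iv_fl ((k : ℝ) ^ i • β.2)
    rw [h.2] at this
    have e : β.2 - fq k i c = ((k : ℝ) ^ i)⁻¹ • ((k : ℝ) ^ i • β.2 - iv c.2.2) := by
      rw [smul_sub, smul_smul, inv_mul_cancel₀ hK.ne', one_smul, fq]
    rw [e, norm_smul, norm_inv, Real.norm_eq_abs, abs_of_pos hK, div_eq_inv_mul]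
    gcongr
  have h2 : ‖pos (tm k i c) β - ctr k i c‖ ≤ (k : ℝ) ^ i * n := by
    have := norm_sub_iv_fl (((k : ℝ) ^ i)⁻¹ • pos (tm k i c) β)
    rw [h.1] at this
    have e : pos (tm k i c) β - ctr k i c =
        (k : ℝ) ^ i • (((k : ℝ) ^ i)⁻¹ • pos (tm k i c) β - iv c.2.1) := by
      rw [smul_sub, smul_smul, mul_inv_cancel₀ hK.ne', one_smul, ctr]
    rw [e, norm_smul, Real.norm_eq_abs, abs_of_pos hK]
    gcongr
  refine ⟨h1, fun t ht => ?_⟩
  have e : pos t β - ps k i c t = (pos (tm k i c) β - ctr k i c) -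
      (2 * (t - tm k i c)) • (β.2 - fq k i c) := by
    simp only [pos, ps, mul_sub, sub_smul, smul_sub]; abel
  rw [e]
  refine (norm_sub_le _ _).trans ?_
  rw [norm_smul, Real.norm_eq_abs, abs_mul, abs_two]
  have a := mul_le_mul ht h1 (norm_nonneg _) (by positivity)
  rw [show (k : ℝ) ^ (2 * i) * (n / (k : ℝ) ^ i) = (k : ℝ) ^ i * n by
    rw [two_mul, pow_add]; field_simp] at a
  linarith

/-- few directions at a point bound the multiplicity -/
theorem mm_le (T : Tw n M) (hT : T.Std) {j i : ℕ} (hji : j ≤ i) (hi : i ≤ M)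
    {A : ℤ → Set (Ph n)} (hA : ∀ c ∈ T.al i, (A c.1 ∩ tile T.k i c).Nonempty) {y : ℝ}
    (hF : ∀ z ∈ T.X, ∃ F : Finset (V n), (F.card : ℝ) ≤ y ∧
      ∀ β ∈ A (win T.k i z.2), ‖pos z.2 β - z.1‖ ≤ (T.k : ℝ) ^ (i + 1) →
        ∃ ζ ∈ F, ‖β.2 - ζ‖ ≤ 1 / (T.k : ℝ) ^ j) :
    T.mm 0 j ≤ y * (T.k : ℝ) ^ n := by
  classical
  obtain ⟨h1, h2, h3, -⟩ := hT.Λ_ge
  have hk' := hT.k_ge
  have hk : 1 ≤ T.k := by omega
  have hk1 : (1 : ℝ) ≤ T.k := by exact_mod_cast hk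
  have hn : (0 : ℝ) ≤ n := Nat.cast_nonneg n
  have hiM : (i : ℝ) ≤ M := by exact_mod_cast hi
  have hj0 : (0 : ℝ) ≤ j := Nat.cast_nonneg j
  have hjM : (j : ℝ) ≤ i := by exact_mod_cast hji
  have hΛk : T.Λ ^ 6 ≤ T.k := (pow_le_pow_right₀ (by linarith) (by norm_num)).trans hT.2
  have hΛ2 : T.Λ ^ 2 ≤ T.k := (pow_le_pow_right₀ (by linarith) (by norm_num)).trans hT.2
  obtain ⟨c, hc⟩ := T.ne
  obtain ⟨z, hz, hzb⟩ : ∃ z ∈ T.X, z ∈ box T.k T.Λ 0 c := by
    have := (T.ν0 0).trans_le (T.νc 0 (Nat.zero_le _) c hc).1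
    obtain ⟨z, hz, -⟩ := exists_ne_zero_of_sum_ne_zero this.ne'
    exact ⟨z, (mem_filter.1 hz).1, (mem_filter.1 hz).2⟩
  obtain ⟨F, hFc, hF⟩ := hF z hz
  have hKj : (0 : ℝ) < (T.k : ℝ) ^ j := by positivity
  have hKi : (0 : ℝ) < (T.k : ℝ) ^ i := by positivity
  have hsub : T.nr 0 j c ⊆ F.biUnion fun ζ =>
      (T.nr 0 j c).filter fun c' => ‖fq T.k j c' - ζ‖ ≤ T.Λ ^ 2 / (T.k : ℝ) ^ j := by
    intro c' hc'
    obtain ⟨a1, a2⟩ := T.mem_nr.1 hc'
    obtain ⟨c'', hc''⟩ := T.nr_nonempty hji hi a1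
    obtain ⟨b1, b2⟩ := T.mem_nr.1 hc''
    have hb : z ∈ box T.k T.Λ i c'' := box_mono (by linarith) (Nat.zero_le i) (by omega)
      (a2.trans (by linarith) (Nat.zero_le j) hji (by omega) b2) hzb
    obtain ⟨β, hβ, hβt⟩ := hA c'' b1
    obtain ⟨d1, d2⟩ := tile_close hk hβt
    obtain ⟨ζ, hζ, d3⟩ := hF β (by rwa [hb.1]) (by
      have d4 := norm_sub_le_norm_sub_add_norm_sub (pos z.2 β) (ps T.k i c'' z.2) z.1
      have d5 := hb.2
      rw [norm_sub_rev] at d5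
      have d6 : (3 * n + T.Λ * ((i : ℝ) + 1)) * (T.k : ℝ) ^ i ≤ T.k * (T.k : ℝ) ^ i :=
        mul_le_mul_of_nonneg_right (by nlinarith) hKi.le
      rw [pow_succ']
      linarith [d2 z.2 (abs_box_tm hk hb)])
    refine mem_biUnion.2 ⟨ζ, hζ, mem_filter.2 ⟨hc', ?_⟩⟩
    have d4 := norm_sub_le_norm_sub_add_norm_sub (fq T.k j c') (fq T.k i c'') ζ
    have d5 := norm_sub_le_norm_sub_add_norm_sub (fq T.k i c'') β.2 ζ
    have d6 := b2.2.1
    rw [norm_sub_rev] at d1 d6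
    have d7 : (n : ℝ) / (T.k : ℝ) ^ i ≤ n / (T.k : ℝ) ^ j :=
      div_le_div_of_nonneg_left hn hKj (pow_le_pow_right₀ hk1 hji)
    have d8 : (T.Λ * ((i : ℝ) - j) + n + 1) / (T.k : ℝ) ^ j ≤ T.Λ ^ 2 / (T.k : ℝ) ^ j :=
      div_le_div_of_nonneg_right (by nlinarith) hKj.le
    rw [add_div, add_div] at d8
    linarith
  have hΛ1 : 1 ≤ T.Λ ^ 2 := by nlinarith
  calc T.mm 0 j ≤ ((T.nr 0 j c).card : ℝ) := (T.mmc 0 j (Nat.zero_le _) (hji.trans hi) c hc).1
    _ ≤ ∑ ζ ∈ F, (((T.nr 0 j c).filter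
          fun c' => ‖fq T.k j c' - ζ‖ ≤ T.Λ ^ 2 / (T.k : ℝ) ^ j).card : ℝ) := by
        exact_mod_cast (card_le_card hsub).trans card_biUnion_le
    _ ≤ F.card • (T.k : ℝ) ^ n := by
        refine sum_le_card_nsmul _ _ _ fun ζ _ => ?_
        refine (card_nd hk j _ (c.1 / (T.k : ℤ) ^ (2 * (j - 0))) ζ (ctr T.k 0 c) (tm T.k 0 c) hΛ1 hΛ1
          fun c' hc' => ?_).trans ?_
        · obtain ⟨a1, a2⟩ := mem_filter.1 hc'
          obtain ⟨b1, -, b3⟩ := (T.mem_nr.1 a1).2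
          refine ⟨b1, a2, b3.trans (mul_le_mul_of_nonneg_right ?_ hKj.le)⟩
          push_cast
          nlinarith
        · rw [← mul_pow]
          gcongr
          nlinarith [pow_le_pow_left₀ (by norm_num) h1 2, sq_nonneg (T.Λ ^ 2)]
    _ ≤ _ := by rw [nsmul_eq_mul]; gcongr

theorem tower_univ {b : ℕ} (hb : 1 ≤ b) (A : ℕ → ℤ → Set (Ph n)) {i : ℕ} (hi : i ≤ M) (h : L2 n)
    (t : ℝ) : tower b (fun l => if l < i then fun _ => Set.univ else A l) 0 M h t =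
      tower b A i M h t := by
  have key : ∀ l ≤ i, tower b (fun l => if l < i then fun _ => Set.univ else A l) 0 M h t =
      tower b (fun l => if l < i then fun _ => Set.univ else A l) l M h t := by
    intro l hl
    induction l with
    | zero => rfl
    | succ l ih =>
      rw [ih (by omega), tower_eq_loc b _ (by omega : l ≤ M), lev, if_pos (by omega : l < i),
        loc_univ (by positivity)]
  rw [key i le_rfl]
  refine tw_congr _ _ (fun l hl => ?_) h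
  rw [lev, lev, if_neg (by omega)]

end WS

open WS in
/-- **SG** from the abstract tower -/
theorem sg_of {d : ℕ} (hB : Build d) (hS : SGa d) : II.SG d := by
  intro ε hε m
  obtain ⟨M₀, hS⟩ := hS (ε / 2) (half_pos hε)
  obtain ⟨M₁, hM₁⟩ := exists_nat_ge ((2 * d + 4) / (ε / 2))
  refine ⟨max M₀ M₁, fun M hM => ?_⟩
  obtain ⟨N₀, C₀, hG⟩ := (hS M ((le_max_left _ _).trans hM)).and (good_std M 0 0)
  obtain ⟨k₀, hB⟩ := hB M N₀ m C₀
  refine ⟨max k₀ 2, fun b hb j i hji hi ι X p w s₀ hw hX hs A hA _ φ N₁ N₂ hφ hN₁ hN₂ h1 h2 hF h =>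
    ?_⟩
  have hb2 : 2 ≤ b := (le_max_right _ _).trans hb
  have hb1 : (1 : ℝ) < b := by exact_mod_cast hb2
  have hb0 : (0 : ℝ) < b := by linarith
  obtain ⟨X', w', hw', hX', hsum, hms⟩ := exists_red X p hw
  have hE : En X' id w' (fun z =>
      tower b (fun l => if l < i then fun _ => Set.univ else A l) 0 M h z.2) =
      En X p w (fun z => tower b A i M h (p z).2) := by
    simp only [tower_univ (by omega : 1 ≤ b) A hi]
    exact hsum fun z => ‖inner ℂ (pt z) (tower b A i M h z.2)‖ ^ 2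
  have hW : ∑ z ∈ X', w' z = ∑ z ∈ X, w z := by
    simpa using hsum fun _ => 1
  have hmain := hB b ((le_max_left _ _).trans hb) X' w' s₀ hw'
    (fun z hz => by obtain ⟨i, hi, rfl⟩ := hX' z hz; exact hX i hi)
    (fun z hz => by obtain ⟨i, hi, rfl⟩ := hX' z hz; exact hs i hi)
    (fun l => if l < i then fun _ => Set.univ else A l)
    (fun l s => by split_ifs; exacts [MeasurableSet.univ, hA l s]) h
  rw [hE, hW] at hmain
  rcases hmain with h0 | ⟨T, hk, hTX, hTw, -, hC, hΛ, hal, -, h0⟩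
  · exact h0.trans (mul_le_mul_of_nonneg_right (le_add_of_nonneg_left (by positivity))
      (sq_nonneg _))
  refine h0.trans (mul_le_mul_of_nonneg_right (add_le_add ?_ le_rfl) (sq_nonneg _))
  subst hk
  obtain ⟨hv, hT, -⟩ := hG T hC hΛ
  have a1 : T.mm 0 j ≤ φ * ((T.k : ℝ) ^ j) ^ d * (T.k : ℝ) ^ d :=
    mm_le T hT hji hi (A := A i) (fun c hc => by simpa using hal i hi c hc) fun z hz => by
      rw [hTX] at hz
      obtain ⟨i, hi, rfl⟩ := hX' z hz
      exact hF i hi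
  have a2 := nu_le T hT (hji.trans hi) (P := 1) (pow_le_pow_right₀ hb1.le (by omega : j ≤ 2 * j))
    (by simp) hN₁ fun c => by rw [hTX, hTw, hms]; exact h1 c
  have a3 := nu_le T hT le_rfl (P := T.k ^ M) le_rfl (by push_cast; rw [two_mul, pow_add]) hN₂
    fun c => by rw [hTX, hTw, hms]; exact h2 c
  have hb2' : (2 : ℝ) ≤ T.k := by exact_mod_cast hb2
  have hKM : (1 : ℝ) ≤ (T.k : ℝ) ^ M := one_le_pow₀ hb1.le
  have hφ0 : 0 < φ := by
    refine hφ.lt_of_ne fun e => ?_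
    rw [← e] at a1
    linarith [T.mm1 0 j]
  have hN₁0 : 0 < N₁ := by
    refine hN₁.lt_of_ne fun e => ?_
    rw [← e] at a2
    linarith [T.ν0 j]
  have hN₂0 : 0 < N₂ := by
    refine hN₂.lt_of_ne fun e => ?_
    rw [← e] at a3
    linarith [T.ν0 M]
  have b1 := T.lg_le hb2 (K := 1) (e := j * d + d) (y := φ) (by linarith [T.mm1 0 j]) zero_le_one
    hb1.le (a1.trans_eq (by rw [pow_add, pow_mul]; ring))
  have b2 := T.lg_le hb2 (K := 2) (e := d + 1) (y := N₁) (T.ν0 j) zero_le_two hb2'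
    (a2.trans_eq (by push_cast; ring))
  have b3 := T.lg_le hb2 (K := 2) (e := d + 1) (y := (T.k : ℝ) ^ M * N₂) (T.ν0 M) zero_le_two hb2'
    (a3.trans (by
      push_cast
      nlinarith [mul_le_mul_of_nonneg_right hKM (show 0 ≤ (T.k : ℝ) ^ (d + 1) * N₂ by positivity)]))
  have hc : (0 : ℝ) < (T.al 0).card := by exact_mod_cast T.ne.card_pos
  have ha0 := T.a0 0
  have hν0 := T.ν0 0
  have hd0 : (0 : ℝ) ≤ d := Nat.cast_nonneg d
  rw [← Real.logb_le_logb hb1 (by positivity) (by positivity),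
    Real.logb_mul hb0.ne' (by positivity), Real.logb_mul (by positivity) hc.ne',
    Real.logb_mul ha0.ne' hν0.ne', Real.logb_mul (by positivity) (by positivity),
    Real.logb_mul (by positivity) (by positivity), Real.logb_mul (by positivity) hφ0.ne',
    Real.logb_self_eq_one hb1, Real.logb_rpow hb0 hb1.ne', Real.logb_rpow_eq_mul_logb_of_pos hN₁0,
    Real.logb_rpow_eq_mul_logb_of_pos (by positivity)]
  have hv := hv j (hji.trans hi)
  have c1 := mul_le_mul_of_nonneg_left b2 (show 0 ≤ (d : ℝ) / (d + 2) by positivity)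
  have c2 := mul_le_mul_of_nonneg_left b3 (show 0 ≤ 2 / ((d : ℝ) + 2) by positivity)
  have c3 : (d : ℝ) / (d + 2) * (d + 2) + 2 / ((d : ℝ) + 2) * (d + 2) = d + 2 := by field_simp
  have c4 : 2 * d + 4 ≤ ε / 2 * M := by
    rw [div_le_iff₀' (half_pos hε)] at hM₁
    have : (M₁ : ℝ) ≤ M := by exact_mod_cast (le_max_right _ _).trans hM
    nlinarith
  simp only [Tw.val, Tw.A, Tw.nu, Tw.C, Tw.m, Tw.lg] at hv b1 c1 c2
  push_cast at b1 c1 c2
  linarith

end Crest.Agent.N76.L
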