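import Crest.Agent.N76.L.WrapTI2
import Crest.Agent.N76.II.B.Defs

/-! # Row 76: `TI1`, and the three parts of theorem I together (helper73). -/

set_option autoImplicit false

open MeasureTheory Finset Metric
open scoped RealInnerProductSpace

namespace Crest.Agent.N76.L

open Crest.Agent.N76.Red (V)
open Crest.Agent.N76.G Crest.Agent.N76.II

variable {n M : ℕ}

namespace Wr

lemma exists_onb (hn : 1 ≤ n) {ν : V n} (hν : ‖ν‖ = 1) :
    ∃ O : OrthonormalBasis (Fin n) ℝ (V n), ∀ l : Fin n, n - 1 ≤ (l : ℕ) → O l = ν := by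
  have ho : Orthonormal ℝ (Set.domRestrict ({⟨n - 1, by omega⟩} : Set (Fin n)) fun _ => ν) :=
    ⟨fun _ => hν, fun i j hij => absurd (Subsingleton.elim i j) hij⟩
  obtain ⟨O, hO⟩ := ho.exists_orthonormalBasis_extension_of_card_eq (by simp)
  exact ⟨O, fun l hl => hO l (Fin.ext (by have := l.2; simp only; omega))⟩

lemma card_nd_le (S : Finset (Nd n)) {a b c : ℝ} (ha : ((S.image fun x => x.1).card : ℝ) ≤ a)
    (hb : ((S.image fun x => x.2.1).card : ℝ) ≤ b) (hc : ((S.image fun x => x.2.2).card : ℝ) ≤ c) :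
    (S.card : ℝ) ≤ a * (b * c) := by
  have h : S ⊆ (S.image fun x => x.1) ×ˢ ((S.image fun x => x.2.1) ×ˢ (S.image fun x => x.2.2)) :=
    fun x hx => mem_product.2 ⟨mem_image_of_mem _ hx,
      mem_product.2 ⟨mem_image_of_mem _ hx, mem_image_of_mem _ hx⟩⟩
  refine (Nat.cast_le.2 (card_le_card h)).trans ?_
  rw [card_product, card_product]
  push_cast
  have := (Nat.cast_nonneg _).trans ha
  have := (Nat.cast_nonneg _).trans hb
  gcongr

/-- few balls give few cells -/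
lemma card_cells {R : ℝ} {X : Finset (V n × ℝ)} {T : Tw n M} (hD : Dat R X T) (hM : 1 ≤ M)
    {r N : ℝ} {j : ℕ} (hr : r ≤ (T.k : ℝ) ^ j) (hcov : Cov X id r N) :
    (((T.al 0).image (cell T.k 0 j)).card : ℝ) ≤ N * (T.k : ℝ) ^ (2 * n + 1) := by
  classical
  obtain ⟨hk, hΛ, -, hΛk, hn, -⟩ := hD.facts hM
  have hk1 : (1 : ℝ) < T.k := by exact_mod_cast hk
  obtain ⟨F, hF, hF'⟩ := hcov
  set K := (T.k : ℝ) ^ j with hK
  have hK1 : 1 ≤ K := one_le_pow₀ hk1.le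
  set P : V n × ℝ → Nd n → Prop := fun u c => ∃ z ∈ box T.k T.Λ 0 c, dist z u ≤ K with hP
  have hsub : (T.al 0).image (cell T.k 0 j) ⊆
      F.biUnion fun u => ((T.al 0).filter (P u)).image (cell T.k 0 j) := fun x hx => by
    obtain ⟨c, hc, rfl⟩ := mem_image.1 hx
    obtain ⟨z, hz, hz'⟩ := exists_mem_box T (Nat.zero_le _) hc
    obtain ⟨u, hu, hu'⟩ := hF' z (hD.sub hz)
    exact mem_biUnion.2 ⟨u, hu, mem_image_of_mem _ (mem_filter.2 ⟨hc, z, hz', hu'.trans hr⟩)⟩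
  refine (Nat.cast_le.2 ((card_le_card hsub).trans card_biUnion_le)).trans ?_
  refine le_trans ?_ (mul_le_mul_of_nonneg_right hF (by positivity))
  rw [Nat.cast_sum, ← nsmul_eq_mul]
  refine sum_le_card_nsmul _ _ _ fun u _ => ?_
  have ht : ∀ c : Nd n, ∀ z ∈ box T.k T.Λ 0 c,
      |z.2 - ((c.1 / (T.k : ℤ) ^ j : ℤ) : ℝ) * K| ≤ K := fun c z hz => by
    have h1 := box_tm (by omega) hz
    have h2 := ediv_bounds (k := T.k) (by omega) c.1 j 0
    simp only [tm, mul_zero, pow_zero, mul_one, add_zero] at h1 h2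
    rw [abs_le]; constructor <;> linarith [h1.1, h1.2, h2.1, h2.2]
  refine (card_nd_le _ (a := 3 * 2) (b := (3 * (5 * T.Λ ^ 2)) ^ n) (c := (3 * T.Λ ^ 2) ^ n)
    (card_int _ (u.2 / K) (by norm_num) fun p hp => ?_)
    (card_lattice _ (K⁻¹ • u.1) (by nlinarith) fun p hp => ?_)
    (card_lattice _ 0 (by nlinarith) fun p hp => ?_)).trans ?_
  · simp only [mem_image, mem_filter] at hp
    obtain ⟨_, ⟨c, ⟨-, z, hz, hzu⟩, rfl⟩, rfl⟩ := hp
    have h1 := ht c z hz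
    have h2 : |z.2 - u.2| ≤ K := (le_max_right _ _).trans hzu
    simp only [cell]
    rw [show ((c.1 / (T.k : ℤ) ^ j : ℤ) : ℝ) - u.2 / K =
      ((z.2 - u.2) - (z.2 - ((c.1 / (T.k : ℤ) ^ j : ℤ) : ℝ) * K)) / K by field_simp; ring,
      abs_div, abs_of_pos (by linarith : 0 < K), div_le_iff₀ (by positivity)]
    exact (abs_sub _ _).trans (by linarith)
  · simp only [mem_image, mem_filter] at hp
    obtain ⟨_, ⟨c, ⟨hc, z, hz, hzu⟩, rfl⟩, rfl⟩ := hp
    have h1 := ht c z hz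
    have h2 : ‖z.1 - u.1‖ ≤ K := by rw [← dist_eq_norm]; exact (le_max_left _ _).trans hzu
    have h3 : ‖z.1 - ps T.k 0 c z.2‖ ≤ T.Λ := by simpa using hz.2
    have h4 := T.fqb 0 (Nat.zero_le _) c hc
    simp only [cell, zero_add, mul_zero, ← hK]
    set t₀ := ((c.1 / (T.k : ℤ) ^ j : ℤ) : ℝ) * K
    have h5 : ‖ps T.k 0 c t₀ - ps T.k 0 c z.2‖ ≤ 2 * K * T.Λ ^ 2 := by
      rw [ps_sub _ _ _ t₀ z.2, sub_sub_cancel_left, norm_neg, norm_smul, Real.norm_eq_abs, abs_mul,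
        abs_sub_comm, abs_two]
      gcongr
    have h6 : ‖ps T.k 0 c t₀ - u.1‖ ≤ 4 * T.Λ ^ 2 * K := by
      refine (norm_sub_le_norm_sub_add_norm_sub _ (ps T.k 0 c z.2) _).trans ?_
      have := norm_sub_le_norm_sub_add_norm_sub (ps T.k 0 c z.2) z.1 u.1
      rw [norm_sub_rev] at h3
      have e1 : T.Λ ≤ T.Λ ^ 2 * K := by nlinarith
      have e2 : K ≤ T.Λ ^ 2 * K := le_mul_of_one_le_left (by linarith) (by nlinarith)
      linarith
    refine (norm_sub_le_norm_sub_add_norm_sub _ (K⁻¹ • ps T.k 0 c t₀) _).trans ?_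
    rw [norm_sub_rev, ← smul_sub, norm_smul, Real.norm_of_nonneg (by positivity)]
    have e1 := norm_sub_iv_fl (K⁻¹ • ps T.k 0 c t₀)
    have e2 : K⁻¹ * ‖ps T.k 0 c t₀ - u.1‖ ≤ 4 * T.Λ ^ 2 := by
      rw [inv_mul_le_iff₀ (by linarith)]; linarith
    nlinarith
  · simp only [mem_image, mem_filter] at hp
    obtain ⟨_, ⟨c, ⟨hc, -⟩, rfl⟩, rfl⟩ := hp
    simpa [fq, cell] using T.fqb 0 (Nat.zero_le _) c hc
  · rw [pow_succ' (T.k : ℝ), two_mul n, pow_add]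
    gcongr <;> nlinarith

lemma prof_ge {R : ℝ} {X : Finset (V n × ℝ)} {T : Tw n M} (hD : Dat R X T) (hM : 1 ≤ M)
    (hn : 1 ≤ n) (hR : 1 ≤ R) {r : ℝ} {j : ℕ} (hr : (T.k : ℝ) ^ j ≤ T.k * r) :
    (T.k : ℝ) ^ (lprof n M j - (n + 1)) ≤ prof n R r := by
  obtain ⟨hk, -⟩ := hD.facts hM
  have hk1 : (1 : ℝ) < T.k := by exact_mod_cast hk
  have hk0 : (0 : ℝ) < T.k := by linarith
  have hn0 : (0 : ℝ) ≤ n := Nat.cast_nonneg n
  have h1 : (T.k : ℝ) ^ ((j : ℝ) - 1) ≤ r := by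
    rw [Real.rpow_sub_one hk0.ne', Real.rpow_natCast, div_le_iff₀' hk0]; exact hr
  have h2 : ∀ m : ℕ, (T.k : ℝ) ^ (((j : ℝ) - 1) * m) ≤ r ^ m := fun m => by
    rw [Real.rpow_mul hk0.le, Real.rpow_natCast]; gcongr
  have hS : Ssc n R ^ (n - 1) ≤ (T.k : ℝ) ^ (((n : ℝ) - 1) * (M / ((n : ℝ) + 1))) := by
    rw [mul_comm, Real.rpow_mul hk0.le, show (n : ℝ) - 1 = ((n - 1 : ℕ) : ℝ) by
      rw [Nat.cast_sub hn]; simp, Real.rpow_natCast]
    refine pow_le_pow_left₀ (by unfold Ssc; positivity) ?_ _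
    refine (Real.rpow_le_rpow (by linarith) hD.hi.le (by positivity)).trans (le_of_eq ?_)
    rw [← Real.rpow_natCast, ← Real.rpow_mul hk0.le]
    congr 1; push_cast; field_simp
  have hS0 : 0 < Ssc n R ^ (n - 1) := by unfold Ssc; positivity
  have hr0 : 0 ≤ r := le_trans (by positivity) h1
  unfold lprof prof
  rcases max_cases (j : ℝ) (max ((n : ℝ) * j - ((n : ℝ) - 1) * (M / ((n : ℝ) + 1)))
    (((n : ℝ) + 1) * j - M)) with h | h
  · rw [h.1]
    exact le_max_of_le_left ((Real.rpow_le_rpow_of_exponent_le hk1.le (by linarith)).trans h1)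
  rw [h.1]
  refine le_max_of_le_right ?_
  rcases max_cases ((n : ℝ) * j - ((n : ℝ) - 1) * (M / ((n : ℝ) + 1)))
    (((n : ℝ) + 1) * j - M) with h | h
  · rw [h.1]
    refine le_max_of_le_left (le_trans ?_ (div_le_div₀ (by positivity) (h2 n) hS0 hS))
    rw [← Real.rpow_sub hk0]
    exact Real.rpow_le_rpow_of_exponent_le hk1.le (by linarith)
  · rw [h.1]
    refine le_max_of_le_right (le_trans ?_ (div_le_div₀ (by positivity) (h2 (n + 1))
      (Real.sqrt_pos.2 (by linarith)) (sqrt_bounds hD hM).1))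
    rw [← Real.rpow_natCast _ M, ← Real.rpow_sub hk0]
    exact Real.rpow_le_rpow_of_exponent_le hk1.le (by push_cast; linarith)

/-- a thin slab gives global narrowness -/
lemma nar_of_slab {R : ℝ} {X : Finset (V n × ℝ)} {T : Tw n M} (hD : Dat R X T) (hM : 1 ≤ M)
    (hn : 1 ≤ n) (hR : 1 ≤ R) {H : L2 n} (hS : Supp T H) {ν : V n} (hν : ‖ν‖ = 1) {c δ : ℝ}
    (hδ : 0 ≤ δ) (hH : ∀ᵐ ξ : V n, R ^ δ / Real.sqrt R < |⟪ν, ξ⟫ - c| → H ξ = 0) {j : ℕ}
    (hj : j + 2 * δ * M + 1 ≤ M) : T.Nar 0 j (n - 1) := by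
  obtain ⟨hk, hΛ, hΛM, -⟩ := hD.facts hM
  have hk1 : (1 : ℝ) < T.k := by exact_mod_cast hk
  have hk0 : (0 : ℝ) < T.k := by linarith
  have hM0 : (0 : ℝ) ≤ M := Nat.cast_nonneg M
  have hjM : j ≤ M := by
    have : 0 ≤ 2 * δ * M := by positivity
    exact_mod_cast (show (j : ℝ) ≤ M by linarith)
  obtain ⟨O, hO⟩ := exists_onb hn hν
  refine fun c₀ _ => ⟨O, c • ν, fun c' hc' _ l hl => ?_⟩
  obtain ⟨ξ, hξ, h1⟩ := supp_near hS (by omega) (by linarith) hjM hc'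
    (E := {ξ | |⟪ν, ξ⟫ - c| ≤ R ^ δ / Real.sqrt R}) (hH.mono fun ξ h hξ => h (not_le.1 hξ))
  have h2 : R ^ δ / Real.sqrt R ≤ 1 / (T.k : ℝ) ^ j := by
    rw [div_le_div_iff₀ (Real.sqrt_pos.2 (by linarith)) (by positivity), one_mul]
    refine le_of_mul_le_mul_left (le_trans ?_ (sqrt_bounds hD hM).2) hk0
    have e1 : R ^ δ ≤ (T.k : ℝ) ^ (2 * δ * M) := by
      refine (Real.rpow_le_rpow (by linarith) hD.hi.le hδ).trans (le_of_eq ?_)
      rw [← Real.rpow_natCast, ← Real.rpow_mul hk0.le]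
      congr 1; push_cast; ring
    calc _ ≤ (T.k : ℝ) ^ (2 * δ * M) * (T.k : ℝ) ^ j * T.k := by rw [mul_comm]; gcongr
      _ ≤ _ := by
        rw [← Real.rpow_natCast, ← Real.rpow_add hk0, ← Real.rpow_add_one hk0.ne',
          ← Real.rpow_natCast]
        exact Real.rpow_le_rpow_of_exponent_le hk1.le (by linarith)
  have e1 : ⟪ν, fq T.k j c' - c • ν⟫ = (⟪ν, ξ⟫ - c) - ⟪ν, ξ - fq T.k j c'⟫ := by
    rw [inner_sub_right, inner_sub_right, real_inner_smul_right, real_inner_self_eq_norm_sq, hν]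
    ring
  have e2 : |⟪ν, ξ - fq T.k j c'⟫| ≤ T.Λ * (M + 1) / (T.k : ℝ) ^ j :=
    (abs_real_inner_le_norm _ _).trans (by rw [hν, one_mul]; exact h1)
  rw [hO l hl, e1]
  refine (abs_sub _ _).trans ((add_le_add (le_trans hξ h2) e2).trans ?_)
  rw [← add_div]
  gcongr
  nlinarith [hD.std.Λ_ge.2.2.1]

end Wr

open Wr in
theorem ti1_of (hB : Build n) (hT : TIa n) (hP : Plank n) (hn : 1 ≤ n) : B.TI1 n := by
  classical
  obtain ⟨θ, c, hθ, -, hc0, hT⟩ := tia' hT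
  intro α hα
  have hα4 : 0 < α / 4 := by positivity
  obtain ⟨S, hS, hpar⟩ := params hθ hα4
  obtain ⟨C₁, hpl⟩ := plank_T hn hP hS
  obtain ⟨η₀, hη₀, j₀, hpar⟩ := hpar C₁ n
  have hη : 0 < min η₀ (α / 4) := lt_min hη₀ hα4
  obtain ⟨δ₀, M₀, hδ₀, hT⟩ := hT _ hη
  set δ := min (min δ₀ 1) (α / (2 * (c + 1))) with hδdef
  have hδ : 0 < δ := lt_min (lt_min hδ₀ one_pos) (by positivity)
  have hδ1 : δ ≤ 1 := (min_le_left _ _).trans (min_le_right _ _)
  have hδ2 : δ ≤ δ₀ := (min_le_left _ _).trans (min_le_left _ _)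
  have hδ3 : c * δ ≤ α / 2 := by
    refine (mul_le_mul_of_nonneg_left (min_le_right _ _) hc0).trans ?_
    rw [← mul_div_assoc, div_le_div_iff₀ (by positivity) (by norm_num)]
    nlinarith
  obtain ⟨M₁, hM₁⟩ := exists_nat_mul_ge hδ 2
  obtain ⟨M₂, hM₂⟩ := exists_nat_mul_ge hα4 (4 * n + 3 + 2 * c)
  set j := M₀ + M₁ + M₂ + j₀ + 4 with hj
  set M := S * j with hM
  have hjM : j ≤ M := Nat.le_mul_of_pos_left _ hS
  obtain ⟨C, hC, h⟩ := core hn hB (hT M (by omega)) hδ hδ1 (hM₁ M (by omega))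
  refine ⟨δ / 4, C, by positivity, hC, fun R hR X hX H _ ν c₀ hν hH r hr hrR hcov => ?_⟩
  refine h R hR X hX H fun T hD hcon hc hS' => ?_
  have hM1 : 1 ≤ M := by omega
  obtain ⟨hk, -, -, -, -, hkR⟩ := hD.facts hM1
  have hk1 : (1 : ℝ) < T.k := by exact_mod_cast hk
  have hk0 : (0 : ℝ) < T.k := by linarith
  obtain ⟨p1, p2, p3⟩ := hpar _ (min_le_left η₀ (α / 4)) j M (by omega) hM
  have hM0 : (0 : ℝ) ≤ M := Nat.cast_nonneg M
  have hM4 : (4 : ℝ) ≤ M := by exact_mod_cast (show 4 ≤ M by omega)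
  have hcon' := hcon (crit_mono hδ2 hc)
  obtain ⟨G, y₀, h1, -⟩ := hpl M j hM (by omega) R X hX T hD θ c _ hη.le p1 hcon' p2 _
    (Real.rpow_le_rpow_of_exponent_le hk1.le p3)
  have hc0' : (0 : ℝ) < (T.al 0).card := by exact_mod_cast T.ne.card_pos
  have h2 : 2 * M * n - α / 4 * M - n ≤ T.C (T.al 0) := by
    rw [Tw.C, le_lg_iff T hk hc0', Real.rpow_sub hk0, Real.rpow_sub hk0, div_div,
      div_le_iff₀' (by positivity), Real.rpow_natCast,
      show (2 * M * n : ℝ) = ((2 * M * n : ℕ) : ℝ) by push_cast; ring, Real.rpow_natCast,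
      mul_assoc _ _ ((T.al 0).card : ℝ)]
    refine h1.trans (mul_le_mul_of_nonneg_left ?_ (by positivity))
    exact (Nat.cast_le.2 (card_filter_le _ _)).trans (card_X0_le hX hD hM1)
  obtain ⟨j₁, hj₁, hj₁'⟩ : ∃ j₁ : ℕ, j₁ + 2 * (δ / 4) * M + 1 ≤ M ∧
      (M : ℝ) - j₁ ≤ δ / 2 * M + 2 := by
    have e1 : 0 ≤ (M : ℝ) - (δ / 2 * M + 1) := by nlinarith
    refine ⟨⌊(M : ℝ) - (δ / 2 * M + 1)⌋₊, by linarith [Nat.floor_le e1], ?_⟩
    linarith [Nat.lt_floor_add_one ((M : ℝ) - (δ / 2 * M + 1))]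
  have hnar := nar_of_slab hD hM1 hn hR hS' hν (by positivity) hH hj₁
  have hj₁M : j₁ ≤ M := by
    have : 0 ≤ 2 * (δ / 4) * M := by positivity
    exact_mod_cast (show (j₁ : ℝ) ≤ M by linarith)
  obtain ⟨l, hl1, hl2, hl3⟩ := exists_level hk hr
  have hlM : l ≤ M := by
    have := hl3 M (by rw [Real.rpow_natCast]; exact hrR.trans (sqrt_bounds hD hM1).1)
    exact Nat.lt_succ_iff.1 (by exact_mod_cast this)
  have h3 := hcon'.2.2.2 j₁ hj₁M hnar l hlM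
  have h4 : T.cc 0 l (T.al 0) ≤ 2 * M * n - α * M - (lprof n M l - (n + 1)) + (2 * n + 1) := by
    rw [Tw.cc, lg_le_iff T hk (by exact_mod_cast (T.ne.image _).card_pos)]
    refine (card_cells hD hM1 hl1 hcov).trans ?_
    rw [Real.rpow_add hk0, show (2 * n + 1 : ℝ) = ((2 * n + 1 : ℕ) : ℝ) by push_cast; ring,
      Real.rpow_natCast, Real.rpow_sub hk0 (_ - _)]
    refine mul_le_mul_of_nonneg_right (div_le_div₀ (by positivity) ?_ (by positivity)
      (prof_ge hD hM1 hn hR hl2)) (by positivity)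
    rw [Real.rpow_sub (by linarith), Real.rpow_sub hk0, Real.rpow_natCast,
      show (2 * M * n : ℝ) = ((2 * M * n : ℕ) : ℝ) by push_cast; ring, Real.rpow_natCast,
      mul_comm α, Real.rpow_mul hk0.le, Real.rpow_natCast]
    refine div_le_div₀ (by positivity) ?_ (by positivity) (by gcongr)
    rw [pow_mul]; exact pow_le_pow_left₀ (by linarith) hD.hi.le _
  have h5 := hM₂ M (by omega)
  have h6 : min η₀ (α / 4) * M ≤ α / 4 * M := mul_le_mul_of_nonneg_right (min_le_right _ _) hM0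
  have h7 : c * ((M : ℝ) - j₁) ≤ c * (δ / 2 * M + 2) := mul_le_mul_of_nonneg_left hj₁' hc0
  have h8 : c * δ * M ≤ α / 2 * M := mul_le_mul_of_nonneg_right hδ3 hM0
  linarith

/-- **Theorem I** from its abstract form -/
theorem ti_of (hB : Build n) (hT : TIa n) (hP : Plank n) (hn : 2 ≤ n) :
    B.TI1 n ∧ TI2 n ∧ TI3 n :=
  ⟨ti1_of hB hT hP (by omega), ti2_of hB hT hP (by omega), ti3_of hB hT (by omega)⟩

end Crest.Agent.N76.L
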