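import Crest.Agent.N76.Red.Defs

/-! # Row 76, Part I (helper15): the two self-contained geometric statements.

* `LemG κ` : no Kakeya-sharp configuration of intermediate dimension (from Bourgain's `BR`);
* `Plank n` : full tubes with a `(n-1)`-dimensional set of directions over a graph force a plank. -/

set_option autoImplicit false

open Finset
open scoped RealInnerProductSpace

namespace Crest.Agent.N76.L

open Crest.Agent.N76.Red (V)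

open Classical in
/-- **Lemma G** in `ℝ^κ × ℝ`.  Points `(x y, τ y)`, directions `(v θ, 1)`, `I y` = directions of
the lines through `y`; all losses are `N ^ ε`. -/
def LemG (κ : ℕ) : Prop :=
  ∀ c : ℝ, 0 < c → ∃ ε N₀ : ℝ, 0 < ε ∧ ∀ N σ Λ : ℝ, N₀ ≤ N → c ≤ σ → σ ≤ 1 - c →
    1 ≤ Λ → Λ ≤ N ^ ε →
    ∀ (α ι : Type) (Y : Finset α) (x : α → Fin κ → ℝ) (τ : α → ℝ)
      (Θ : Fin (κ + 1) → Finset ι) (v : ι → Fin κ → ℝ) (I : α → Finset ι),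
      (∀ y ∈ Y, |τ y| ≤ Λ * N ∧ ∀ l, |x y l| ≤ Λ * N) →
      -- G1
      N ^ (((κ : ℝ) + 1) * σ) ≤ Λ * Y.card →
      (∀ (x₀ : Fin κ → ℝ) (τ₀ : ℝ),
        ((Y.filter fun y => |τ y - τ₀| ≤ 1 ∧ ∀ l, |x y l - x₀ l| ≤ 1).card : ℝ) ≤ Λ) →
      -- G2
      (∀ ρ : ℝ, 1 ≤ ρ → ρ ≤ N → ∃ F : Finset ((Fin κ → ℝ) × ℝ),
        (F.card : ℝ) * ρ ^ (((κ : ℝ) + 1) * σ) ≤ Λ * Y.card ∧
        ∀ y ∈ Y, ∃ f ∈ F, |τ y - f.2| ≤ Λ * ρ ∧ ∀ l, |x y l - f.1 l| ≤ Λ * ρ) →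
      -- G3
      (∀ j, (Θ j).Nonempty) →
      (∀ y ∈ Y, ∀ j, ((Θ j).card : ℝ) ≤ Λ * (I y ∩ Θ j).card) →
      N ^ c ≤ (Θ 0).card →
      (∀ v₀ : Fin κ → ℝ,
        (((Θ 0).filter fun θ => ∀ l, |v θ l - v₀ l| ≤ 1 / N).card : ℝ) ≤ Λ) →
      (∀ j, ∀ θ ∈ Θ j, ∀ l, |v θ l| ≤ Λ) →
      (∀ θ : Fin (κ + 1) → ι, (∀ j, θ j ∈ Θ j) →
        1 ≤ Λ * |(Matrix.of fun i j : Fin (κ + 1) =>
          (Fin.cons 1 (v (θ j)) : Fin (κ + 1) → ℝ) i).det|) →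
      -- G4
      (∀ j, ∀ θ ∈ Θ j, ∀ ρ : ℝ, 1 ≤ ρ → ρ ≤ N → ∀ (x₀ : Fin κ → ℝ) (τ₀ : ℝ),
        ∃ F : Finset (Fin κ → ℝ), (F.card : ℝ) ≤ Λ * ρ ^ ((κ : ℝ) * σ) ∧
        ∀ y ∈ Y, θ ∈ I y → |τ y - τ₀| ≤ ρ → (∀ l, |x y l - x₀ l| ≤ ρ) →
          ∃ g ∈ F, ∀ l, |x y l - τ y * v θ l - g l| ≤ Λ) →
      False

open Classical in
/-- **Plank lemma.**  `T = Q ^ S`, `R = T ^ 2`; lines `t ↦ y L - 2 t ζ L`; `Φ z` = caps at `z`
(centres `f φ`, `1/Q`-separated), `𝓛 z φ` = lines through `z` with frequency in the cap. -/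
def Plank (n : ℕ) : Prop :=
  ∀ S : ℕ, 1 ≤ S → ∃ C : ℕ, ∀ Q B t₀ μ : ℝ, 2 ≤ B → B ^ C ≤ Q → 0 < μ →
    ∀ (ι κ : Type) (X : Finset (V n × ℝ)) (A : Finset ι) (y ζ : ι → V n) (f : κ → V n)
      (Φ : V n × ℝ → Finset κ) (𝓛 : V n × ℝ → κ → Finset ι),
      X.Nonempty →
      (∀ z ∈ X, ‖z.1‖ ≤ B * (Q ^ S) ^ 2 ∧ t₀ ≤ z.2 ∧ z.2 ≤ t₀ + (Q ^ S) ^ 2) →
      (∀ z ∈ X, ∀ z' ∈ X, z ≠ z' → 1 ≤ ‖z.1 - z'.1‖) →
      (∀ L ∈ A, ‖ζ L‖ ≤ B) →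
      (∀ z ∈ X, Q ^ (n - 1) ≤ B * (Φ z).card) →
      (∀ z ∈ X, ∀ φ ∈ Φ z, ∀ φ' ∈ Φ z, φ ≠ φ' → 1 / Q ≤ ‖f φ - f φ'‖) →
      (∀ z ∈ X, ∀ φ ∈ Φ z, 𝓛 z φ ⊆ A ∧ μ ≤ (𝓛 z φ).card ∧
        ∀ L ∈ 𝓛 z φ, ‖ζ L - f φ‖ ≤ B / Q ∧ ‖z.1 - (y L - (2 * z.2) • ζ L)‖ ≤ B * Q ^ S) →
      (A.card : ℝ) * (Q ^ S) ^ (n + 1) ≤ B * X.card * μ * Q ^ (n - 1) →
      ∃ (G : V n) (y₀ : ℝ), ‖G‖ ≤ B ^ C ∧
        ((Q ^ S) ^ 2) ^ n ≤ B ^ C *
          (X.filter fun z => |z.2 - ⟪G, z.1⟫ - y₀| ≤ B ^ C * Q ^ S).card ∧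
        ∃ L ∈ A, |1 + 2 * ⟪G, ζ L⟫| ≤ B ^ C / Q ^ S

/-- **Rich core.**  Finitely many labelings with thresholds: a large subset in which every fibre
of every labeling is empty or rich. -/
theorem rich_core {α β μ : Type*} [DecidableEq α] [DecidableEq β] (I : Finset α) (m : Finset μ)
    (g : μ → α → β) (c : μ → ℝ) (hc : ∀ i ∈ m, 0 ≤ c i) :
    ∃ J ⊆ I, (I.card : ℝ) - ∑ i ∈ m, c i * (I.image (g i)).card ≤ J.card ∧
      ∀ a ∈ J, ∀ i ∈ m, c i ≤ (J.filter fun a' => g i a' = g i a).card := by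
  obtain ⟨J, hJ, hmax⟩ := exists_max_image I.powerset
    (fun J : Finset α => (J.card : ℝ) - ∑ i ∈ m, c i * (J.image (g i)).card) ⟨∅, by simp⟩
  refine ⟨J, mem_powerset.1 hJ, ?_, fun a ha i hi => ?_⟩
  · refine (hmax I (mem_powerset_self I)).trans ?_
    have : 0 ≤ ∑ i ∈ m, c i * ((J.image (g i)).card : ℝ) :=
      sum_nonneg fun i hi => mul_nonneg (hc i hi) (Nat.cast_nonneg _)
    linarith
  · set J' := J.filter fun a' => ¬ g i a' = g i a with hJ'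
    have hsub : J' ⊆ J := filter_subset _ _
    have h1 := hmax J' (mem_powerset.2 (hsub.trans (mem_powerset.1 hJ)))
    have h2 : ((J.filter fun a' => g i a' = g i a).card : ℝ) + J'.card = J.card := by
      exact_mod_cast card_filter_add_card_filter_not (s := J) (fun a' => g i a' = g i a)
    have h3 : ((J'.image (g i)).card : ℝ) + 1 ≤ (J.image (g i)).card := by
      have : J'.image (g i) ⊂ J.image (g i) := by
        refine ⟨image_subset_image hsub, fun h => ?_⟩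
        obtain ⟨b, hb, hb'⟩ := mem_image.1 (h (mem_image_of_mem _ ha))
        exact (mem_filter.1 hb).2 hb'
      exact_mod_cast card_lt_card this
    have h4 : ∑ i' ∈ m, c i' * ((J'.image (g i')).card : ℝ) + c i ≤
        ∑ i' ∈ m, c i' * ((J.image (g i')).card : ℝ) := by
      classical
      rw [← add_sum_erase m _ hi, ← add_sum_erase m _ hi]
      have h5 : ∑ i' ∈ m.erase i, c i' * ((J'.image (g i')).card : ℝ) ≤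
          ∑ i' ∈ m.erase i, c i' * ((J.image (g i')).card : ℝ) :=
        sum_le_sum fun i' hi' => mul_le_mul_of_nonneg_left
          (by exact_mod_cast card_le_card (image_subset_image hsub)) (hc i' (mem_of_mem_erase hi'))
      nlinarith [hc i hi]
    linarith

end Crest.Agent.N76.L
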