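import Crest.Agent.N76.L.Cnt
import Crest.Agent.N76.T.Facts

/-! # Row 76, Part I: geometry of tiles for the realisation of the abstract tower (helper13). -/

set_option autoImplicit false

open MeasureTheory Finset Metric Filter
open scoped RealInnerProductSpace Topology

namespace Crest.Agent.N76.L

open Crest.Agent.N76.Red (V)
open Crest.Agent.N76.G

variable {n : ℕ}

theorem tile_eq (k i : ℕ) (c : Nd n) : T.tile k i c = tile k i c := by
  ext β
  simp only [T.tile, tile, T.idx, Set.mem_ofPred_eq, Prod.ext_iff, fl, funext_iff, PiLp.smul_apply,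
    smul_eq_mul, div_eq_inv_mul]
  rfl

theorem tile_fq {k : ℕ} (hk : 1 ≤ k) {i : ℕ} {c : Nd n} {β : Ph n} (h : β ∈ tile k i c) :
    ‖β.2 - fq k i c‖ ≤ n / (k : ℝ) ^ i := by
  have hk0 : (0 : ℝ) < (k : ℝ) ^ i := pow_pos (by exact_mod_cast hk) _
  have h1 := norm_sub_iv_fl ((k : ℝ) ^ i • β.2)
  rw [h.2] at h1
  have e : β.2 - fq k i c = ((k : ℝ) ^ i)⁻¹ • ((k : ℝ) ^ i • β.2 - iv c.2.2) := by
    rw [smul_sub, inv_smul_smul₀ hk0.ne', fq]
  rw [e, norm_smul, norm_inv, Real.norm_of_nonneg hk0.le, div_eq_inv_mul]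
  gcongr

theorem tile_ctr {k : ℕ} (hk : 1 ≤ k) {i : ℕ} {c : Nd n} {β : Ph n} (h : β ∈ tile k i c) :
    ‖pos (tm k i c) β - ctr k i c‖ ≤ n * (k : ℝ) ^ i := by
  have hk0 : (0 : ℝ) < (k : ℝ) ^ i := pow_pos (by exact_mod_cast hk) _
  have h1 := norm_sub_iv_fl (((k : ℝ) ^ i)⁻¹ • pos (tm k i c) β)
  rw [h.1] at h1
  have e : pos (tm k i c) β - ctr k i c =
      (k : ℝ) ^ i • (((k : ℝ) ^ i)⁻¹ • pos (tm k i c) β - iv c.2.1) := by
    rw [smul_sub, smul_inv_smul₀ hk0.ne', ctr]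
  rw [e, norm_smul, Real.norm_of_nonneg hk0.le, mul_comm]
  gcongr

theorem tile_ps {k : ℕ} (hk : 1 ≤ k) {i : ℕ} {c : Nd n} {β : Ph n} (h : β ∈ tile k i c) {t : ℝ}
    (ht : |t - tm k i c| ≤ (k : ℝ) ^ (2 * i)) : ‖pos t β - ps k i c t‖ ≤ 3 * n * (k : ℝ) ^ i := by
  have hk0 : (0 : ℝ) < (k : ℝ) ^ i := pow_pos (by exact_mod_cast hk) _
  have e : pos t β - ps k i c t =
      (pos (tm k i c) β - ctr k i c) - (2 * (t - tm k i c)) • (β.2 - fq k i c) := by
    rw [T.pos_eq_pos t (tm k i c), ps, smul_sub]; abel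
  rw [e]
  refine (norm_sub_le _ _).trans ?_
  rw [norm_smul, Real.norm_eq_abs, abs_mul, abs_two]
  have h1 : 2 * |t - tm k i c| * ‖β.2 - fq k i c‖ ≤ 2 * (k : ℝ) ^ (2 * i) * (n / (k : ℝ) ^ i) := by
    have := tile_fq hk h
    gcongr
  have h2 : 2 * (k : ℝ) ^ (2 * i) * (n / (k : ℝ) ^ i) = 2 * n * (k : ℝ) ^ i := by
    rw [two_mul i, pow_add]; field_simp
  linarith [tile_ctr hk h]

theorem Qf_far {a a' t t' Λ : ℝ} (ha : 0 < a) (haa : a ≤ a') (ht : |t - t'| ≤ a' ^ 2) (hΛ : 0 ≤ Λ)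
    {Δ : Ph n} (h : Λ / 2 * a' ≤ ‖pos t Δ‖ ∨ Λ / 2 ≤ a * ‖Δ.2‖) : Λ ^ 2 / 32 ≤ Qf a t a' t' Δ := by
  have ha' : 0 < a' := ha.trans_le haa
  refine le_trans ?_ (Qf_ge ha haa ht Δ)
  rcases h with h | h
  · refine le_add_of_le_of_nonneg ?_ (by positivity)
    rw [le_div_iff₀ (by positivity)]
    have := pow_le_pow_left₀ (by positivity) h 2
    nlinarith
  · refine le_add_of_nonneg_of_le (by positivity) ?_
    have := pow_le_pow_left₀ (by positivity) h 2
    nlinarith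

theorem far_step {k : ℕ} (hk : 1 ≤ k) {Λ : ℝ} (hΛ : 8 * (n : ℝ) ≤ Λ) {j : ℕ} {c c' : Nd n}
    (hw : c'.1 = c.1 / ((k ^ 2 : ℕ) : ℤ)) (hN : ¬ Nr k Λ j (j + 1) c c') {β β' : Ph n}
    (hβ : β ∈ T.tile k j c) (hβ' : β' ∈ T.tile k (j + 1) c') :
    Λ ^ 2 / 32 ≤ Qf ((k : ℝ) ^ j) (T.tk k j c.1) ((k : ℝ) ^ (j + 1)) (T.tk k (j + 1) c'.1)
      (β - β') := by
  rw [tile_eq] at hβ hβ'
  have hk1 : (1 : ℝ) ≤ k := by exact_mod_cast hk
  have hn : (0 : ℝ) ≤ n := Nat.cast_nonneg n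
  have ha : (0 : ℝ) < (k : ℝ) ^ j := by positivity
  have haa : (k : ℝ) ^ j ≤ (k : ℝ) ^ (j + 1) := pow_le_pow_right₀ hk1 (Nat.le_succ j)
  have hw' : c'.1 = c.1 / (k : ℤ) ^ (2 * (j + 1 - j)) := by
    rw [hw, Nat.add_sub_cancel_left]; push_cast; rfl
  have ht : |tm k j c - tm k (j + 1) c'| ≤ (k : ℝ) ^ (2 * (j + 1)) :=
    abs_tm_sub_le hk (Nat.le_add_right j 1) hw'
  refine Qf_far ha haa (by rw [← pow_mul, mul_comm]; exact ht) (by linarith) ?_
  by_contra hc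
  push Not at hc
  refine hN ⟨hw', ?_, ?_⟩
  · have h1 := tile_fq hk hβ
    have h2 := (tile_fq hk hβ').trans (div_le_div_of_nonneg_left hn ha haa)
    have h3 : ‖(β - β').2‖ ≤ Λ / 2 / (k : ℝ) ^ j := by
      rw [le_div_iff₀ ha, mul_comm]; exact hc.2.le
    have e : fq k (j + 1) c' - fq k j c =
        (β.2 - fq k j c) - (β'.2 - fq k (j + 1) c') - (β - β').2 := by
      rw [Prod.snd_sub]; abel
    rw [e]
    refine (norm_sub_le _ _).trans ((add_le_add (norm_sub_le _ _) le_rfl).trans ?_)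
    refine (add_le_add (add_le_add h1 h2) h3).trans ?_
    rw [← add_div, ← add_div]
    push_cast
    gcongr
    linarith
  · have h1 := (tile_ctr hk hβ).trans (mul_le_mul_of_nonneg_left haa hn)
    have h2 := tile_ps hk hβ' ht
    have h3 : ‖pos (tm k j c) (β - β')‖ ≤ Λ / 2 * (k : ℝ) ^ (j + 1) := hc.1.le
    have e : ps k (j + 1) c' (tm k j c) - ctr k j c =
        (pos (tm k j c) β - ctr k j c) - (pos (tm k j c) β' - ps k (j + 1) c' (tm k j c)) -
          pos (tm k j c) (β - β') := by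
      rw [pos_sub]; abel
    rw [e]
    refine (norm_sub_le _ _).trans ((add_le_add (norm_sub_le _ _) le_rfl).trans ?_)
    refine (add_le_add (add_le_add h1 h2) h3).trans ?_
    push_cast
    nlinarith

theorem far_bottom {k : ℕ} (hk : 1 ≤ k) {Λ : ℝ} (hΛ : 8 * (n : ℝ) ≤ Λ) {z : V n × ℝ} {c : Nd n}
    (hw : c.1 = win k 0 z.2) (hN : ¬ (z ∈ box k Λ 0 c ∧ ‖fq k 0 c‖ ≤ Λ)) {β : Ph n}
    (hβ : β ∈ T.tile k 0 c) : Λ ^ 2 / 32 ≤ Qf 1 z.2 1 (T.tk k 0 c.1) ((z.1, 0) - β) := by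
  rw [tile_eq] at hβ
  have hn : (0 : ℝ) ≤ n := Nat.cast_nonneg n
  have ht : |z.2 - tm k 0 c| ≤ (k : ℝ) ^ (2 * 0) := by
    have := T.wt_le hk 0 z.2
    rw [T.wt_eq_tk, ← hw] at this
    rw [abs_le]
    constructor <;> nlinarith [this.1, this.2, show T.tk k 0 c.1 = tm k 0 c from rfl,
      show (k : ℝ) ^ (2 * 0) = 1 by simp]
  refine Qf_far one_pos le_rfl (ht.trans (by simp)) (by linarith) ?_
  by_contra hc
  push Not at hc
  refine hN ⟨⟨hw.symm, ?_⟩, ?_⟩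
  · have h2 := tile_ps hk hβ ht
    have e : z.1 - ps k 0 c z.2 = pos z.2 ((z.1, 0) - β) + (pos z.2 β - ps k 0 c z.2) := by
      rw [pos_sub]; simp [pos]
    rw [e]
    refine (norm_add_le _ _).trans ((add_le_add hc.1.le h2).trans ?_)
    simp only [pow_zero, Nat.cast_zero]
    linarith
  · have h1 := tile_fq hk hβ
    have e : fq k 0 c = -((((z.1, 0) : Ph n) - β).2) - (β.2 - fq k 0 c) := by simp
    rw [e]
    refine (norm_sub_le _ _).trans ?_
    rw [norm_neg]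
    simp only [pow_zero, div_one] at h1
    linarith [hc.2]

/-- the span of the normal directions -/
noncomputable def nsp (O : OrthonormalBasis (Fin n) ℝ (V n)) (κ : ℕ) : Submodule ℝ (V n) :=
  Submodule.span ℝ (Set.range fun l : {l : Fin n // κ ≤ (l : ℕ)} => O l)

theorem finrank_nsp (O : OrthonormalBasis (Fin n) ℝ (V n)) (κ : ℕ) :
    Module.finrank ℝ (nsp O κ) = n - κ := by
  rw [nsp, finrank_span_eq_card (b := fun l : {l : Fin n // κ ≤ (l : ℕ)} => O l)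
    (O.orthonormal.comp _ Subtype.val_injective).linearIndependent, Fintype.card_subtype]
  have h1 := card_filter_add_card_filter_not (s := (univ : Finset (Fin n)))
    (fun l => (l : ℕ) < κ)
  simp only [not_lt, card_univ, Fintype.card_fin, Fin.card_filter_val_lt] at h1
  omega

theorem norm_proj_le (O : OrthonormalBasis (Fin n) ℝ (V n)) (κ : ℕ) {y : V n} {w : ℝ} (hw : 0 ≤ w)
    (h : ∀ l : Fin n, κ ≤ (l : ℕ) → |⟪O l, y⟫| ≤ w) : ‖(nsp O κ).starProjection y‖ ≤ n * w := by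
  refine norm_le_of_inner O _ hw fun l => ?_
  by_cases hl : κ ≤ (l : ℕ)
  · rw [← Submodule.inner_starProjection_left_eq_right,
      Submodule.starProjection_eq_self_iff.2
        (show O l ∈ nsp O κ from Submodule.subset_span ⟨⟨l, hl⟩, rfl⟩)]
    exact h l hl
  · have : O l ∈ (nsp O κ)ᗮ := by
      rw [nsp, Submodule.mem_orthogonal']
      intro u hu
      induction hu using Submodule.span_induction with
      | mem x hx =>
        obtain ⟨l', rfl⟩ := hx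
        exact O.orthonormal.2 fun e => hl (e ▸ l'.2)
      | zero => simp
      | add x y _ _ h1 h2 => rw [inner_add_right, h1, h2, add_zero]
      | smul a x _ h1 => rw [inner_smul_right, h1, mul_zero]
    rw [(Submodule.mem_orthogonal' _ _).1 this _ (Submodule.starProjection_apply_mem _ _), abs_zero]
    exact hw

theorem proj_le_of_slab (O : OrthonormalBasis (Fin n) ℝ (V n)) (κ : ℕ) {x x₀ x' : V n} {w r : ℝ}
    (hw : 0 ≤ w) (hr : 0 ≤ r) (h : Slab O κ x₀ w x) (h' : ‖x' - x‖ ≤ r) :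
    ‖(nsp O κ).starProjection (x' - x₀)‖ ≤ n * (w + r) := by
  refine norm_proj_le O κ (by positivity) fun l hl => ?_
  rw [show x' - x₀ = (x - x₀) + (x' - x) by abel, inner_add_right]
  exact (abs_add_le _ _).trans (add_le_add (h l hl) ((abs_inner_le_norm O l _).trans h'))

/-- the asymptotic conditions on `Λ = k ^ (1 / N)` -/
theorem asym (N A B : ℕ) (hN : 1 ≤ N) (C : ℝ) (hC : 0 ≤ C) :
    ∃ k₀ : ℕ, ∀ k : ℕ, k₀ ≤ k → ∃ Λ : ℝ, C ≤ Λ ∧ Λ ^ N = k ∧
      C * ((A * (Nat.log 2 k + 1) + 1 : ℕ) : ℝ) ^ B ≤ Λ ∧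
      C * (k : ℝ) ^ A * Real.exp (-Real.pi * (Λ ^ 2 / 32)) ≤ 1 := by
  have hN0 : (0 : ℝ) < N := by exact_mod_cast hN
  have t0 : Tendsto (fun k : ℕ => (k : ℝ) ^ (1 / (N : ℝ))) atTop atTop :=
    (tendsto_rpow_atTop (by positivity)).comp tendsto_natCast_atTop_atTop
  set D : ℝ := (A : ℝ) * (2 * N + 1) + 1 with hD
  have e1 : ∀ᶠ x : ℝ in atTop, (C + 1) * D ^ B * Real.log x ^ B ≤ x := by
    have := (Real.isLittleO_pow_log_id_atTop (n := B)).bound
      (show 0 < 1 / ((C + 1) * D ^ B) by positivity)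
    filter_upwards [this, eventually_ge_atTop 1] with x hx h1
    rw [Real.norm_of_nonneg (pow_nonneg (Real.log_nonneg h1) _), id,
      Real.norm_of_nonneg (by linarith), one_div, ← div_eq_inv_mul,
      le_div_iff₀ (by positivity)] at hx
    linarith
  have e2 : ∀ᶠ x : ℝ in atTop, (C + 1) * (x ^ (N * A) * Real.exp (-x)) ≤ 1 := by
    have := (Real.tendsto_pow_mul_exp_neg_atTop_nhds_zero (N * A)).const_mul (C + 1)
    rw [mul_zero] at this
    exact this.eventually (ge_mem_nhds one_pos)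
  obtain ⟨k₀, hk₀⟩ := eventually_atTop.1 ((t0.eventually e1).and ((t0.eventually e2).and
    ((t0.eventually (eventually_ge_atTop (max C 32))).and (eventually_ge_atTop 1))))
  refine ⟨k₀, fun k hk => ?_⟩
  obtain ⟨h1, h2, h3, h4⟩ := hk₀ k hk
  set Λ : ℝ := (k : ℝ) ^ (1 / (N : ℝ)) with hΛ
  have hΛN : Λ ^ N = k := by
    rw [hΛ, one_div]; exact Real.rpow_inv_natCast_pow (Nat.cast_nonneg k) (by omega)
  have h32 : 32 ≤ Λ := (le_max_right _ _).trans h3
  refine ⟨Λ, (le_max_left _ _).trans h3, hΛN, le_trans ?_ h1, le_trans ?_ h2⟩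
  · have hl : 1 ≤ Real.log Λ := by
      rw [Real.le_log_iff_exp_le (by linarith)]
      linarith [Real.exp_one_lt_d9]
    have hlog : (Nat.log 2 k : ℝ) ≤ 2 * N * Real.log Λ := by
      have g1 : ((2 : ℝ)) ^ Nat.log 2 k ≤ k := by exact_mod_cast Nat.pow_log_le_self 2 (by omega)
      have g2 := Real.log_le_log (by positivity) g1
      rw [Real.log_pow, ← hΛN, Real.log_pow] at g2
      have g3 := Real.log_two_gt_d9
      have g4 : (0 : ℝ) ≤ Nat.log 2 k := Nat.cast_nonneg _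
      nlinarith
    rw [mul_assoc, ← mul_pow]
    refine mul_le_mul (by linarith) (pow_le_pow_left₀ (Nat.cast_nonneg _) ?_ B) (by positivity)
      (by linarith)
    push_cast
    have hA : (0 : ℝ) ≤ A := Nat.cast_nonneg A
    rw [hD]
    nlinarith [mul_le_mul_of_nonneg_left hlog hA, mul_le_mul_of_nonneg_left hl hA]
  · rw [← hΛN, ← pow_mul, mul_assoc]
    refine mul_le_mul (by linarith) (mul_le_mul_of_nonneg_left (Real.exp_le_exp.2 ?_)
      (by positivity)) (by positivity) (by linarith)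
    nlinarith [Real.pi_gt_three]

/-- dyadic label -/
noncomputable def dyl (L : ℕ) (q : ℝ) : Fin (L + 1) :=
  if h : 1 ≤ q ∧ q ≤ 2 ^ L then Classical.choose (T.exists_dyadic h.1 h.2) else 0

theorem dyl_spec {L : ℕ} {q : ℝ} (h1 : 1 ≤ q) (h2 : q ≤ 2 ^ L) :
    (2 : ℝ) ^ (dyl L q : ℕ) ≤ q ∧ q ≤ 2 * 2 ^ (dyl L q : ℕ) := by
  rw [dyl, dif_pos ⟨h1, h2⟩]
  exact Classical.choose_spec (T.exists_dyadic h1 h2)

end Crest.Agent.N76.L
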