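import Crest.Agent.N76.L.Props
import Crest.Agent.N76.G.Iso

/-! # Row 76, Part I: the counting layer (lattice points, nodes, nearness) (helper28). -/

set_option autoImplicit false

open Finset Metric
open scoped RealInnerProductSpace

namespace Crest.Agent.N76.L

open Crest.Agent.N76.Red (V)
open Crest.Agent.N76.G

variable {n M : ℕ}

@[simp] theorem iv_apply (p : Fin n → ℤ) (l : Fin n) : iv p l = (p l : ℝ) := rfl

theorem fl_iv (p : Fin n → ℤ) : fl (iv p) = p := by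
  ext l; simp [fl]

theorem iv_injective : Function.Injective (iv (n := n)) :=
  Function.LeftInverse.injective fl_iv

theorem abs_apply_le_norm (x : V n) (l : Fin n) : |x l| ≤ ‖x‖ := PiLp.norm_apply_le x l

theorem one_le_norm_iv_sub {p q : Fin n → ℤ} (h : p ≠ q) : 1 ≤ ‖iv p - iv q‖ := by
  obtain ⟨l, hl⟩ := Function.ne_iff.1 h
  refine le_trans ?_ (abs_apply_le_norm _ l)
  rw [PiLp.sub_apply, iv_apply, iv_apply]
  exact_mod_cast Int.one_le_abs (sub_ne_zero.2 hl)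

theorem norm_le_of_coord (x : V n) {ρ : ℝ} (hρ : 0 ≤ ρ) (h : ∀ l, |x l| ≤ ρ) : ‖x‖ ≤ n * ρ := by
  refine le_of_pow_le_pow_left₀ two_ne_zero (by positivity) ?_
  rw [EuclideanSpace.real_norm_sq_eq]
  calc ∑ l, x l ^ 2 ≤ ∑ _l : Fin n, ρ ^ 2 :=
        sum_le_sum fun l _ => by rw [← sq_abs]; gcongr; exact h l
    _ = n * ρ ^ 2 := by simp
    _ ≤ _ := by
        rw [mul_pow]
        gcongr
        exact_mod_cast Nat.le_self_pow two_ne_zero n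

theorem norm_sub_iv_fl (x : V n) : ‖x - iv (fl x)‖ ≤ n := by
  simpa using norm_le_of_coord (x - iv (fl x)) zero_le_one fun l => by
    rw [PiLp.sub_apply, iv_apply, fl, abs_le]
    constructor <;> linarith [Int.floor_le (x l), Int.lt_floor_add_one (x l)]

theorem norm_sub_of_fl_eq {x y : V n} (h : fl x = fl y) : ‖x - y‖ ≤ n := by
  simpa using norm_le_of_coord (x - y) zero_le_one fun l => by
    rw [PiLp.sub_apply]
    exact (Int.abs_sub_lt_one_of_floor_eq_floor (congrFun h l)).le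

theorem norm_le_of_inner (O : OrthonormalBasis (Fin n) ℝ (V n)) (x : V n) {ρ : ℝ} (hρ : 0 ≤ ρ)
    (h : ∀ l, |⟪O l, x⟫| ≤ ρ) : ‖x‖ ≤ n * ρ := by
  rw [← O.repr.norm_map x]
  exact norm_le_of_coord _ hρ fun l => by rw [O.repr_apply_apply]; exact h l

theorem abs_inner_le_norm (O : OrthonormalBasis (Fin n) ℝ (V n)) (l : Fin n) (x : V n) :
    |⟪O l, x⟫| ≤ ‖x‖ := by
  simpa [O.orthonormal.1 l] using abs_real_inner_le_norm (O l) x

theorem card_int (S : Finset ℤ) (x : ℝ) {ρ : ℝ} (hρ : 1 ≤ ρ) (h : ∀ p ∈ S, |(p : ℝ) - x| ≤ ρ) :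
    (S.card : ℝ) ≤ 3 * ρ := by
  have h1 : S ⊆ Icc ⌈x - ρ⌉ ⌊x + ρ⌋ := fun p hp => by
    have := abs_le.1 (h p hp)
    rw [mem_Icc, Int.ceil_le, Int.le_floor]
    constructor <;> linarith
  have h2 := card_le_card h1
  rw [Int.card_Icc] at h2
  have h3 : ((⌊x + ρ⌋ + 1 - ⌈x - ρ⌉).toNat : ℝ) ≤ 3 * ρ := by
    rcases le_total (⌊x + ρ⌋ + 1 - ⌈x - ρ⌉) 0 with h0 | h0
    · rw [Int.toNat_of_nonpos h0]; push_cast; linarith
    · rw [← Int.cast_natCast, Int.toNat_of_nonneg h0]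
      push_cast
      linarith [Int.floor_le (x + ρ), Int.le_ceil (x - ρ)]
  exact le_trans (by exact_mod_cast h2) h3

theorem card_pi' {κ : Type*} [Fintype κ] [DecidableEq κ] (S : Finset (κ → ℤ)) (x ρ : κ → ℝ)
    (hρ : ∀ l, 1 ≤ ρ l) (h : ∀ p ∈ S, ∀ l, |(p l : ℝ) - x l| ≤ ρ l) :
    (S.card : ℝ) ≤ ∏ l, 3 * ρ l := by
  have h1 : S ⊆ Fintype.piFinset fun l => S.image fun p => p l := fun p hp =>
    Fintype.mem_piFinset.2 fun l => mem_image_of_mem _ hp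
  have h2 := card_le_card h1
  rw [Fintype.card_piFinset] at h2
  refine le_trans (by exact_mod_cast h2) (prod_le_prod (fun l _ => Nat.cast_nonneg _) fun l _ => ?_)
  refine card_int _ (x l) (hρ l) fun q hq => ?_
  obtain ⟨p, hp, rfl⟩ := mem_image.1 hq
  exact h p hp l

theorem card_pi {κ : Type*} [Fintype κ] [DecidableEq κ] (S : Finset (κ → ℤ)) (x : κ → ℝ) {ρ : ℝ}
    (hρ : 1 ≤ ρ) (h : ∀ p ∈ S, ∀ l, |(p l : ℝ) - x l| ≤ ρ) :
    (S.card : ℝ) ≤ (3 * ρ) ^ Fintype.card κ := by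
  simpa using card_pi' S x (fun _ => ρ) (fun _ => hρ) h

theorem card_lattice (S : Finset (Fin n → ℤ)) (x : V n) {ρ : ℝ} (hρ : 1 ≤ ρ)
    (h : ∀ p ∈ S, ‖iv p - x‖ ≤ ρ) : (S.card : ℝ) ≤ (3 * ρ) ^ n := by
  simpa using card_pi S (fun l => x l) hρ fun p hp l =>
    le_trans (by simpa using abs_apply_le_norm (iv p - x) l) (h p hp)

/-- labels of points of a ball -/
theorem card_image_fl {ι : Type*} (S : Finset ι) (f : ι → V n) (x : V n) {ρ : ℝ} (hρ : 0 ≤ ρ)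
    (h : ∀ a ∈ S, ‖f a - x‖ ≤ ρ) : ((S.image fun a => fl (f a)).card : ℝ) ≤ (3 * (ρ + 1)) ^ n := by
  have := card_pi (S.image fun a => fl (f a)) (fun l => x l) (ρ := ρ + 1) (by linarith)
    fun p hp l => by
      obtain ⟨a, ha, rfl⟩ := mem_image.1 hp
      have h1 := abs_le.1 ((abs_apply_le_norm (f a - x) l).trans (h a ha))
      rw [PiLp.sub_apply] at h1
      rw [fl, abs_le]
      constructor <;> linarith [Int.floor_le (f a l), Int.lt_floor_add_one (f a l)]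
  simpa using this

theorem card_sep' {ι : Type*} (S : Finset ι) (f : ι → V n) (O : OrthonormalBasis (Fin n) ℝ (V n))
    (x₀ : Fin n → ℝ) {δ : ℝ} (hδ : 0 < δ) (ρ : Fin n → ℝ) (hρ : ∀ l, δ ≤ ρ l)
    (hs : ∀ a ∈ S, ∀ b ∈ S, a ≠ b → δ ≤ ‖f a - f b‖)
    (h : ∀ a ∈ S, ∀ l, |⟪O l, f a⟫ - x₀ l| ≤ ρ l) :
    (S.card : ℝ) ≤ ∏ l, (4 * (n + 1) * ρ l / δ) := by
  classical
  have hn : (0 : ℝ) < (n + 1) / δ := by positivity
  set φ : ι → Fin n → ℤ := fun a l => ⌊(n + 1) / δ * (⟪O l, f a⟫ - x₀ l)⌋ with hφ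
  have hinj : Set.InjOn φ S := fun a ha b hb hab => by
    by_contra hne
    have h1 := norm_le_of_inner O (f a - f b) (ρ := δ / (n + 1)) (by positivity) fun l => by
      have h2 := Int.abs_sub_lt_one_of_floor_eq_floor (congrFun hab l)
      rw [← mul_sub, sub_sub_sub_cancel_right, abs_mul, abs_of_pos hn, ← lt_div_iff₀' hn,
        one_div_div] at h2
      rw [inner_sub_right]
      exact h2.le
    have h3 := hs a ha b hb hne
    have h4 : n * (δ / (n + 1)) < δ := by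
      rw [← mul_div_assoc, div_lt_iff₀ (by positivity)]; nlinarith
    linarith
  have hY : ∀ l : Fin n, 2 ≤ (n + 1) / δ * ρ l := fun l => by
    have h1 : (1 : ℝ) ≤ n := by exact_mod_cast l.pos
    calc (2 : ℝ) ≤ (n + 1) / δ * δ := by rw [div_mul_cancel₀ _ hδ.ne']; linarith
      _ ≤ _ := by gcongr; exact hρ l
  rw [← card_image_of_injOn hinj]
  refine (card_pi' _ (fun _ => -(1 / 2)) (fun l => (n + 1) / δ * ρ l + 1 / 2)
    (fun l => by linarith [hY l]) fun p hp l => ?_).trans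
    (prod_le_prod (fun l _ => by linarith [hY l]) fun l _ => ?_)
  · obtain ⟨a, ha, rfl⟩ := mem_image.1 hp
    have h1 : |(n + 1) / δ * (⟪O l, f a⟫ - x₀ l)| ≤ (n + 1) / δ * ρ l := by
      rw [abs_mul, abs_of_pos hn]; gcongr; exact h a ha l
    rw [abs_le] at h1 ⊢
    simp only [hφ]
    constructor <;> linarith [Int.floor_le ((n + 1) / δ * (⟪O l, f a⟫ - x₀ l)),
      Int.lt_floor_add_one ((n + 1) / δ * (⟪O l, f a⟫ - x₀ l))]
  · have : 4 * (n + 1) * ρ l / δ = 4 * ((n + 1) / δ * ρ l) := by ring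
    linarith [hY l]

theorem card_sep {ι : Type*} (S : Finset ι) (f : ι → V n) (O : OrthonormalBasis (Fin n) ℝ (V n))
    (x₀ : V n) {δ : ℝ} (hδ : 0 < δ) (ρ : Fin n → ℝ) (hρ : ∀ l, δ ≤ ρ l)
    (hs : ∀ a ∈ S, ∀ b ∈ S, a ≠ b → δ ≤ ‖f a - f b‖)
    (h : ∀ a ∈ S, ∀ l, |⟪O l, f a - x₀⟫| ≤ ρ l) :
    (S.card : ℝ) ≤ ∏ l, (4 * (n + 1) * ρ l / δ) :=
  card_sep' S f O (fun l => ⟪O l, x₀⟫) hδ ρ hρ hs fun a ha l => by
    rw [← inner_sub_right]; exact h a ha l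

theorem prod_ite_lt {κ : ℕ} (hκ : κ ≤ n) (x y : ℝ) :
    ∏ l : Fin n, (if (l : ℕ) < κ then x else y) = x ^ κ * y ^ (n - κ) := by
  have h1 : #{l : Fin n | (l : ℕ) < κ} = κ := by rw [Fin.card_filter_val_lt, min_eq_right hκ]
  have h2 := card_filter_add_card_filter_not (s := (univ : Finset (Fin n))) fun l => (l : ℕ) < κ
  rw [h1, card_univ, Fintype.card_fin] at h2
  have h3 : #{l : Fin n | ¬(l : ℕ) < κ} = n - κ := by omega
  rw [prod_ite, prod_const, prod_const, h1, h3]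

theorem card_slab (P : Finset (Fin n → ℤ)) (O : OrthonormalBasis (Fin n) ℝ (V n)) {κ : ℕ}
    (hκ : κ ≤ n) (x₀ x₁ : V n) {ρ w : ℝ} (hρ : 1 ≤ ρ) (hw : 1 ≤ w)
    (h : ∀ p ∈ P, (∀ l : Fin n, (l : ℕ) < κ → |⟪O l, iv p - x₁⟫| ≤ ρ) ∧ Slab O κ x₀ w (iv p)) :
    (P.card : ℝ) ≤ (4 * (n + 1) * ρ) ^ κ * (4 * (n + 1) * w) ^ (n - κ) := by
  refine (card_sep' P iv O (fun l => if (l : ℕ) < κ then ⟪O l, x₁⟫ else ⟪O l, x₀⟫) one_pos
    (fun l => if (l : ℕ) < κ then ρ else w) (fun l => by split_ifs <;> assumption)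
    (fun a _ b _ => one_le_norm_iv_sub) fun p hp l => ?_).trans_eq ?_
  · split_ifs with hl
    · rw [← inner_sub_right]; exact (h p hp).1 l hl
    · rw [← inner_sub_right]; exact (h p hp).2 l (not_lt.1 hl)
  · rw [← prod_ite_lt hκ]
    exact prod_congr rfl fun l _ => by split_ifs <;> simp

theorem ps_tm (k i : ℕ) (c : Nd n) : ps k i c (tm k i c) = ctr k i c := by simp [ps]

theorem ps_sub (k i : ℕ) (c : Nd n) (t t' : ℝ) :
    ps k i c t = ps k i c t' - (2 * (t - t')) • fq k i c := by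
  rw [ps, ps, sub_sub, ← add_smul]; congr 2; ring

/-- a set with small fibres -/
theorem card_le_image_mul {α β : Type*} [DecidableEq β] (S : Finset α) (φ : α → β) {B : ℝ}
    (h : ∀ p ∈ S.image φ, ((S.filter fun a => φ a = p).card : ℝ) ≤ B) :
    (S.card : ℝ) ≤ (S.image φ).card * B := by
  rw [card_eq_sum_card_image φ S]
  push_cast
  simpa using sum_le_card_nsmul _ _ _ h

theorem card_nd_cap {k : ℕ} (hk : 1 ≤ k) (j : ℕ) (S : Finset (Nd n)) (s : ℤ) (p : Fin n → ℤ)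
    (y : V n) (t : ℝ) {ρ : ℝ} (hρ : 1 ≤ ρ)
    (h : ∀ c ∈ S, c.1 = s ∧ c.2.2 = p ∧ ‖ps k j c t - y‖ ≤ ρ * (k : ℝ) ^ j) :
    (S.card : ℝ) ≤ (3 * ρ) ^ n := by
  have hK : (0 : ℝ) < (k : ℝ) ^ j := by positivity
  have hinj : Set.InjOn (fun c : Nd n => c.2.1) S := fun c hc c' hc' e =>
    Prod.ext ((h c hc).1.trans (h c' hc').1.symm)
      (Prod.ext e ((h c hc).2.1.trans (h c' hc').2.1.symm))
  rw [← card_image_of_injOn hinj]
  refine card_lattice _ (((k : ℝ) ^ j)⁻¹ •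
    (y + (2 * (t - s * (k : ℝ) ^ (2 * j))) • ((k : ℝ) ^ j)⁻¹ • iv p)) hρ fun q hq => ?_
  obtain ⟨c, hc, rfl⟩ := mem_image.1 hq
  obtain ⟨h1, h2, h3⟩ := h c hc
  have e : iv c.2.1 - ((k : ℝ) ^ j)⁻¹ •
      (y + (2 * (t - s * (k : ℝ) ^ (2 * j))) • ((k : ℝ) ^ j)⁻¹ • iv p) =
      ((k : ℝ) ^ j)⁻¹ • (ps k j c t - y) := by
    rw [ps, ctr, tm, fq, h1, h2, sub_sub, smul_sub, inv_smul_smul₀ hK.ne', add_comm]
  rw [e, norm_smul, norm_inv, Real.norm_of_nonneg hK.le, inv_mul_le_iff₀ hK, mul_comm]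
  exact h3

theorem card_caps {k : ℕ} (hk : 1 ≤ k) (j : ℕ) (S : Finset (Nd n)) (ζ : V n) {ρ : ℝ} (hρ : 1 ≤ ρ)
    (h : ∀ c ∈ S, ‖fq k j c - ζ‖ ≤ ρ / (k : ℝ) ^ j) :
    ((S.image fun c => c.2.2).card : ℝ) ≤ (3 * ρ) ^ n := by
  have hK : (0 : ℝ) < (k : ℝ) ^ j := by positivity
  refine card_lattice _ ((k : ℝ) ^ j • ζ) hρ fun q hq => ?_
  obtain ⟨c, hc, rfl⟩ := mem_image.1 hq
  have e : iv c.2.2 - (k : ℝ) ^ j • ζ = (k : ℝ) ^ j • (fq k j c - ζ) := by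
    rw [fq, smul_sub, smul_inv_smul₀ hK.ne']
  rw [e, norm_smul, Real.norm_of_nonneg hK.le, ← le_div_iff₀' hK]
  exact h c hc

theorem card_nd {k : ℕ} (hk : 1 ≤ k) (j : ℕ) (S : Finset (Nd n)) (s : ℤ) (ζ y : V n) (t : ℝ)
    {ρ₁ ρ₂ : ℝ} (h₁ : 1 ≤ ρ₁) (h₂ : 1 ≤ ρ₂)
    (h : ∀ c ∈ S, c.1 = s ∧ ‖fq k j c - ζ‖ ≤ ρ₁ / (k : ℝ) ^ j ∧ ‖ps k j c t - y‖ ≤ ρ₂ * (k : ℝ) ^ j) :
    (S.card : ℝ) ≤ (3 * ρ₁) ^ n * (3 * ρ₂) ^ n := by
  refine (card_le_image_mul S (fun c => c.2.2) (B := (3 * ρ₂) ^ n) fun p _ =>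
    card_nd_cap hk j _ s p y t h₂ fun c hc => ?_).trans ?_
  · obtain ⟨hc, e⟩ := mem_filter.1 hc
    exact ⟨(h c hc).1, e, (h c hc).2.2⟩
  · gcongr
    exact card_caps hk j S ζ h₁ fun c hc => (h c hc).2.1

/-- `0 ≤ s K^e' - ⌊s / K^a⌋ K^(a+e')`, `< K^(a+e')` -/
theorem ediv_bounds {k : ℕ} (hk : 1 ≤ k) (s : ℤ) (a e : ℕ) :
    ((s / (k : ℤ) ^ a : ℤ) : ℝ) * (k : ℝ) ^ (a + e) ≤ (s : ℝ) * (k : ℝ) ^ e ∧
    ((s : ℝ) + 1) * (k : ℝ) ^ e ≤ (((s / (k : ℤ) ^ a : ℤ) : ℝ) + 1) * (k : ℝ) ^ (a + e) := by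
  have hK : (0 : ℤ) < (k : ℤ) ^ a := by positivity
  have h1 : ((s / (k : ℤ) ^ a : ℤ) : ℝ) * (k : ℝ) ^ a ≤ s := by
    exact_mod_cast Int.ediv_mul_le s hK.ne'
  have h2 : (s : ℝ) + 1 ≤ (((s / (k : ℤ) ^ a : ℤ) : ℝ) + 1) * (k : ℝ) ^ a := by
    exact_mod_cast Int.lt_ediv_add_one_mul_self s hK
  rw [pow_add, ← mul_assoc, ← mul_assoc]
  constructor <;> gcongr

theorem ediv_ediv {k : ℕ} (hk : 1 ≤ k) (s : ℤ) (a a' : ℕ) :
    s / (k : ℤ) ^ a / (k : ℤ) ^ a' = s / (k : ℤ) ^ (a + a') := by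
  have hK : (0 : ℤ) < (k : ℤ) ^ a := by positivity
  rw [Int.ediv_ediv_of_nonneg hK.le, pow_add]

theorem tm_bounds {k : ℕ} (hk : 1 ≤ k) {i j : ℕ} (hij : i ≤ j) {c c' : Nd n}
    (h : c'.1 = c.1 / (k : ℤ) ^ (2 * (j - i))) :
    tm k j c' ≤ tm k i c ∧ tm k i c + (k : ℝ) ^ (2 * i) ≤ tm k j c' + (k : ℝ) ^ (2 * j) := by
  have := ediv_bounds hk c.1 (2 * (j - i)) (2 * i)
  rw [show 2 * (j - i) + 2 * i = 2 * j by omega, ← h] at this
  unfold tm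
  constructor <;> linarith [this.1, this.2]

theorem abs_tm_sub_le {k : ℕ} (hk : 1 ≤ k) {i j : ℕ} (hij : i ≤ j) {c c' : Nd n}
    (h : c'.1 = c.1 / (k : ℤ) ^ (2 * (j - i))) : |tm k i c - tm k j c'| ≤ (k : ℝ) ^ (2 * j) := by
  have := tm_bounds hk hij h
  have h0 : (0 : ℝ) < (k : ℝ) ^ (2 * i) := by positivity
  have h1 : (0 : ℝ) < (k : ℝ) ^ (2 * j) := by positivity
  rw [abs_le]
  constructor <;> linarith [this.1, this.2]

theorem box_tm {k : ℕ} (hk : 1 ≤ k) {Λ : ℝ} {i : ℕ} {c : Nd n} {z : V n × ℝ} (h : z ∈ box k Λ i c) :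
    tm k i c ≤ z.2 ∧ z.2 ≤ tm k i c + (k : ℝ) ^ (2 * i) := by
  have hL : (0 : ℝ) < (k : ℝ) ^ (2 * i) := by positivity
  have h1 := Int.floor_le (z.2 / (k : ℝ) ^ (2 * i))
  have h2 := Int.lt_floor_add_one (z.2 / (k : ℝ) ^ (2 * i))
  rw [le_div_iff₀ hL] at h1
  rw [div_lt_iff₀ hL] at h2
  rw [tm, ← h.1, win]
  constructor <;> linarith

theorem Nr.refl (k : ℕ) (Λ : ℝ) (i : ℕ) (c : Nd n) : Nr k Λ i i c c := by
  simp [Nr, ps_tm]

theorem Nr.eq {k : ℕ} (hk : 1 ≤ k) {Λ : ℝ} {i : ℕ} {c c' : Nd n} (h : Nr k Λ i i c c') : c' = c := by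
  have hK : (0 : ℝ) < (k : ℝ) ^ i := by positivity
  obtain ⟨h1, h2, h3⟩ := h
  simp only [Nat.sub_self, mul_zero, pow_zero, Int.ediv_one, sub_self, zero_div, zero_mul,
    norm_le_zero_iff, sub_eq_zero] at h1 h2 h3
  have e : tm k i c = tm k i c' := by rw [tm, tm, h1]
  rw [e, ps_tm] at h3
  exact Prod.ext h1 (Prod.ext (iv_injective (smul_right_injective _ hK.ne' h3))
    (iv_injective (smul_right_injective _ (inv_ne_zero hK.ne') h2)))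

theorem pow_gap {k i j : ℕ} (hij : i < j) (hk : 1 ≤ k) : (k : ℝ) * (k : ℝ) ^ i ≤ (k : ℝ) ^ j := by
  rw [← pow_succ']
  exact pow_le_pow_right₀ (by exact_mod_cast hk) hij

theorem Nr.trans {k : ℕ} {Λ : ℝ} (hΛ : 0 ≤ Λ) {i j l : ℕ} (hij : i ≤ j) (hjl : j ≤ l)
    (hk : 2 * l + 1 ≤ k) {c c' c'' : Nd n} (h : Nr k Λ i j c c') (h' : Nr k Λ j l c' c'') :
    Nr k Λ i l c c'' := by
  have hk1 : 1 ≤ k := by omega
  rcases hij.eq_or_lt with rfl | hij'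
  · rwa [h.eq hk1] at h'
  rcases hjl.eq_or_lt with rfl | hjl'
  · rwa [h'.eq hk1]
  have hk' : (1 : ℝ) ≤ k := by exact_mod_cast hk1
  have hkl : 2 * (l : ℝ) + 1 ≤ k := by exact_mod_cast hk
  have h1 : (i : ℝ) + 1 ≤ j := by exact_mod_cast hij'
  have h2 : (j : ℝ) + 1 ≤ l := by exact_mod_cast hjl'
  have h0 : (0 : ℝ) ≤ i := Nat.cast_nonneg _
  have hKj : (0 : ℝ) < (k : ℝ) ^ j := by positivity
  refine ⟨?_, ?_, ?_⟩
  · rw [h'.1, h.1, ediv_ediv hk1]; congr 2; omega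
  · have e : Λ * ((l : ℝ) - j) / (k : ℝ) ^ j ≤ Λ * ((l : ℝ) - j) / (k : ℝ) ^ i := by
      gcongr
      exact mul_nonneg hΛ (by linarith)
    have e' : Λ * ((l : ℝ) - i) / (k : ℝ) ^ i =
        Λ * ((l : ℝ) - j) / (k : ℝ) ^ i + Λ * ((j : ℝ) - i) / (k : ℝ) ^ i := by ring
    linarith [norm_sub_le_norm_sub_add_norm_sub (fq k l c'') (fq k j c') (fq k i c), h.2.1, h'.2.1]
  · have e : ps k l c'' (tm k i c) - ctr k i c = (ps k l c'' (tm k j c') - ctr k j c') +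
        (ps k j c' (tm k i c) - ctr k i c) -
        (2 * (tm k i c - tm k j c')) • (fq k l c'' - fq k j c') := by
      rw [ps_sub k l c'' (tm k i c) (tm k j c'), ps_sub k j c' (tm k i c) (tm k j c'), ps_tm,
        smul_sub]
      abel
    have e1 : ‖(2 * (tm k i c - tm k j c')) • (fq k l c'' - fq k j c')‖ ≤
        2 * (Λ * ((l : ℝ) - j) * (k : ℝ) ^ j) := by
      rw [norm_smul, Real.norm_eq_abs, abs_mul, abs_two]
      calc _ ≤ 2 * (k : ℝ) ^ (2 * j) * (Λ * ((l : ℝ) - j) / (k : ℝ) ^ j) := by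
            gcongr
            · exact abs_tm_sub_le hk1 hij h.1
            · exact h'.2.1
        _ = _ := by rw [two_mul j, pow_add]; field_simp
    have e2 : ((j : ℝ) - i) * (k : ℝ) ^ j + 2 * (((l : ℝ) - j) * (k : ℝ) ^ j) ≤
        ((j : ℝ) - i) * (k : ℝ) ^ l := by
      have a1 := mul_le_mul_of_nonneg_left (pow_gap hjl' hk1) (by linarith : (0 : ℝ) ≤ j - i)
      have a2 : ((j : ℝ) - i) + 2 * ((l : ℝ) - j) ≤ ((j : ℝ) - i) * k := by nlinarith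
      nlinarith [mul_le_mul_of_nonneg_right a2 hKj.le]
    rw [e]
    refine (norm_sub_le _ _).trans ((add_le_add ((norm_add_le _ _).trans
      (add_le_add h'.2.2 h.2.2)) e1).trans ?_)
    nlinarith [mul_le_mul_of_nonneg_left e2 hΛ]

/-- a near node follows the node during its time window -/
theorem Nr.ps_close {k : ℕ} (hk : 1 ≤ k) {Λ : ℝ} {i j : ℕ} {c c' : Nd n} (h : Nr k Λ i j c c')
    {t : ℝ} (ht : |t - tm k i c| ≤ (k : ℝ) ^ (2 * i)) :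
    ‖ps k j c' t - ps k i c t‖ ≤
      Λ * ((j : ℝ) - i) * (k : ℝ) ^ j + 2 * (Λ * ((j : ℝ) - i) * (k : ℝ) ^ i) := by
  have hKi : (0 : ℝ) < (k : ℝ) ^ i := by positivity
  have e : ps k j c' t - ps k i c t = (ps k j c' (tm k i c) - ctr k i c) -
      (2 * (t - tm k i c)) • (fq k j c' - fq k i c) := by
    rw [ps_sub k j c' t (tm k i c), ps_sub k i c t (tm k i c), ps_tm, smul_sub]; abel
  rw [e]
  refine (norm_sub_le _ _).trans (add_le_add h.2.2 ?_)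
  rw [norm_smul, Real.norm_eq_abs, abs_mul, abs_two]
  calc _ ≤ 2 * (k : ℝ) ^ (2 * i) * (Λ * ((j : ℝ) - i) / (k : ℝ) ^ i) := by
        gcongr
        exact h.2.1
    _ = _ := by rw [two_mul i, pow_add]; field_simp

theorem abs_box_tm {k : ℕ} (hk : 1 ≤ k) {Λ : ℝ} {i : ℕ} {c : Nd n} {z : V n × ℝ}
    (h : z ∈ box k Λ i c) : |z.2 - tm k i c| ≤ (k : ℝ) ^ (2 * i) := by
  have := box_tm hk h
  rw [abs_of_nonneg (by linarith [this.1])]
  linarith [this.2]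

theorem box_mono {k : ℕ} {Λ : ℝ} (hΛ : 0 ≤ Λ) {i j : ℕ} (hij : i ≤ j) (hk : 2 * j + 1 ≤ k)
    {c c' : Nd n} (h : Nr k Λ i j c c') : box k Λ i c ⊆ box k Λ j c' := by
  have hk1 : 1 ≤ k := by omega
  rcases hij.eq_or_lt with rfl | hij'
  · rw [h.eq hk1]
  intro z hz
  refine ⟨by rw [win_eq_div k hij, hz.1, h.1, Nat.cast_pow], ?_⟩
  have hkl : 2 * (j : ℝ) + 1 ≤ k := by exact_mod_cast hk
  have h1 : (i : ℝ) + 1 ≤ j := by exact_mod_cast hij'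
  have h0 : (0 : ℝ) ≤ i := Nat.cast_nonneg _
  have hKi : (0 : ℝ) < (k : ℝ) ^ i := by positivity
  have e1 := h.ps_close hk1 (abs_box_tm hk1 hz)
  rw [norm_sub_rev] at e1
  have e2 : ((i : ℝ) + 1) * (k : ℝ) ^ i + 2 * (((j : ℝ) - i) * (k : ℝ) ^ i) ≤
      ((i : ℝ) + 1) * (k : ℝ) ^ j := by
    have a1 := mul_le_mul_of_nonneg_left (pow_gap hij' hk1) (by linarith : (0 : ℝ) ≤ i + 1)
    have a2 : ((i : ℝ) + 1) + 2 * ((j : ℝ) - i) ≤ ((i : ℝ) + 1) * k := by nlinarith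
    nlinarith [mul_le_mul_of_nonneg_right a2 hKi.le]
  refine (norm_sub_le_norm_sub_add_norm_sub _ (ps k i c z.2) _).trans
    ((add_le_add hz.2 e1).trans ?_)
  nlinarith [mul_le_mul_of_nonneg_left e2 hΛ]

theorem Tw.Std.Λ_ge {T : Tw n M} (h : T.Std) :
    100 ≤ T.Λ ∧ 100 * ((n : ℝ) + 1) ≤ T.Λ ∧ 100 * ((M : ℝ) + 1) ≤ T.Λ ∧ T.Λ ≤ T.k := by
  have hn : (0 : ℝ) ≤ n := Nat.cast_nonneg _
  have hM : (0 : ℝ) ≤ M := Nat.cast_nonneg _
  have h1 := h.1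
  have h2 := mul_nonneg hn hM
  refine ⟨by nlinarith, by nlinarith, by nlinarith, le_trans ?_ h.2⟩
  exact le_self_pow₀ (by nlinarith) (by norm_num)

theorem Tw.Std.k_ge {T : Tw n M} (h : T.Std) : 2 * M + 2 ≤ T.k := by
  obtain ⟨-, -, h1, h2⟩ := h.Λ_ge
  have hM : (0 : ℝ) ≤ M := Nat.cast_nonneg _
  have : 2 * (M : ℝ) + 2 ≤ T.k := by linarith
  exact_mod_cast this

theorem Tw.mem_nr (T : Tw n M) {i j : ℕ} {c c' : Nd n} :
    c' ∈ T.nr i j c ↔ c' ∈ T.al j ∧ Nr T.k T.Λ i j c c' := by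
  simp [Tw.nr, nrF]

theorem Tw.mem_nS (T : Tw n M) {i j : ℕ} {N : Finset (Nd n)} {c' : Nd n} :
    c' ∈ T.nS i j N ↔ c' ∈ T.al j ∧ ∃ c ∈ N, Nr T.k T.Λ i j c c' := by
  simp only [Tw.nS, nrG, mem_filter]

theorem Tw.nr_nonempty (T : Tw n M) {i j : ℕ} (hij : i ≤ j) (hj : j ≤ M) {c : Nd n}
    (hc : c ∈ T.al i) : (T.nr i j c).Nonempty := by
  have := (T.mm1 i j).trans (T.mmc i j hij hj c hc).1
  exact card_pos.1 (by exact_mod_cast this)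

theorem Tw.al_nonempty (T : Tw n M) {i : ℕ} (hi : i ≤ M) : (T.al i).Nonempty := by
  obtain ⟨c, hc⟩ := T.ne
  obtain ⟨c', hc'⟩ := T.nr_nonempty (Nat.zero_le i) hi hc
  exact ⟨c', (T.mem_nr.1 hc').1⟩

/-- from a multiplicative to a logarithmic inequality -/
theorem Tw.lg_le (T : Tw n M) (hk : 2 ≤ T.k) {x y K : ℝ} {e : ℕ} (hx : 0 < x) (hK0 : 0 ≤ K)
    (hK : K ≤ T.k) (h : x ≤ K * (T.k : ℝ) ^ e * y) : T.lg x ≤ T.lg y + e + 1 := by
  have hk1 : (1 : ℝ) < T.k := by exact_mod_cast hk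
  have hy : 0 < y := by
    by_contra hy
    exact absurd (hx.trans_le h) (not_lt.2 (mul_nonpos_of_nonneg_of_nonpos (by positivity) (not_lt.1 hy)))
  have h1 : x ≤ y * (T.k : ℝ) ^ (e + 1) := by
    refine h.trans ?_
    rw [pow_succ', mul_comm y]
    gcongr
  refine (Real.logb_le_logb_of_le hk1 hx h1).trans_eq ?_
  rw [Real.logb_mul hy.ne' (by positivity), Real.logb_pow, Real.logb_self_eq_one hk1, Tw.lg]
  push_cast; ring

end Crest.Agent.N76.L
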