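import Crest.Agent.N76.L.Tight

/-! # Row 76, Part I: refined decoupling `DEC` and the abstract sparse gain `SGa`
(pure real arithmetic on the interfaces `Bas1`, `Bas2`, `CoreP`). -/

set_option autoImplicit false

open Finset

namespace Crest.Agent.N76.L

variable {n M : ℕ}

theorem q_nonneg (κ : ℕ) : (0 : ℝ) ≤ (κ : ℝ) / (κ + 2) := by positivity

theorem q_le_one (κ : ℕ) : (κ : ℝ) / (κ + 2) ≤ 1 := by
  rw [div_le_one (by positivity)]; linarith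

theorem q_mono {κ κ' : ℕ} (h : κ' ≤ κ) : (κ' : ℝ) / (κ' + 2) ≤ (κ : ℝ) / (κ + 2) := by
  have h1 : (κ' : ℝ) ≤ κ := by exact_mod_cast h
  rw [div_le_div_iff₀ (by positivity) (by positivity)]; nlinarith

/-- subadditivity of the defect -/
theorem g_sub {c : ℝ} {T : Tw n M} (h : Bas1 c T) (κ : ℕ) {i j l : ℕ} (hij : i ≤ j) (hjl : j ≤ l)
    (hl : l ≤ M) {N : Finset (Nd n)} (hN : N ⊆ T.al i) (hne : N.Nonempty) :
    T.g κ i l N ≤ T.g κ i j N + T.g κ j l (T.nS i j N) + c := by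
  have hc := h.c_nonneg
  have h1 := h.m_sup i j l hij hjl hl
  have hne' := h.nS_ne i j N hij (hjl.trans hl) hN hne
  have h2 : T.C (T.nS j l (T.nS i j N)) ≤ T.C (T.nS i l N) :=
    h.C_mono _ _ (h.nS_ne j l _ hjl hl (h.nS_sub i j N) hne') (h.nS_comp i j l N hij hjl hl)
  have hq0 := q_nonneg κ
  have hq1 := q_le_one κ
  unfold Tw.g
  generalize (κ : ℝ) / (κ + 2) = q at *
  have h3 := mul_le_mul_of_nonneg_left h1 (sub_nonneg.2 hq1)
  have h4 := mul_le_mul_of_nonneg_left h2 hq0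
  have h5 := mul_nonneg hq0 hc
  nlinarith

/-- the defect is at most `m + 2c` -/
theorem g_le_m {c : ℝ} {T : Tw n M} (h : Bas1 c T) (κ : ℕ) {i j : ℕ} (hij : i ≤ j)
    (hj : j ≤ M) {N : Finset (Nd n)} (hN : N ⊆ T.al i) (hne : N.Nonempty) :
    T.g κ i j N ≤ T.m i j + 2 * c := by
  have hc := h.c_nonneg
  have h1 := h.A_le i j hij hj
  have h2 := h.C_br i j N hij hj hN hne
  have hq0 := q_nonneg κ
  have hq1 := q_le_one κ
  unfold Tw.g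
  generalize (κ : ℝ) / (κ + 2) = q at *
  have h4 := mul_le_mul_of_nonneg_left h2 hq0
  have h5 := mul_le_mul_of_nonneg_right hq1 hc
  nlinarith

/-- the trivial bound -/
theorem g_triv {c : ℝ} {T : Tw n M} (h : Bas1 c T) (κ : ℕ) {i j : ℕ} (hij : i ≤ j)
    (hj : j ≤ M) {N : Finset (Nd n)} (hN : N ⊆ T.al i) (hne : N.Nonempty) :
    T.g κ i j N ≤ (n : ℝ) * ((j : ℝ) - i) + 3 * c := by
  have h1 := g_le_m h κ hij hj hN hne
  have h2 := h.m_nar i j n hij hj le_rfl (h.nar_n i j)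
  linarith

/-- the defect is almost decreasing in `κ` -/
theorem g_anti {c : ℝ} {T : Tw n M} (h : Bas1 c T) {κ κ' : ℕ} (hκ : κ' ≤ κ) {i j : ℕ} (hij : i ≤ j)
    (hj : j ≤ M) {N : Finset (Nd n)} (hN : N ⊆ T.al i) (hne : N.Nonempty) :
    T.g κ i j N ≤ T.g κ' i j N + c := by
  have hc := h.c_nonneg
  have h2 := h.C_br i j N hij hj hN hne
  have hq0 := q_nonneg κ'
  have hq1 := q_le_one κ
  have hq := q_mono hκ
  unfold Tw.g
  generalize (κ : ℝ) / (κ + 2) = q at *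
  generalize (κ' : ℝ) / (κ' + 2) = q' at *
  have h4 := mul_le_mul_of_nonneg_left h2 (sub_nonneg.2 hq)
  have h5 : (q - q') * c ≤ c := by nlinarith
  nlinarith

theorem g_step {c : ℝ} {T : Tw n M} (h : Bas1 c T) (κ : ℕ) {i j : ℕ} (hij : i ≤ j)
    (hj : j ≤ M) {N : Finset (Nd n)} (hN : N ⊆ T.al i) (hne : N.Nonempty) :
    T.g κ i j N ≤ T.g (κ - 1) i j N + c :=
  g_anti h (Nat.sub_le κ 1) hij hj hN hne

/-- the potential used in the doubling argument -/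
noncomputable def Ypot (T : Tw n M) (κ b b' a : ℕ) (N : Finset (Nd n)) : ℝ :=
  T.A (b + a) + T.m b' (b + a) - T.A b +
    (κ : ℝ) / (κ + 2) * (T.cc b a N + ((n : ℝ) + 1) * a - T.C N)

theorem Ypot_ge {c₁ c₂ : ℝ} {T : Tw n M} (h : Bas1 c₁ T) (h' : Bas2 c₂ T) (hc₂ : 0 ≤ c₂)
    (κ : ℕ) {b b' a : ℕ} (hb : b + a ≤ M) {N : Finset (Nd n)} (hne : N.Nonempty) :
    -(2 * n * a + 3 * c₁ + c₂) ≤ Ypot T κ b b' a N := by
  have h1 := h.A_le b (b + a) (Nat.le_add_right _ _) hb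
  have h2 := h.m_nar b (b + a) n (Nat.le_add_right _ _) hb le_rfl (h.nar_n _ _)
  have h3 := h.m_nonneg b' (b + a)
  have h4 := h'.cc_lip b 0 a N (Nat.zero_le _) hne
  rw [h'.cc_zero] at h4
  have hq0 := q_nonneg κ
  have hq1 := q_le_one κ
  unfold Ypot
  generalize (κ : ℝ) / (κ + 2) = q at *
  push_cast at h2 h4
  have h5 := mul_le_mul_of_nonneg_left h4 hq0
  have h6 := mul_le_mul_of_nonneg_right hq1 hc₂
  nlinarith

theorem Ypot_le {c₁ c₂ : ℝ} {T : Tw n M} (h : Bas1 c₁ T) (h' : Bas2 c₂ T) (hc₂ : 0 ≤ c₂)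
    (κ : ℕ) {b b' a : ℕ} (hb' : b ≤ b') (hb'a : b' ≤ b + a) (hb : b + a ≤ M)
    {N : Finset (Nd n)} (hN : N ⊆ T.al b) (hne : N.Nonempty)
    (hg : -c₁ ≤ T.g κ b (b + a) N) :
    Ypot T κ b b' a N ≤ (2 * n + 1) * a + 3 * c₁ + c₂ := by
  have hc := h.c_nonneg
  have h1 := h.C_br b (b + a) N (Nat.le_add_right _ _) hb hN hne
  have h2 := h.m_nar b' (b + a) n hb'a hb le_rfl (h.nar_n _ _)
  have h3 := h.m_nonneg b (b + a)
  have h4 := h'.cc_anti b 0 a N (Nat.zero_le _) hne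
  rw [h'.cc_zero] at h4
  have hq0 := q_nonneg κ
  have hq1 := q_le_one κ
  have hbb : (b : ℝ) ≤ b' := by exact_mod_cast hb'
  have hn : (0 : ℝ) ≤ n := Nat.cast_nonneg _
  have ha : (0 : ℝ) ≤ a := Nat.cast_nonneg _
  unfold Tw.g at hg
  unfold Ypot
  generalize (κ : ℝ) / (κ + 2) = q at *
  push_cast at h1 h2 hg
  have h5 := mul_le_mul_of_nonneg_left h1 hq0
  have h6 := mul_le_mul_of_nonneg_right hq1 hc
  have h7 : q * (T.cc b a N + ((n : ℝ) + 1) * a - T.C N) ≤ ((n : ℝ) + 1) * a + c₂ := by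
    have h8 : q * (T.cc b a N + ((n : ℝ) + 1) * a - T.C N) ≤ q * (((n : ℝ) + 1) * a + c₂) :=
      mul_le_mul_of_nonneg_left (by linarith) hq0
    have h9 : q * (((n : ℝ) + 1) * a + c₂) ≤ 1 * (((n : ℝ) + 1) * a + c₂) :=
      mul_le_mul_of_nonneg_right hq1 (by positivity)
    linarith
  have h10 := mul_le_mul_of_nonneg_left hbb hn
  nlinarith

/-- the doubling inequality -/
theorem Ypot_dbl {c₁ c₂ c₃ : ℝ} {T : Tw n M} (h : Bas1 c₁ T) (h' : Bas2 c₂ T) (hc₂ : 0 ≤ c₂)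
    (h'' : CoreP c₃ T) (hc₃ : 0 ≤ c₃) {κ b m₀ a : ℕ} (hκ : 1 ≤ κ) (hκn : κ ≤ n) (hm : 1 ≤ m₀)
    (ha : n * m₀ + 2 ≤ a) (hb : b + (2 * a + 1) ≤ M) {N : Finset (Nd n)} (hN : N ⊆ T.al b)
    (hne : N.Nonempty) (hnar : ¬ T.Nar b (b + m₀) (κ - 1)) (hnar' : T.Nar b (b + (2 * a + 1)) κ) :
    2 * Ypot T κ b (b + (n * m₀ + 2)) a N + T.g κ b (b + a) N - (c₁ + c₂ + 2 * c₃ * m₀) ≤
      Ypot T κ b (b + (n * m₀ + 2)) (2 * a + 1) N := by
  have hc := h.c_nonneg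
  have hba : b + a ≤ M := by omega
  obtain ⟨h1, h2⟩ := (h'' κ b m₀ a (2 * a) N hκ hκn hm ha (by omega) le_rfl hba hN hne hnar).2
    (by omega) (by rwa [add_assoc]) _ rfl
  replace h2 := h2 rfl
  have h3 := h'.cc_lip b (2 * a) (2 * a + 1) N (Nat.le_succ _) hne
  have h4 := h.m_sup b (b + (n * m₀ + 2)) (b + a) (Nat.le_add_right _ _) (by omega) hba
  have h5 := h.m_nonneg b (b + (n * m₀ + 2))
  have hq0 := q_nonneg κ
  have hq1 := q_le_one κ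
  have hk : (1 : ℝ) ≤ κ := by exact_mod_cast hκ
  have hm0 : (0 : ℝ) ≤ m₀ := Nat.cast_nonneg _
  have e1 : (κ : ℝ) / (κ + 2) * (((κ : ℝ) + 1) / κ) * 2 = 1 + (κ : ℝ) / (κ + 2) := by
    field_simp; ring
  have e2 : (κ : ℝ) / (κ + 2) * (((κ : ℝ) + 1) / κ + 1 / κ) = 1 := by
    field_simp; ring
  have e3 : (κ : ℝ) / (κ + 2) * ((κ : ℝ) + 2) = κ := by field_simp
  rw [add_assoc b (2 * a) 1] at h1 h2
  unfold Ypot Tw.g
  push_cast at h1 h2 h3 ⊢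
  generalize T.m (b + (n * m₀ + 2)) (b + (2 * a + 1)) = m2 at *
  generalize T.m (b + (n * m₀ + 2)) (b + a) = m1 at *
  generalize T.A (b + (2 * a + 1)) = A2 at *
  generalize T.A (b + a) = A1 at *
  generalize T.cc b a N = k1 at *
  generalize T.cc b (2 * a) N = k2 at *
  generalize T.cc b (2 * a + 1) N = k3 at *
  generalize T.C (T.nS b (b + a) N) = Cs at *
  generalize T.m b (b + a) = m0 at *
  generalize T.m b (b + (n * m₀ + 2)) = m3 at *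
  obtain ⟨w, hw⟩ : ∃ w, w = (κ : ℝ) * (2 * (a : ℝ) - a) + m2 + A2 - A1 := ⟨_, rfl⟩
  rw [← hw] at h1 h2
  rw [div_eq_mul_one_div w (κ : ℝ)] at h2
  generalize ((κ : ℝ) + 1) / κ = r at *
  generalize 1 / (κ : ℝ) = s at *
  generalize (κ : ℝ) / (κ + 2) = q at *
  have i1 := mul_le_mul_of_nonneg_left h1 hq0
  have i2 := mul_le_mul_of_nonneg_left h2 hq0
  have i3 := mul_le_mul_of_nonneg_left h3 hq0
  have i4 := mul_le_mul_of_nonneg_left (show m1 - c₁ ≤ m0 by linarith) (sub_nonneg.2 hq1)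
  have i5 := mul_le_mul_of_nonneg_right hq1 hc₂
  have i6 := mul_le_mul_of_nonneg_right hq1 (mul_nonneg hc₃ hm0)
  have i7 := mul_nonneg hq0 hc
  have f1 : q * r * 2 * m1 = (1 + q) * m1 := by rw [e1]
  have f2 : q * (r + s) * w = w := by rw [e2, one_mul]
  have f3 : q * ((κ : ℝ) + 2) * a = κ * a := by rw [e3]
  linear_combination i1 + i2 + i3 + i4 + i5 + 2 * i6 + i7 - f1 + f2 - f3 + hw

/-- geometric block lengths -/
def blk (a₀ : ℕ) : ℕ → ℕ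
  | 0 => a₀
  | p + 1 => 2 * blk a₀ p + 1

theorem blk_mono (a₀ : ℕ) : Monotone (blk a₀) :=
  monotone_nat_of_le_succ fun p => by simp only [blk]; omega

/-- a good block exists -/
theorem exists_block {c₁ c₂ c₃ γ L : ℝ} {T : Tw n M} (h : Bas1 c₁ T) (h' : Bas2 c₂ T)
    (hc₂ : 0 ≤ c₂) (h'' : CoreP c₃ T) (hc₃ : 0 ≤ c₃) (hγ : 0 < γ) {κ m₀ a₀ P : ℕ} (hκ : 1 ≤ κ)
    (hκn : κ ≤ n) (hm : 1 ≤ m₀) (ha : n * m₀ + 2 ≤ a₀)
    (hd : ∀ i j N, i ≤ j → j ≤ M → N ⊆ T.al i → N.Nonempty → T.Nar i j (κ - 1) →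
      T.g (κ - 1) i j N ≤ γ / 2 * ((j : ℝ) - i) + L)
    (hm₀ : L + 2 * c₁ ≤ γ / 2 * m₀)
    (ha₀ : 2 * c₁ + c₂ + 2 * c₃ * m₀ + γ / 2 ≤ γ / 2 * a₀)
    (hP : 2 * (2 * n + 1 + 3 * c₁ + c₂) < P * (γ / 4))
    {b j : ℕ} (hbj : b + blk a₀ P ≤ j) (hj : j ≤ M) {N : Finset (Nd n)} (hN : N ⊆ T.al b)
    (hne : N.Nonempty) (hnar : T.Nar b j κ) :
    ∃ a, 1 ≤ a ∧ a ≤ blk a₀ P ∧ T.g κ b (b + a) N ≤ γ * a - c₁ := by
  have hc := h.c_nonneg
  have hn1 : 1 ≤ n := hκ.trans hκn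
  have hm₀a : m₀ ≤ a₀ := by nlinarith
  have h0P : a₀ ≤ blk a₀ P := blk_mono a₀ (Nat.zero_le P)
  by_cases hb : T.Nar b (b + m₀) (κ - 1)
  · refine ⟨m₀, hm, hm₀a.trans h0P, ?_⟩
    have h1 := g_step h κ (Nat.le_add_right b m₀) (by omega) hN hne
    have h2 := hd b (b + m₀) N (Nat.le_add_right b m₀) (by omega) hN hne hb
    push_cast at h2
    linarith
  by_contra hcon
  push Not at hcon
  have hle : ∀ p ≤ P, a₀ ≤ blk a₀ p ∧ blk a₀ p ≤ blk a₀ P := fun p hp =>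
    ⟨blk_mono a₀ (Nat.zero_le p), blk_mono a₀ hp⟩
  have hg : ∀ p ≤ P, γ * (blk a₀ p : ℕ) - c₁ < T.g κ b (b + blk a₀ p) N := fun p hp =>
    hcon _ (by have := hle p hp; omega) (hle p hp).2
  set C₀ : ℝ := 2 * n + 1 + 3 * c₁ + c₂ with hC₀
  have hn0 : (0 : ℝ) ≤ n := Nat.cast_nonneg _
  have key : ∀ p ≤ P, (-C₀ + p * (γ / 4)) * ((blk a₀ p : ℕ) + 1) ≤
      Ypot T κ b (b + (n * m₀ + 2)) (blk a₀ p) N := by
    intro p
    induction p with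
    | zero =>
      intro _
      have h1 := Ypot_ge h h' hc₂ κ (b := b) (b' := b + (n * m₀ + 2)) (a := blk a₀ 0)
        (by have := hle 0 (Nat.zero_le _); omega) hne
      have h2 : (0 : ℝ) ≤ (blk a₀ 0 : ℕ) := Nat.cast_nonneg _
      have h3 := mul_nonneg h2 hc
      have h4 := mul_nonneg h2 hc₂
      push_cast
      rw [hC₀]
      nlinarith
    | succ p ih =>
      intro hp
      have h1 := ih (by omega)
      have h2 := hle p (by omega)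
      have h3 := hle (p + 1) hp
      have h4 := hg p (by omega)
      simp only [blk] at h3 ⊢
      have h5 := Ypot_dbl h h' hc₂ h'' hc₃ hκ hκn hm (ha.trans h2.1) (by omega) hN hne hb
        (h.nar_sub b b (b + (2 * blk a₀ p + 1)) j κ le_rfl (Nat.le_add_right _ _) (by omega) hj hnar)
      have h6 : (a₀ : ℝ) ≤ (blk a₀ p : ℕ) := by exact_mod_cast h2.1
      have h7 := mul_le_mul_of_nonneg_left h6 hγ.le
      push_cast
      nlinarith
  have h1 := key P le_rfl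
  have h2 : (0 : ℝ) ≤ (blk a₀ P : ℕ) := Nat.cast_nonneg _
  have h3 := Ypot_le h h' hc₂ κ (b := b) (b' := b + (n * m₀ + 2)) (a := blk a₀ P)
    (Nat.le_add_right _ _) (by omega) (by omega) hN hne
    (by have := hg P le_rfl; have := mul_nonneg hγ.le h2; linarith)
  have h4 := mul_nonneg h2 hc
  have h5 := mul_nonneg h2 hc₂
  have h6 : C₀ * ((blk a₀ P : ℕ) + 1) < (-C₀ + P * (γ / 4)) * ((blk a₀ P : ℕ) + 1) :=
    mul_lt_mul_of_pos_right (by linarith) (by linarith)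
  rw [hC₀] at h6
  nlinarith

/-- summing the blocks -/
theorem g_le_of_block {c γ : ℝ} {T : Tw n M} (h : Bas1 c T) (hγ : 0 ≤ γ) {κ B : ℕ}
    (hb : ∀ b j N, b + B ≤ j → j ≤ M → N ⊆ T.al b → N.Nonempty → T.Nar b j κ →
      ∃ a, 1 ≤ a ∧ a ≤ B ∧ T.g κ b (b + a) N ≤ γ * a - c) :
    ∀ (d b j : ℕ) (N : Finset (Nd n)), j = b + d → j ≤ M → N ⊆ T.al b → N.Nonempty →
      T.Nar b j κ → T.g κ b j N ≤ γ * ((j : ℝ) - b) + (n * B + 3 * c) := by
  intro d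
  induction d using Nat.strong_induction_on with
  | _ d ih =>
    intro b j N hj hjM hN hne hnar
    have hn0 : (0 : ℝ) ≤ n := Nat.cast_nonneg _
    have hd : (j : ℝ) - b = d := by rw [hj]; push_cast; ring
    by_cases hB : d ≤ B
    · have h1 := g_triv h κ (show b ≤ j by omega) hjM hN hne
      have h2 : (d : ℝ) ≤ B := by exact_mod_cast hB
      have h3 := mul_le_mul_of_nonneg_left h2 hn0
      have h4 : 0 ≤ γ * d := mul_nonneg hγ (Nat.cast_nonneg _)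
      rw [hd] at h1 ⊢
      linarith
    · obtain ⟨a, ha1, haB, hg⟩ := hb b j N (by omega) hjM hN hne hnar
      have h1 := g_sub h κ (Nat.le_add_right b a) (show b + a ≤ j by omega) hjM hN hne
      have h2 := ih (d - a) (by omega) (b + a) j (T.nS b (b + a) N) (by omega) hjM (h.nS_sub _ _ _)
        (h.nS_ne _ _ _ (Nat.le_add_right _ _) (by omega) hN hne)
        (h.nar_sub b (b + a) j j κ (Nat.le_add_right _ _) (by omega) le_rfl hjM hnar)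
      push_cast at h2
      linarith

theorem dec_zero (h1 : BasS1 n) : DEC n 0 := by
  obtain ⟨c, -, h⟩ := h1
  intro γ hγ
  refine ⟨3 * c, fun M => (h M).mono fun T hT i j N hij hj hN hne hnar => ?_⟩
  have h1 := g_le_m hT 0 hij hj hN hne
  have h2 := hT.m_nar i j 0 hij hj (Nat.zero_le _) hnar
  have h3 : (i : ℝ) ≤ j := by exact_mod_cast hij
  have h4 := mul_nonneg hγ.le (sub_nonneg.2 h3)
  push_cast at h2
  linarith

theorem dec_succ (h1 : BasS1 n) (h2 : BasS2 n) (hc : CoreS n) {κ : ℕ} (hκ : 1 ≤ κ) (hκn : κ ≤ n)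
    (hd : DEC n (κ - 1)) : DEC n κ := by
  obtain ⟨c₁, hc₁, h1⟩ := h1
  obtain ⟨c₂, hc₂, h2⟩ := h2
  obtain ⟨c₃, hc₃, h3⟩ := hc
  intro γ hγ
  obtain ⟨L, hL⟩ := hd (γ / 2) (by positivity)
  obtain ⟨m₁, hm₁⟩ := exists_nat_ge ((L + 2 * c₁) / (γ / 2))
  obtain ⟨m₀, hm, hm₀⟩ : ∃ m₀ : ℕ, 1 ≤ m₀ ∧ L + 2 * c₁ ≤ γ / 2 * m₀ := by
    refine ⟨m₁ + 1, Nat.le_add_left _ _, ?_⟩
    rw [div_le_iff₀ (by positivity)] at hm₁
    push_cast
    nlinarith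
  obtain ⟨a₁, ha₁⟩ := exists_nat_ge ((2 * c₁ + c₂ + 2 * c₃ * m₀ + γ / 2) / (γ / 2))
  obtain ⟨a₀, ha, ha₀⟩ : ∃ a₀ : ℕ, n * m₀ + 2 ≤ a₀ ∧
      2 * c₁ + c₂ + 2 * c₃ * m₀ + γ / 2 ≤ γ / 2 * a₀ := by
    refine ⟨a₁ + (n * m₀ + 2), Nat.le_add_left _ _, ?_⟩
    rw [div_le_iff₀ (by positivity)] at ha₁
    have : (0 : ℝ) ≤ ((n * m₀ + 2 : ℕ) : ℝ) := Nat.cast_nonneg _
    rw [Nat.cast_add]
    nlinarith
  obtain ⟨P, hP⟩ := exists_nat_gt (2 * (2 * n + 1 + 3 * c₁ + c₂) / (γ / 4))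
  rw [div_lt_iff₀ (by positivity)] at hP
  refine ⟨n * blk a₀ P + 3 * c₁, fun M => (((h1 M).and (h2 M)).and ((h3 M).and (hL M))).mono ?_⟩
  rintro T ⟨⟨hT1, hT2⟩, hT3, hT4⟩ i j N hij hj hN hne hnar
  exact g_le_of_block hT1 hγ.le (fun b j N hbj hj hN hne hnar =>
    exists_block hT1 hT2 (by linarith) hT3 (by linarith) hγ hκ hκn hm ha hT4 hm₀ ha₀ hP hbj hj hN
      hne hnar) (j - i) i j N (by omega) hj hN hne hnar

/-- **refined decoupling** -/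
theorem dec_of (h1 : BasS1 n) (h2 : BasS2 n) (hc : CoreS n) : ∀ κ ≤ n, DEC n κ := by
  intro κ
  induction κ with
  | zero => exact fun _ => dec_zero h1
  | succ κ ih => exact fun hκ => dec_succ h1 h2 hc (Nat.le_add_left _ _) hκ (ih (by omega))

/-- **abstract sparse gain** -/
theorem sga_of (h1 : BasS1 n) (hd : DEC n n) : SGa n := by
  obtain ⟨c, hc, h1⟩ := h1
  intro ε hε
  obtain ⟨L, hL⟩ := hd (ε / 2) (by positivity)
  obtain ⟨M₀, hM₀⟩ := exists_nat_ge ((L + 3 * c) / (ε / 2))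
  rw [div_le_iff₀ (by positivity)] at hM₀
  refine ⟨M₀, fun M hM => ((h1 M).and (hL M)).mono ?_⟩
  rintro T ⟨hT, hD⟩ j hj
  have hM' : (M₀ : ℝ) ≤ M := by exact_mod_cast hM
  have hne := hT.nS_ne 0 j _ (Nat.zero_le _) hj subset_rfl T.ne
  have hsub := hT.nS_sub 0 j (T.al 0)
  have a1 := hT.A_le 0 j (Nat.zero_le _) hj
  have a2 := hT.W1 0 j _ (Nat.zero_le _) hj subset_rfl T.ne
  have a3 := hD j M _ hj le_rfl hsub hne (hT.nar_n _ _)
  have a4 := hT.top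
  have a5 := hT.C_mono _ _ (hT.nS_ne j M _ hj le_rfl hsub hne) (hT.nS_sub j M _)
  have a6 := hT.W1 j M _ hj le_rfl hsub hne
  have hq0 := q_nonneg n
  have hq1 := q_le_one n
  have e1 : (n : ℝ) / (n + 2) * ((n : ℝ) + 2) = n := by field_simp
  have e2 : 2 / ((n : ℝ) + 2) = 1 - (n : ℝ) / (n + 2) := by field_simp; ring
  have hj0 : (0 : ℝ) ≤ j := Nat.cast_nonneg _
  unfold Tw.g at a3
  unfold Tw.val
  rw [e2]
  generalize (n : ℝ) / (n + 2) = q at *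
  have i1 := mul_le_mul_of_nonneg_left a6 (sub_nonneg.2 hq1)
  have i2 := mul_nonneg hq0 (zero_le_one.trans hc)
  have i3 := mul_nonneg hε.le hj0
  have i4 := mul_le_mul_of_nonneg_left hM' hε.le
  have f1 : q * ((n : ℝ) + 2) * ((M : ℝ) - j) = n * ((M : ℝ) - j) := by rw [e1]
  linear_combination a1 + a2 + a3 + a4 + a5 + i1 + i2 + (1 / 2) * i3 + (1 / 2) * i4 + hM₀ + f1

end Crest.Agent.N76.L
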