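import Crest.Agent.N76.G.Defs
import Crest.Agent.N76.L.Geo

/-! # Row 76, Part I (helper15): the abstract tower.

Levels `i = 0 … M`, `r i = k ^ i`.  A node `c = (s, q, p)` of level `i` is the tile of lines with
frequency in the cube `p / r i`, and position in the cube `r i * q` at time `s * (r i)²`.
`Λ` is the slack (`Λ ^ N ≤ k` for a large `N`), so that all `log_k` inequalities have error `O(1)`. -/

set_option autoImplicit false

open Finset Metric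
open scoped RealInnerProductSpace

namespace Crest.Agent.N76.L

open Crest.Agent.N76.Red (V)
open Crest.Agent.N76.G

/-- nodes: (time window, position index, frequency index) -/
abbrev Nd (n : ℕ) := ℤ × (Fin n → ℤ) × (Fin n → ℤ)

variable {n : ℕ}

/-- an integer vector as a point -/
noncomputable def iv (p : Fin n → ℤ) : V n := WithLp.toLp 2 fun l => (p l : ℝ)

/-- integer part -/
noncomputable def fl (x : V n) : Fin n → ℤ := fun l => ⌊x l⌋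

/-- frequency of a node -/
noncomputable def fq (k i : ℕ) (c : Nd n) : V n := ((k : ℝ) ^ i)⁻¹ • iv c.2.2

/-- initial time of a node -/
noncomputable def tm (k i : ℕ) (c : Nd n) : ℝ := (c.1 : ℝ) * (k : ℝ) ^ (2 * i)

/-- position of a node at its initial time -/
noncomputable def ctr (k i : ℕ) (c : Nd n) : V n := (k : ℝ) ^ i • iv c.2.1

/-- position of (the line of) a node at time `t` -/
noncomputable def ps (k i : ℕ) (c : Nd n) (t : ℝ) : V n :=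
  ctr k i c - (2 * (t - tm k i c)) • fq k i c

/-- the tile of a node (volume one) -/
def tile (k i : ℕ) (c : Nd n) : Set (Ph n) :=
  {β | fl (((k : ℝ) ^ i)⁻¹ • pos (tm k i c) β) = c.2.1 ∧ fl ((k : ℝ) ^ i • β.2) = c.2.2}

/-- the level `j` node `c'` is near the level `i` node `c` (`i ≤ j`) -/
def Nr (k : ℕ) (Λ : ℝ) (i j : ℕ) (c c' : Nd n) : Prop :=
  c'.1 = c.1 / (k : ℤ) ^ (2 * (j - i)) ∧
    ‖fq k j c' - fq k i c‖ ≤ Λ * ((j : ℝ) - i) / (k : ℝ) ^ i ∧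
    ‖ps k j c' (tm k i c) - ctr k i c‖ ≤ Λ * ((j : ℝ) - i) * (k : ℝ) ^ j

/-- the space-time tube of a node -/
def box (k : ℕ) (Λ : ℝ) (i : ℕ) (c : Nd n) : Set (V n × ℝ) :=
  {z | win k i z.2 = c.1 ∧ ‖z.1 - ps k i c z.2‖ ≤ Λ * ((i : ℝ) + 1) * (k : ℝ) ^ i}

/-- the cell (same cap, width `k^(b+a)`, duration `k^(2b+a)`) of a level `b` node -/
noncomputable def cell (k b a : ℕ) (c : Nd n) : Nd n :=
  (c.1 / (k : ℤ) ^ a,
    fl (((k : ℝ) ^ (b + a))⁻¹ • ps k b c (((c.1 / (k : ℤ) ^ a : ℤ) : ℝ) * (k : ℝ) ^ (2 * b + a))),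
    c.2.2)

open Classical in
/-- nodes of `S` near `c` -/
noncomputable def nrF (k : ℕ) (Λ : ℝ) (i j : ℕ) (S : Finset (Nd n)) (c : Nd n) : Finset (Nd n) :=
  S.filter fun c' => Nr k Λ i j c c'

open Classical in
/-- nodes of `S` near some node of `N` -/
noncomputable def nrG (k : ℕ) (Λ : ℝ) (i j : ℕ) (S N : Finset (Nd n)) : Finset (Nd n) :=
  S.filter fun c' => ∃ c ∈ N, Nr k Λ i j c c'

/-- `ζ` is within `w` of the `κ`-plane through `ζ₀` spanned by `O l`, `l < κ` -/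
def Slab (O : OrthonormalBasis (Fin n) ℝ (V n)) (κ : ℕ) (ζ₀ : V n) (w : ℝ) (ζ : V n) : Prop :=
  ∀ l : Fin n, κ ≤ (l : ℕ) → |⟪O l, ζ - ζ₀⟫| ≤ w

/-- the frequencies of the nodes of `S` near `c` are close to a `κ`-plane -/
def NarAt (k : ℕ) (Λ : ℝ) (i j : ℕ) (S : Finset (Nd n)) (κ : ℕ) (c : Nd n) : Prop :=
  ∃ (O : OrthonormalBasis (Fin n) ℝ (V n)) (ζ₀ : V n),
    ∀ c' ∈ S, Nr k Λ i j c c' → Slab O κ ζ₀ (Λ ^ 2 / (k : ℝ) ^ j) (fq k j c')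

/-- **The abstract tower.** -/
structure Tw (n M : ℕ) where
  k : ℕ
  Λ : ℝ
  X : Finset (V n × ℝ)
  w : V n × ℝ → ℝ
  s₀ : ℤ
  al : ℕ → Finset (Nd n)
  a : ℕ → ℝ
  ν : ℕ → ℝ
  mm : ℕ → ℕ → ℝ
  w0 : ∀ z ∈ X, 0 ≤ w z
  top : ∀ c ∈ al M, c.1 = s₀
  ne : (al 0).Nonempty
  a0 : ∀ i, 0 < a i
  ν0 : ∀ i, 0 < ν i
  mm1 : ∀ i j, 1 ≤ mm i j
  fqb : ∀ i ≤ M, ∀ c ∈ al i, ‖fq k i c‖ ≤ Λ ^ 2
  mmc : ∀ i j, i ≤ j → j ≤ M → ∀ c ∈ al i,
    mm i j ≤ (nrF k Λ i j (al j) c).card ∧ ((nrF k Λ i j (al j) c).card : ℝ) ≤ Λ * mm i j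
  νc : ∀ i ≤ M, ∀ c ∈ al i,
    ν i ≤ ms X id w (box k Λ i c) ∧ ms X id w (box k Λ i c) ≤ Λ * ν i
  narc : ∀ i j κ, i ≤ j → j ≤ M → ∀ c ∈ al i, ∀ c' ∈ al i,
    NarAt k Λ i j (al j) κ c → NarAt k Λ i j (al j) κ c'
  e1 : ∀ i < M, ∀ c ∈ al i,
    a i ≤ Λ ^ 2 * ((nrF k Λ i (i + 1) (al (i + 1)) c).card : ℝ) ^ 2 * a (i + 1)
  e2 : ∀ i < M, ∀ S ⊆ al i, ∀ (s : ℤ) (κ : ℕ) (O : OrthonormalBasis (Fin n) ℝ (V n))
    (y₀ ζ₀ : V n) (th wd : ℝ), (∀ c ∈ S, c.1 = s) → (k : ℝ) ^ i ≤ th → 1 / (k : ℝ) ^ (i + 1) ≤ wd →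
    (∀ c ∈ S, Slab O κ y₀ th (ctr k i c)) →
    (∀ c' ∈ nrG k Λ i (i + 1) (al (i + 1)) S, Slab O κ ζ₀ wd (fq k (i + 1) c')) →
    (S.card : ℝ) * a i ≤ Λ ^ 2 * (Λ ^ 2 * th * wd) ^ (n - κ) * (k : ℝ) ^ n *
      (nrG k Λ i (i + 1) (al (i + 1)) S).card * a (i + 1)
  e3 : ((al M).card : ℝ) * a M * ((k : ℝ) ^ M) ^ n ≤ 1

namespace Tw

variable {M : ℕ} (T : Tw n M)

/-- alive nodes of level `j` near `c` -/
noncomputable def nr (i j : ℕ) (c : Nd n) : Finset (Nd n) := nrF T.k T.Λ i j (T.al j) c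

/-- alive nodes of level `j` near a node of `N` -/
noncomputable def nS (i j : ℕ) (N : Finset (Nd n)) : Finset (Nd n) := nrG T.k T.Λ i j (T.al j) N

/-- `κ`-narrow from level `i` to level `j` -/
def Nar (i j κ : ℕ) : Prop := ∀ c ∈ T.al i, NarAt T.k T.Λ i j (T.al j) κ c

/-- `log_k` -/
noncomputable def lg (x : ℝ) : ℝ := Real.logb T.k x

noncomputable def A (i : ℕ) : ℝ := T.lg (T.a i)
noncomputable def nu (i : ℕ) : ℝ := T.lg (T.ν i)
noncomputable def m (i j : ℕ) : ℝ := T.lg (T.mm i j)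
noncomputable def C (N : Finset (Nd n)) : ℝ := T.lg N.card
noncomputable def cc (b a : ℕ) (N : Finset (Nd n)) : ℝ := T.lg (N.image (cell T.k b a)).card

/-- log of the value of the tower -/
noncomputable def val : ℝ := T.A 0 + T.nu 0 + T.C (T.al 0)

/-- the refined decoupling defect, `q = κ / (κ + 2)` -/
noncomputable def g (κ i j : ℕ) (N : Finset (Nd n)) : ℝ :=
  T.A i - T.A j - T.m i j -
    (κ : ℝ) / (κ + 2) * (((n : ℝ) + 2) * ((j : ℝ) - i) - (T.C N + T.m i j - T.C (T.nS i j N)))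

/-- the ball condition -/
def Ball : Prop :=
  ∀ (u : V n × ℝ) (r : ℝ), 1 ≤ r → ms T.X id T.w (closedBall u r) ≤ T.Λ * r ^ n

/-- size conditions under which the elementary geometric lemmas hold -/
def Std : Prop := 100 * ((n : ℝ) + 1) * ((M : ℝ) + 1) ≤ T.Λ ∧ T.Λ ^ 10 ≤ T.k

end Tw

/-- `P` holds for all towers with large slack and much larger base -/
def Good (n M : ℕ) (P : Tw n M → Prop) : Prop :=
  ∃ (N : ℕ) (C : ℝ), ∀ T : Tw n M, C ≤ T.Λ → T.Λ ^ N ≤ T.k → P T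

theorem Good.mono {M : ℕ} {P Q : Tw n M → Prop} (h : Good n M P) (hPQ : ∀ T, P T → Q T) :
    Good n M Q :=
  let ⟨N, C, h⟩ := h
  ⟨N, C, fun T h1 h2 => hPQ T (h T h1 h2)⟩

theorem Good.and {M : ℕ} {P Q : Tw n M → Prop} (h : Good n M P) (h' : Good n M Q) :
    Good n M fun T => P T ∧ Q T := by
  obtain ⟨N, C, h⟩ := h
  obtain ⟨N', C', h'⟩ := h'
  refine ⟨max N N', max 1 (max C C'), fun T h1 h2 => ?_⟩
  have h0 : 1 ≤ T.Λ := (le_max_left _ _).trans h1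
  exact ⟨h T ((le_max_left _ _).trans ((le_max_right _ _).trans h1))
      ((pow_le_pow_right₀ h0 (le_max_left _ _)).trans h2),
    h' T ((le_max_right _ _).trans ((le_max_right _ _).trans h1))
      ((pow_le_pow_right₀ h0 (le_max_right _ _)).trans h2)⟩

theorem good_true {M : ℕ} {P : Tw n M → Prop} (h : ∀ T, P T) : Good n M P :=
  ⟨0, 0, fun T _ _ => h T⟩

theorem Good.forall_le {M : ℕ} {P : ℕ → Tw n M → Prop} (K : ℕ)
    (h : ∀ κ ≤ K, Good n M (P κ)) : Good n M fun T => ∀ κ ≤ K, P κ T := by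
  induction K with
  | zero => exact (h 0 le_rfl).mono fun T hT κ hκ => by rwa [Nat.le_zero.1 hκ]
  | succ K ih =>
    refine ((ih fun κ hκ => h κ (hκ.trans K.le_succ)).and (h (K + 1) le_rfl)).mono ?_
    rintro T ⟨h1, h2⟩ κ hκ
    rcases Nat.lt_or_ge κ (K + 1) with h3 | h3
    · exact h1 κ (Nat.lt_succ_iff.1 h3)
    · rwa [le_antisymm hκ h3]

/-- the standard size conditions, and `C Λ ^ N ≤ k` -/
theorem good_std (M N : ℕ) (C : ℝ) :
    Good n M fun T => T.Std ∧ C ≤ T.Λ ∧ T.Λ ^ N ≤ T.k := by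
  refine ⟨max 10 N, max C (100 * ((n : ℝ) + 1) * ((M : ℝ) + 1)), fun T h1 h2 => ?_⟩
  have h3 : 100 * ((n : ℝ) + 1) * ((M : ℝ) + 1) ≤ T.Λ := (le_max_right _ _).trans h1
  have h0 : 1 ≤ T.Λ := by
    refine le_trans ?_ h3
    have : (0 : ℝ) ≤ n := Nat.cast_nonneg _
    have : (0 : ℝ) ≤ M := Nat.cast_nonneg _
    nlinarith [mul_nonneg ‹(0 : ℝ) ≤ n› ‹(0 : ℝ) ≤ M›]
  exact ⟨⟨h3, (pow_le_pow_right₀ h0 (le_max_left _ _)).trans h2⟩, (le_max_left _ _).trans h1,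
    (pow_le_pow_right₀ h0 (le_max_right _ _)).trans h2⟩

end Crest.Agent.N76.L
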