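import Crest.Agent.N76.L.Defs

/-! # Row 76, Part I (helper15): general position, perturbation of determinants, rotation. -/

set_option autoImplicit false

open Finset
open scoped RealInnerProductSpace

namespace Crest.Agent.N76.L

open Crest.Agent.N76.Red (V)

/-- the determinant with columns `(1, x j)` -/
noncomputable def dt {κ : ℕ} (x : Fin (κ + 1) → Fin κ → ℝ) : ℝ :=
  (Matrix.of fun i j : Fin (κ + 1) => (Fin.cons 1 (x j) : Fin (κ + 1) → ℝ) i).det

/-- points not close to a hyperplane contain a large simplex -/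
theorem gp {ι : Type*} (P : Finset ι) (hP : P.Nonempty) {δ : ℝ} (hδ : 0 < δ) :
    ∀ (κ : ℕ) (x : ι → Fin κ → ℝ),
      (∀ g : Fin κ → ℝ, ∑ l, g l ^ 2 = 1 → ∀ c : ℝ, ∃ a ∈ P, δ < |∑ l, g l * x a l - c|) →
      ∃ s : Fin (κ + 1) → ι, (∀ j, s j ∈ P) ∧ δ ^ κ ≤ |dt fun j => x (s j)| := by
  intro κ
  induction κ with
  | zero =>
    intro x _
    obtain ⟨a, ha⟩ := hP
    refine ⟨fun _ => a, fun _ => ha, ?_⟩
    simp [dt, Matrix.det_unique]
  | succ κ ih =>
    intro x h
    obtain ⟨s, hs, hdet⟩ := ih (fun a => Fin.init (x a)) (by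
      intro g hg c
      obtain ⟨a, ha, h1⟩ := h (Fin.snoc g 0) (by simpa [Fin.sum_univ_castSucc] using hg) c
      refine ⟨a, ha, ?_⟩
      simpa [Fin.sum_univ_castSucc, Fin.init] using h1)
    -- cofactors
    set cf : Fin (κ + 2) → ℝ := fun i => (-1) ^ (i : ℕ) *
      (Matrix.of fun i' j : Fin (κ + 1) =>
        (Fin.cons 1 (x (s j)) : Fin (κ + 2) → ℝ) (i.succAbove i')).det with hcf
    have hF : ∀ a, dt (fun j => x ((Fin.cons a s : Fin (κ + 2) → ι) j)) =
        cf 0 + ∑ l : Fin (κ + 1), cf l.succ * x a l := by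
      intro a
      unfold dt
      rw [Matrix.det_succ_column_zero, Fin.sum_univ_succ]
      simp only [hcf, Matrix.of_apply, Fin.cons_zero, Fin.cons_succ]
      congr 1
      · rw [mul_one]; rfl
      · refine sum_congr rfl fun l _ => ?_
        rw [mul_right_comm]; rfl
    have hlast : |cf (Fin.last (κ + 1))| = |dt fun j => Fin.init (x (s j))| := by
      simp only [hcf, abs_mul, abs_pow, abs_neg, abs_one, one_pow, one_mul]
      congr 2
      ext i j
      simp only [Matrix.of_apply, Fin.succAbove_last]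
      refine Fin.cases ?_ (fun i => ?_) i
      · simp
      · rw [← Fin.succ_castSucc]; simp [Fin.init]
    set G : ℝ := √(∑ l : Fin (κ + 1), cf l.succ ^ 2) with hG
    have hG1 : δ ^ κ ≤ G := by
      refine hdet.trans (hlast ▸ ?_)
      rw [hG]
      refine Real.abs_le_sqrt ?_
      rw [← Fin.succ_last]
      exact single_le_sum (f := fun l : Fin (κ + 1) => cf l.succ ^ 2) (fun _ _ => sq_nonneg _)
        (mem_univ _)
    have hG0 : 0 < G := (pow_pos hδ κ).trans_le hG1
    have hG2 : G ^ 2 = ∑ l : Fin (κ + 1), cf l.succ ^ 2 :=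
      Real.sq_sqrt (sum_nonneg fun _ _ => sq_nonneg _)
    obtain ⟨a, ha, h1⟩ := h (fun l => cf l.succ / G) (by
      simp only [div_pow]
      rw [← sum_div, ← hG2, div_self (by positivity)]) (-cf 0 / G)
    refine ⟨Fin.cons a s, fun j => Fin.cases ha hs j, ?_⟩
    rw [hF]
    have h2 : ∑ l : Fin (κ + 1), cf l.succ / G * x a l - -cf 0 / G =
        (cf 0 + ∑ l : Fin (κ + 1), cf l.succ * x a l) / G := by
      rw [add_div, sum_div, neg_div, sub_neg_eq_add, add_comm]
      congr 1
      exact sum_congr rfl fun l _ => by ring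
    rw [h2, abs_div, abs_of_pos hG0, lt_div_iff₀ hG0] at h1
    rw [pow_succ]
    nlinarith

theorem abs_prod_sub_prod {α : Type*} (s : Finset α) (f g : α → ℝ) {K η : ℝ} (hK : 1 ≤ K)
    (hη : 0 ≤ η) (hf : ∀ a ∈ s, |f a| ≤ K) (hg : ∀ a ∈ s, |g a| ≤ K)
    (h : ∀ a ∈ s, |f a - g a| ≤ η) :
    |∏ a ∈ s, f a - ∏ a ∈ s, g a| ≤ s.card * K ^ s.card * η := by
  classical
  induction s using Finset.induction_on with
  | empty => simp
  | insert a s ha ih =>
    have ih' := ih (fun b hb => hf b (mem_insert_of_mem hb)) (fun b hb => hg b (mem_insert_of_mem hb))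
      (fun b hb => h b (mem_insert_of_mem hb))
    rw [prod_insert ha, prod_insert ha, card_insert_of_notMem ha]
    have h1 := hf a (mem_insert_self _ _)
    have h2 := h a (mem_insert_self _ _)
    have h3 : |∏ b ∈ s, g b| ≤ K ^ s.card := by
      rw [abs_prod, ← prod_const]
      exact prod_le_prod (fun _ _ => abs_nonneg _) fun b hb => hg b (mem_insert_of_mem hb)
    have h4 : f a * ∏ b ∈ s, f b - g a * ∏ b ∈ s, g b =
        f a * (∏ b ∈ s, f b - ∏ b ∈ s, g b) + (f a - g a) * ∏ b ∈ s, g b := by ring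
    have hp : 0 ≤ K ^ s.card := by positivity
    rw [h4]
    refine (abs_add_le _ _).trans ?_
    rw [abs_mul, abs_mul]
    have e1 : |f a| * |∏ b ∈ s, f b - ∏ b ∈ s, g b| ≤ K * (s.card * K ^ s.card * η) :=
      mul_le_mul h1 ih' (abs_nonneg _) (by linarith)
    have e2 : |f a - g a| * |∏ b ∈ s, g b| ≤ η * K ^ s.card := mul_le_mul h2 h3 (abs_nonneg _) hη
    have e3 : η * K ^ s.card ≤ K * (η * K ^ s.card) := le_mul_of_one_le_left (by positivity) hK
    push_cast
    rw [pow_succ]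
    nlinarith

theorem dt_perturb {κ : ℕ} (x y : Fin (κ + 1) → Fin κ → ℝ) {K η : ℝ} (hK : 1 ≤ K) (hη : 0 ≤ η)
    (hx : ∀ j l, |x j l| ≤ K) (hy : ∀ j l, |y j l| ≤ K) (h : ∀ j l, |x j l - y j l| ≤ η) :
    |dt x - dt y| ≤ (κ + 1).factorial * ((κ + 1) * K ^ (κ + 1) * η) := by
  unfold dt
  rw [Matrix.det_apply', Matrix.det_apply', ← sum_sub_distrib]
  refine (abs_sum_le_sum_abs _ _).trans ?_
  have hc : ((κ + 1).factorial : ℝ) = (univ : Finset (Equiv.Perm (Fin (κ + 1)))).card := by
    rw [card_univ, Fintype.card_perm, Fintype.card_fin]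
  rw [hc, ← nsmul_eq_mul, ← sum_const]
  refine sum_le_sum fun σ _ => ?_
  rw [← mul_sub, abs_mul]
  have hs : |(((Equiv.Perm.sign σ : ℤˣ) : ℤ) : ℝ)| = 1 := by
    rcases Int.units_eq_one_or (Equiv.Perm.sign σ) with h | h <;> simp [h]
  rw [hs, one_mul]
  have := abs_prod_sub_prod (univ : Finset (Fin (κ + 1)))
    (fun j => (Fin.cons 1 (x j) : Fin (κ + 1) → ℝ) (σ j))
    (fun j => (Fin.cons 1 (y j) : Fin (κ + 1) → ℝ) (σ j)) hK hη
    (fun j _ => Fin.cases (by simpa using hK) (fun l => by simpa using hx j l) (σ j))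
    (fun j _ => Fin.cases (by simpa using hK) (fun l => by simpa using hy j l) (σ j))
    (fun j _ => Fin.cases (by simpa using hη) (fun l => by simpa using h j l) (σ j))
  simpa using this

variable {n : ℕ}

/-- rotate the first `κ` vectors of an orthonormal basis so that a given unit combination becomes
the vector number `κ - 1` -/
theorem exists_rot (O : OrthonormalBasis (Fin n) ℝ (V n)) {κ : ℕ} (h1 : 1 ≤ κ) (hκ : κ ≤ n)
    (g : Fin κ → ℝ) (hg : ∑ l, g l ^ 2 = 1) :
    ∃ O' : OrthonormalBasis (Fin n) ℝ (V n), (∀ l : Fin n, κ ≤ (l : ℕ) → O' l = O l) ∧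
      O' ⟨κ - 1, by omega⟩ = ∑ l, g l • O (Fin.castLE hκ l) := by
  set u : V n := ∑ l, g l • O (Fin.castLE hκ l) with hu
  set v : V n := O ⟨κ - 1, by omega⟩ with hv
  have hon : Orthonormal ℝ (fun l : Fin κ => O (Fin.castLE hκ l)) :=
    O.orthonormal.comp _ (Fin.castLE_injective hκ)
  have hnu : ‖u‖ = 1 := by
    have : ⟪u, u⟫ = 1 := by
      rw [hu, hon.inner_sum]
      simpa [sq] using hg
    rw [real_inner_self_eq_norm_sq] at this
    nlinarith [norm_nonneg u]
  have hnv : ‖v‖ = 1 := O.orthonormal.1 _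
  refine ⟨O.map (ℝ ∙ (v - u))ᗮ.reflection, fun l hl => ?_, ?_⟩
  · rw [OrthonormalBasis.map_apply]
    refine Submodule.reflection_mem_subspace_eq_self ?_
    rw [Submodule.mem_orthogonal_singleton_iff_inner_right, inner_sub_left, hv, hu, sum_inner]
    have e1 : ⟪O ⟨κ - 1, by omega⟩, O l⟫ = 0 :=
      O.orthonormal.2 (by intro h; have := congrArg Fin.val h; simp at this; omega)
    have e2 : ∀ m : Fin κ, ⟪g m • O (Fin.castLE hκ m), O l⟫ = 0 := fun m => by
      rw [real_inner_smul_left, O.orthonormal.2 (by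
        intro h; have := congrArg Fin.val h; have := m.2; simp at *; omega), mul_zero]
    simp [e1, e2]
  · rw [OrthonormalBasis.map_apply]
    exact Submodule.reflection_sub (hnv.trans hnu.symm)

end Crest.Agent.N76.L
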