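import Crest.Agent.N76.L.EN
import Crest.Agent.N76.L.GP

/-! # Row 76, Part I (helper15): slices.  A broad set of nodes splits into groups (same cell, same
leaf, same tuple of transversal caps). -/

set_option autoImplicit false

open Finset
open scoped RealInnerProductSpace

namespace Crest.Agent.N76.L

open Crest.Agent.N76.Red (V)
open Crest.Agent.N76.G

variable {n M : ℕ}

/-- tangential coordinates of the direction `ζ` relative to `ζp` -/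
noncomputable def tv (O : OrthonormalBasis (Fin n) ℝ (V n)) {κ : ℕ} (hκ : κ ≤ n) (r : ℝ)
    (ζp ζ : V n) : Fin κ → ℝ :=
  fun l => -2 * r * ⟪O (Fin.castLE hκ l), ζ - ζp⟫

/-- the leaf functional -/
noncomputable def lf (k i : ℕ) (ζ₀ : V n) (c : Nd n) : V n := ctr k i c + (2 * tm k i c) • ζ₀

theorem abs_inner_le (O : OrthonormalBasis (Fin n) ℝ (V n)) (l : Fin n) (x : V n) :
    |⟪O l, x⟫| ≤ ‖x‖ := by
  have := abs_real_inner_le_norm (O l) x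
  rwa [O.orthonormal.1 l, one_mul] at this

theorem fq_congr (k i : ℕ) {c c' : Nd n} (h : c.2.2 = c'.2.2) : fq k i c = fq k i c' := by
  simp only [fq, h]

theorem Nr.fq_le {k : ℕ} {Λ : ℝ} (hΛ : 0 ≤ Λ) {i j : ℕ} (hj : j ≤ M) {c c' : Nd n}
    (h : Nr k Λ i j c c') : ‖fq k j c' - fq k i c‖ ≤ Λ * M / (k : ℝ) ^ i := by
  refine h.2.1.trans ?_
  have : (j : ℝ) - i ≤ M := by
    have : (j : ℝ) ≤ M := by exact_mod_cast hj
    linarith [Nat.cast_nonneg (α := ℝ) i]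
  gcongr

theorem Nr.ps_le {k : ℕ} {Λ : ℝ} (hΛ : 0 ≤ Λ) {i j : ℕ} (hj : j ≤ M) {c c' : Nd n}
    (h : Nr k Λ i j c c') : ‖ps k j c' (tm k i c) - ctr k i c‖ ≤ Λ * M * (k : ℝ) ^ j := by
  refine h.2.2.trans ?_
  have : (j : ℝ) - i ≤ M := by
    have : (j : ℝ) ≤ M := by exact_mod_cast hj
    linarith [Nat.cast_nonneg (α := ℝ) i]
  gcongr

theorem Nr.tm_le {k : ℕ} (hk : 1 ≤ k) {Λ : ℝ} {i j : ℕ} (hij : i ≤ j) {c c' : Nd n}
    (h : Nr k Λ i j c c') : |tm k i c - tm k j c'| ≤ (k : ℝ) ^ (2 * j) := by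
  obtain ⟨h1, h2⟩ := tm_bounds hk hij h.1
  have : (0 : ℝ) ≤ (k : ℝ) ^ (2 * i) := by positivity
  rw [abs_le]; constructor <;> linarith [pow_nonneg (Nat.cast_nonneg (α := ℝ) k) (2 * j)]

/-- numerical consequences of `Std` -/
theorem Tw.Std.num {T : Tw n M} (h : T.Std) :
    1 ≤ T.k ∧ (1 : ℝ) ≤ T.k ∧ 1 ≤ T.Λ ∧ (M : ℝ) ≤ T.Λ / 100 ∧ (n : ℝ) ≤ T.Λ / 100 ∧
      T.Λ ^ 3 ≤ T.k := by
  have h1 := h.k_ge
  obtain ⟨h2, h3, h4, _⟩ := h.Λ_ge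
  have h6 : 1 ≤ T.k := by omega
  refine ⟨h6, by exact_mod_cast h6, by linarith, by linarith, by linarith, ?_⟩
  exact (pow_le_pow_right₀ (by linarith) (by norm_num)).trans h.2

/-- moving the base time of a near pair -/
theorem Nr.ps_at {k : ℕ} {Λ : ℝ} (hΛ : 0 ≤ Λ) {i j : ℕ} (hj : j ≤ M) {c c' : Nd n}
    (h : Nr k Λ i j c c') (t τ : ℝ) (ht : |t - tm k i c| ≤ τ) :
    ‖ps k j c' t - ps k i c t‖ ≤ Λ * M * (k : ℝ) ^ j + 2 * τ * (Λ * M / (k : ℝ) ^ i) := by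
  have e : ps k j c' t - ps k i c t = (ps k j c' (tm k i c) - ctr k i c) -
      (2 * (t - tm k i c)) • (fq k j c' - fq k i c) := by
    rw [ps_sub k j c' t (tm k i c), ps_sub k i c t (tm k i c), ps_tm, smul_sub]; abel
  rw [e]
  refine (norm_sub_le _ _).trans (add_le_add (h.ps_le hΛ hj) ?_)
  rw [norm_smul, Real.norm_eq_abs, abs_mul, abs_two]
  exact mul_le_mul (by linarith) (h.fq_le hΛ hj) (norm_nonneg _)
    (by linarith [abs_nonneg (t - tm k i c)])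

/-- absorption: a node near one node of a cell has a descendant near every node of the cell -/
theorem Tw.cell_absorb (T : Tw n M) (hT : T.Std) {b a₁ : ℕ} (ha : 1 ≤ a₁) (hM : b + a₁ + 1 ≤ M)
    {c c₀ : Nd n} (hcell : cell T.k b a₁ c = cell T.k b a₁ c₀) {c' : Nd n}
    (h : Nr T.k T.Λ b (b + a₁ + 1) c c') (hs : ‖ps T.k (b + a₁ + 1) c' (tm T.k b c) - ctr T.k b c‖ ≤
      3 / 2 * T.Λ * (T.k : ℝ) ^ (b + a₁ + 1)) :
    Nr T.k T.Λ b (b + a₁ + 1) c₀ c' := by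
  obtain ⟨hk, hk', hΛ, hMΛ, hnΛ, hΛk⟩ := hT.num
  obtain ⟨e1, e2, e3, e4⟩ := cell_eq hk hcell
  refine ⟨?_, ?_, ?_⟩
  · rw [h.1]
    have : 2 * (b + a₁ + 1 - b) = a₁ + (a₁ + 2) := by omega
    rw [this, ← ediv_ediv hk c.1 a₁, ← ediv_ediv hk c₀.1 a₁, e2]
  · rw [← fq_congr T.k b e1]; exact h.2.1
  · have e5 : ps T.k (b + a₁ + 1) c' (tm T.k b c₀) - ctr T.k b c₀ =
        (ps T.k (b + a₁ + 1) c' (tm T.k b c) - ctr T.k b c) -
          (2 * (tm T.k b c₀ - tm T.k b c)) • (fq T.k (b + a₁ + 1) c' - fq T.k b c) +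
          (ps T.k b c (tm T.k b c₀) - ps T.k b c₀ (tm T.k b c₀)) := by
      rw [ps_sub T.k _ c' (tm T.k b c₀) (tm T.k b c), ps_sub T.k b c (tm T.k b c₀) (tm T.k b c),
        ps_tm, ps_tm, smul_sub]; abel
    rw [e5]
    have e6 : ‖(2 * (tm T.k b c₀ - tm T.k b c)) • (fq T.k (b + a₁ + 1) c' - fq T.k b c)‖ ≤
        2 * (T.k : ℝ) ^ (2 * b + a₁) * (T.Λ * M / (T.k : ℝ) ^ b) := by
      rw [norm_smul, Real.norm_eq_abs, abs_mul, abs_two, abs_sub_comm]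
      exact mul_le_mul (by linarith) (h.fq_le (by linarith) hM) (norm_nonneg _) (by positivity)
    have e7 : 2 * (T.k : ℝ) ^ (2 * b + a₁) * (T.Λ * M / (T.k : ℝ) ^ b) =
        2 * T.Λ * M * (T.k : ℝ) ^ (b + a₁) := by
      rw [show 2 * b + a₁ = b + a₁ + b by omega, pow_add _ _ b]; field_simp
    have e8 := e4 (tm T.k b c₀)
    refine (norm_add_le _ _).trans ((add_le_add (norm_sub_le _ _) le_rfl).trans ?_)
    have hp : (0 : ℝ) < (T.k : ℝ) ^ (b + a₁) := by positivity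
    have ha' : (1 : ℝ) ≤ a₁ := by exact_mod_cast ha
    have e9 : 2 * T.Λ * M + n ≤ T.Λ / 2 * T.k := by
      have : 2 * (M : ℝ) + 1 ≤ T.k / 2 := by linarith [hT.Λ_ge.1, hT.Λ_ge.2.2.2]
      nlinarith
    push_cast
    rw [pow_succ] at hs ⊢
    have e10 : T.Λ * 2 * ((T.k : ℝ) ^ (b + a₁) * T.k) ≤
        T.Λ * (b + a₁ + 1 - b) * ((T.k : ℝ) ^ (b + a₁) * T.k) := by
      gcongr; linarith
    nlinarith

/-- narrowness at one node gives one plane for the whole cell -/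
theorem Tw.cell_slab (T : Tw n M) (hT : T.Std) {κ b a₁ : ℕ} (ha : 1 ≤ a₁)
    (hN : κ = n ∨ (b + a₁ + 1 ≤ M ∧ T.Nar b (b + a₁ + 1) κ)) {c₀ : Nd n} (hc₀ : c₀ ∈ T.al b) :
    ∃ (O : OrthonormalBasis (Fin n) ℝ (V n)) (ζ₀ : V n), ∀ c, cell T.k b a₁ c = cell T.k b a₁ c₀ →
      ∀ j, b ≤ j → j ≤ b + a₁ → ∀ c' ∈ T.nr b j c,
        Slab O κ ζ₀ (T.Λ ^ 2 / (T.k : ℝ) ^ j) (fq T.k j c') := by
  rcases hN with rfl | ⟨hM, hN⟩
  · exact ⟨EuclideanSpace.basisFun _ _, 0, fun _ _ _ _ _ _ _ l hl => absurd l.2 (by omega)⟩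
  obtain ⟨hk, hk', hΛ, hMΛ, hnΛ, hΛk⟩ := hT.num
  have hk2 := hT.k_ge
  obtain ⟨O, ζ₀, h⟩ := hN c₀ hc₀
  refine ⟨O, ζ₀, fun c hc j hj hj' c' hc' l hl => ?_⟩
  obtain ⟨hc'1, hc'2⟩ := T.mem_nr.1 hc'
  obtain ⟨c₂, hc₂⟩ := T.nr_nonempty hj' (by omega) hc'1
  obtain ⟨hc₂1, hc₂2⟩ := T.mem_nr.1 hc₂
  obtain ⟨c₃, hc₃⟩ := T.nr_nonempty (Nat.le_succ (b + a₁)) hM hc₂1
  obtain ⟨hc₃1, hc₃2⟩ := T.mem_nr.1 hc₃
  have h2 : Nr T.k T.Λ b (b + a₁) c c₂ :=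
    Nr.trans (by linarith) hj hj' (by omega) hc'2 hc₂2
  have h3 : Nr T.k T.Λ b (b + a₁ + 1) c c₃ :=
    Nr.trans (by linarith) (by omega) (Nat.le_succ _) (by omega) h2 hc₃2
  have h3' : Nr T.k T.Λ j (b + a₁ + 1) c' c₃ :=
    Nr.trans (by linarith) hj' (Nat.le_succ _) (by omega) hc₂2 hc₃2
  have hp : (0 : ℝ) < (T.k : ℝ) ^ (b + a₁) := by positivity
  have h4 : ‖ps T.k (b + a₁ + 1) c₃ (tm T.k b c) - ctr T.k b c‖ ≤
      3 / 2 * T.Λ * (T.k : ℝ) ^ (b + a₁ + 1) := by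
    have e : ps T.k (b + a₁ + 1) c₃ (tm T.k b c) - ctr T.k b c =
        (ps T.k (b + a₁ + 1) c₃ (tm T.k (b + a₁) c₂) - ctr T.k (b + a₁) c₂) -
          (2 * (tm T.k b c - tm T.k (b + a₁) c₂)) • (fq T.k (b + a₁ + 1) c₃ - fq T.k (b + a₁) c₂) +
          (ps T.k (b + a₁) c₂ (tm T.k b c) - ctr T.k b c) := by
      rw [ps_sub T.k _ c₃ (tm T.k b c) (tm T.k (b + a₁) c₂),
        ps_sub T.k _ c₂ (tm T.k b c) (tm T.k (b + a₁) c₂), ps_tm, smul_sub]; abel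
    rw [e]
    have e1 := hc₃2.2.2
    have e2 := hc₃2.2.1
    have e3 := h2.ps_le (by linarith) (by omega : b + a₁ ≤ M)
    have e4 := h2.tm_le hk (by omega)
    have e5 : ‖(2 * (tm T.k b c - tm T.k (b + a₁) c₂)) •
        (fq T.k (b + a₁ + 1) c₃ - fq T.k (b + a₁) c₂)‖ ≤ 2 * T.Λ * (T.k : ℝ) ^ (b + a₁) := by
      rw [norm_smul, Real.norm_eq_abs, abs_mul, abs_two]
      refine (mul_le_mul (mul_le_mul_of_nonneg_left e4 two_pos.le) e2 (norm_nonneg _)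
        (by positivity)).trans (le_of_eq ?_)
      push_cast
      rw [two_mul (b + a₁), pow_add _ (b + a₁)]; field_simp; ring
    refine (norm_add_le _ _).trans ((add_le_add (norm_sub_le _ _) le_rfl).trans ?_)
    have e6 : 2 * T.Λ + T.Λ * M ≤ T.Λ / 2 * T.k := by
      have : 2 + (M : ℝ) ≤ T.k / 2 := by linarith [hT.Λ_ge.1, hT.Λ_ge.2.2.2]
      nlinarith
    push_cast at e1
    rw [pow_succ] at e1 ⊢
    nlinarith
  have h5 := h c₃ hc₃1 (T.cell_absorb hT ha hM hc h3 h4) l hl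
  have h6 := h3'.fq_le (by linarith) hM
  have e : fq T.k j c' - ζ₀ = (fq T.k (b + a₁ + 1) c₃ - ζ₀) -
      (fq T.k (b + a₁ + 1) c₃ - fq T.k j c') := by abel
  rw [e, inner_sub_right]
  refine (abs_sub _ _).trans ((add_le_add h5 ((abs_inner_le O l _).trans h6)).trans ?_)
  have hq : (0 : ℝ) < (T.k : ℝ) ^ j := by positivity
  have e7 : (T.k : ℝ) ^ j * 2 ≤ (T.k : ℝ) ^ (b + a₁ + 1) := by
    rw [pow_succ]
    exact mul_le_mul (pow_le_pow_right₀ hk' hj') (by exact_mod_cast (by omega : 2 ≤ T.k))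
      (by norm_num) hp.le
  have e8 : T.Λ ^ 2 / (T.k : ℝ) ^ (b + a₁ + 1) ≤ T.Λ ^ 2 / ((T.k : ℝ) ^ j * 2) := by gcongr
  refine (add_le_add e8 le_rfl).trans ?_
  rw [← div_div, div_add' _ _ _ (two_ne_zero), div_le_iff₀ two_pos, ← sub_nonneg]
  have : T.Λ ^ 2 / (T.k : ℝ) ^ j * 2 - (T.Λ ^ 2 / (T.k : ℝ) ^ j + T.Λ * M / (T.k : ℝ) ^ j * 2) =
      (T.Λ ^ 2 - 2 * T.Λ * M) / (T.k : ℝ) ^ j := by ring
  rw [this]
  exact div_nonneg (by nlinarith) hq.le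

/-- a broad node has `κ + 1` near nodes in general position -/
theorem Tw.exists_tuple (T : Tw n M) (hT : T.Std) {κ b m₀ b' : ℕ} (h1 : 1 ≤ κ) (hκ : κ ≤ n)
    (hb : b + m₀ ≤ b') (hb' : b' ≤ M) {c : Nd n} (hc : c ∈ T.al b)
    (hN : ¬ NarAt T.k T.Λ b (b + m₀) (T.al (b + m₀)) (κ - 1) c)
    (O : OrthonormalBasis (Fin n) ℝ (V n)) (ζ₀ : V n)
    (hs : ∀ c' ∈ T.nr b (b + m₀) c,
      Slab O κ ζ₀ (T.Λ ^ 2 / (T.k : ℝ) ^ (b + m₀)) (fq T.k (b + m₀) c')) :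
    ∃ cs : Fin (κ + 1) → Nd n, (∀ j, cs j ∈ T.nr b b' c) ∧
      (1 / (T.k : ℝ) ^ m₀) ^ κ ≤
        |dt fun j => tv O hκ ((T.k : ℝ) ^ b) (fq T.k b c) (fq T.k b' (cs j))| := by
  obtain ⟨hk, hk', hΛ, hMΛ, hnΛ, hΛk⟩ := hT.num
  have hk2 := hT.k_ge
  refine gp (T.nr b b' c) (T.nr_nonempty (by omega) hb' hc) (by positivity) κ
    (fun c' => tv O hκ ((T.k : ℝ) ^ b) (fq T.k b c) (fq T.k b' c')) fun g hg c₀ => ?_
  by_contra hcon
  push Not at hcon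
  obtain ⟨O', hO1, hO2⟩ := exists_rot O h1 hκ g hg
  set u : V n := ∑ l, g l • O (Fin.castLE hκ l) with hu
  have hp : (0 : ℝ) < (T.k : ℝ) ^ b := by positivity
  have hq : (0 : ℝ) < (T.k : ℝ) ^ m₀ := by positivity
  have huu : ⟪u, u⟫ = 1 := by
    rw [← hO2, real_inner_self_eq_norm_sq, O'.orthonormal.1]; norm_num
  refine hN ⟨O', ζ₀ + (⟪u, fq T.k b c - ζ₀⟫ - c₀ / (2 * (T.k : ℝ) ^ b)) • u, ?_⟩
  intro c₁ hc₁ hn₁ l hl
  rcases Nat.lt_or_ge l κ with hlt | hge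
  · have hl' : l = ⟨κ - 1, by omega⟩ := Fin.ext (by simp; omega)
    obtain ⟨c₂, hc₂⟩ := T.nr_nonempty hb hb' hc₁
    obtain ⟨hc₂1, hc₂2⟩ := T.mem_nr.1 hc₂
    have h2 := hcon c₂ (T.mem_nr.2 ⟨hc₂1, Nr.trans (by linarith) (by omega) hb (by omega) hn₁ hc₂2⟩)
    have h3 : ∑ l, g l * tv O hκ ((T.k : ℝ) ^ b) (fq T.k b c) (fq T.k b' c₂) l =
        -2 * (T.k : ℝ) ^ b * ⟪u, fq T.k b' c₂ - fq T.k b c⟫ := by
      rw [hu, sum_inner, mul_sum]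
      refine sum_congr rfl fun l _ => ?_
      rw [real_inner_smul_left, tv]; ring
    rw [h3] at h2
    have h4 := (abs_inner_le O' l _).trans (hc₂2.fq_le (by linarith) hb')
    rw [hl', hO2] at h4 ⊢
    have e : ⟪u, fq T.k (b + m₀) c₁ -
        (ζ₀ + (⟪u, fq T.k b c - ζ₀⟫ - c₀ / (2 * (T.k : ℝ) ^ b)) • u)⟫ =
        -(-2 * (T.k : ℝ) ^ b * ⟪u, fq T.k b' c₂ - fq T.k b c⟫ - c₀) / (2 * (T.k : ℝ) ^ b) -
          ⟪u, fq T.k b' c₂ - fq T.k (b + m₀) c₁⟫ := by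
      simp only [inner_sub_right, inner_add_right, real_inner_smul_right, huu]
      field_simp; ring
    rw [e]
    refine (abs_sub _ _).trans ?_
    rw [abs_div, abs_neg, abs_of_pos (by positivity : (0 : ℝ) < 2 * (T.k : ℝ) ^ b)]
    have e2 : |-2 * (T.k : ℝ) ^ b * ⟪u, fq T.k b' c₂ - fq T.k b c⟫ - c₀| / (2 * (T.k : ℝ) ^ b) ≤
        1 / (T.k : ℝ) ^ m₀ / (2 * (T.k : ℝ) ^ b) := by gcongr
    refine (add_le_add e2 h4).trans ?_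
    rw [pow_add, ← sub_nonneg]
    have : T.Λ ^ 2 / ((T.k : ℝ) ^ b * (T.k : ℝ) ^ m₀) -
        (1 / (T.k : ℝ) ^ m₀ / (2 * (T.k : ℝ) ^ b) + T.Λ * M / ((T.k : ℝ) ^ b * (T.k : ℝ) ^ m₀)) =
        (T.Λ ^ 2 - 1 / 2 - T.Λ * M) / ((T.k : ℝ) ^ b * (T.k : ℝ) ^ m₀) := by
      field_simp; ring
    rw [this]
    exact div_nonneg (by nlinarith) (by positivity)
  · have h2 := hs c₁ (T.mem_nr.2 ⟨hc₁, hn₁⟩) l hge
    have h3 : ⟪O' l, u⟫ = 0 := by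
      rw [← hO2]
      exact O'.orthonormal.2 (by intro h; have := congrArg Fin.val h; simp at this; omega)
    rw [← sub_sub, inner_sub_right, real_inner_smul_right, h3, mul_zero, sub_zero, hO1 l hge]
    exact h2

end Crest.Agent.N76.L
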