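import Crest.Agent.N76.L.Frame

/-! # Row 76, Part I (helper15): the decomposition into groups and the counting of labels. -/

set_option autoImplicit false

open Finset
open scoped RealInnerProductSpace

namespace Crest.Agent.N76.L

open Crest.Agent.N76.Red (V)
open Crest.Agent.N76.G

variable {n M : ℕ}

/-- a group: same cell, same leaf, same transversal caps -/
structure Grp (T : Tw n M) {κ : ℕ} (hκ : κ ≤ n) (b m₀ b' a a₁ : ℕ) (G : Finset (Nd n))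
    (O : OrthonormalBasis (Fin n) ℝ (V n)) (ζ₀ : V n) (cs : Nd n → Fin (κ + 1) → Nd n) : Prop where
  sub : G ⊆ T.al b
  cell : ∀ c ∈ G, ∀ c' ∈ G, cell T.k b a₁ c = cell T.k b a₁ c'
  slab : ∀ c ∈ G, ∀ j, b ≤ j → j ≤ b + a₁ → ∀ c' ∈ T.nr b j c,
    Slab O κ ζ₀ (T.Λ ^ 2 / (T.k : ℝ) ^ j) (fq T.k j c')
  leaf : ∀ c ∈ G, ∀ c' ∈ G, Slab O κ (lf T.k b ζ₀ c') ((T.k : ℝ) ^ (b + a)) (lf T.k b ζ₀ c)
  near : ∀ c ∈ G, ∀ j, cs c j ∈ T.nr b b' c
  caps : ∀ c ∈ G, ∀ c' ∈ G, ∀ j, (cs c j).2.2 = (cs c' j).2.2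
  det : ∀ c ∈ G, (1 / (T.k : ℝ) ^ m₀) ^ κ ≤
    |dt fun j => tv O hκ ((T.k : ℝ) ^ b) (fq T.k b c) (fq T.k b' (cs c j))|

/-- labels -/
abbrev Lab (n κ : ℕ) := Nd n × ({l : Fin n // κ ≤ (l : ℕ)} → ℤ) × (Fin (κ + 1) → Fin n → ℤ)

theorem card_normal {κ : ℕ} : Fintype.card {l : Fin n // κ ≤ (l : ℕ)} = n - κ := by
  rw [Fintype.card_subtype]
  have : (univ.filter fun l : Fin n => κ ≤ (l : ℕ)).map Fin.valEmbedding = Ico κ n := by
    ext x
    simp only [mem_map, mem_filter, mem_univ, true_and, Fin.valEmbedding_apply, mem_Ico]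
    exact ⟨fun ⟨l, h1, h2⟩ => ⟨h2 ▸ h1, h2 ▸ l.2⟩, fun ⟨h1, h2⟩ => ⟨⟨x, h2⟩, h1, rfl⟩⟩
  rw [← card_map Fin.valEmbedding, this, Nat.card_Ico]

theorem card_img_le {α β γ : Type*} [DecidableEq β] [DecidableEq γ] (S : Finset α) (f : α → β)
    (g : α → γ) {K : ℝ} (h : ∀ a ∈ S, (((S.filter fun x => g x = g a).image f).card : ℝ) ≤ K) :
    ((S.image f).card : ℝ) ≤ K * (S.image g).card := by
  have h1 : S.image f ⊆ (S.image g).biUnion fun y => (S.filter fun x => g x = y).image f := by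
    intro z hz
    obtain ⟨a, ha, rfl⟩ := mem_image.1 hz
    exact mem_biUnion.2 ⟨g a, mem_image_of_mem _ ha, mem_image_of_mem _ (mem_filter.2 ⟨ha, rfl⟩)⟩
  have h2 : ((S.image f).card : ℝ) ≤
      ∑ y ∈ S.image g, (((S.filter fun x => g x = y).image f).card : ℝ) := by
    exact_mod_cast (card_le_card h1).trans card_biUnion_le
  refine h2.trans ?_
  rw [mul_comm, ← nsmul_eq_mul, ← sum_const]
  refine sum_le_sum fun y hy => ?_
  obtain ⟨a, ha, rfl⟩ := mem_image.1 hy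
  exact h a ha

theorem card_img_pair {α β γ : Type*} [DecidableEq β] [DecidableEq γ] (S : Finset α) (f : α → β)
    (g : α → γ) : ((S.image fun a => (f a, g a)).card : ℝ) ≤ (S.image f).card * (S.image g).card := by
  have : (S.image fun a => (f a, g a)) ⊆ S.image f ×ˢ S.image g := by
    intro z hz
    obtain ⟨a, ha, rfl⟩ := mem_image.1 hz
    exact mem_product.2 ⟨mem_image_of_mem _ ha, mem_image_of_mem _ ha⟩
  have := card_le_card this
  rw [card_product] at this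
  exact_mod_cast this

theorem sum_card_img {α β γ : Type*} [DecidableEq β] [DecidableEq γ] (S : Finset α) (f : α → β)
    (g : α → γ) : ∑ y ∈ S.image g, (((S.filter fun x => g x = y).image f).card : ℝ) =
      (S.image fun a => (g a, f a)).card := by
  rw [card_eq_sum_card_fiberwise (s := S.image fun a => (g a, f a)) (t := S.image g)
    (f := Prod.fst) (by
      intro z hz
      obtain ⟨a, ha, rfl⟩ := mem_image.1 (mem_coe.1 hz)
      exact mem_coe.2 (mem_image_of_mem _ ha))]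
  push_cast
  refine sum_congr rfl fun y _ => ?_
  congr 1
  refine card_bij (fun z _ => (y, z)) ?_ (fun _ _ _ _ h => (Prod.ext_iff.1 h).2) ?_
  · intro z hz
    obtain ⟨a, ha, rfl⟩ := mem_image.1 hz
    obtain ⟨h1, h2⟩ := mem_filter.1 ha
    exact mem_filter.2 ⟨mem_image.2 ⟨a, h1, by rw [h2]⟩, rfl⟩
  · intro z hz
    obtain ⟨h1, h2⟩ := mem_filter.1 hz
    obtain ⟨a, ha, rfl⟩ := mem_image.1 h1
    exact ⟨f a, mem_image_of_mem _ (mem_filter.2 ⟨ha, h2⟩), by rw [← h2]⟩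

/-- the data of a decomposition -/
structure Dec (T : Tw n M) {κ : ℕ} (hκ : κ ≤ n) (b m₀ b' a a₁ : ℕ) (N : Finset (Nd n))
    (O : Nd n → OrthonormalBasis (Fin n) ℝ (V n)) (ζ₀ : Nd n → V n)
    (cs : Nd n → Fin (κ + 1) → Nd n) (gl : Nd n → Lab n κ) : Prop where
  sub : N ⊆ T.al b
  gl_eq : ∀ c, gl c = (cell T.k b a₁ c,
    fun l => ⌊⟪O (cell T.k b a₁ c) l.1, lf T.k b (ζ₀ (cell T.k b a₁ c)) c⟫ / (T.k : ℝ) ^ (b + a)⌋,
    fun j => (cs c j).2.2)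
  slab : ∀ c ∈ N, ∀ j, b ≤ j → j ≤ b + a₁ → ∀ c' ∈ T.nr b j c,
    Slab (O (cell T.k b a₁ c)) κ (ζ₀ (cell T.k b a₁ c)) (T.Λ ^ 2 / (T.k : ℝ) ^ j) (fq T.k j c')
  near : ∀ c ∈ N, ∀ j, cs c j ∈ T.nr b b' c
  det : ∀ c ∈ N, (1 / (T.k : ℝ) ^ m₀) ^ κ ≤
    |dt fun j => tv (O (cell T.k b a₁ c)) hκ ((T.k : ℝ) ^ b) (fq T.k b c) (fq T.k b' (cs c j))|

theorem Tw.exists_dec (T : Tw n M) (hT : T.Std) {κ b m₀ b' a₁ : ℕ} (a : ℕ) (h1 : 1 ≤ κ)
    (hκ : κ ≤ n) (hm : 1 ≤ m₀) (hma : m₀ ≤ a₁) (hb : b + m₀ ≤ b') (hb' : b' ≤ M)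
    {N : Finset (Nd n)} (hN : N ⊆ T.al b) (hbr : ¬ T.Nar b (b + m₀) (κ - 1))
    (hnar : κ = n ∨ (b + a₁ + 1 ≤ M ∧ T.Nar b (b + a₁ + 1) κ)) :
    ∃ O ζ₀ cs gl, Dec T hκ b m₀ b' a a₁ N O ζ₀ cs gl := by
  have h2 : ∀ B : Nd n, ∃ (O : OrthonormalBasis (Fin n) ℝ (V n)) (ζ₀ : V n), ∀ c ∈ N,
      cell T.k b a₁ c = B → ∀ j, b ≤ j → j ≤ b + a₁ → ∀ c' ∈ T.nr b j c,
        Slab O κ ζ₀ (T.Λ ^ 2 / (T.k : ℝ) ^ j) (fq T.k j c') := by
    intro B
    by_cases h : ∃ c₀ ∈ N, cell T.k b a₁ c₀ = B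
    · obtain ⟨c₀, h0, rfl⟩ := h
      obtain ⟨O, ζ₀, h⟩ := T.cell_slab hT (hm.trans hma) hnar (hN h0)
      exact ⟨O, ζ₀, fun c _ hc => h c hc⟩
    · exact ⟨EuclideanSpace.basisFun _ _, 0, fun c hc hB => absurd ⟨c, hc, hB⟩ h⟩
  choose O ζ₀ hO using h2
  have h3 : ∀ c : Nd n, ∃ cs : Fin (κ + 1) → Nd n, c ∈ N → (∀ j, cs j ∈ T.nr b b' c) ∧
      (1 / (T.k : ℝ) ^ m₀) ^ κ ≤ |dt fun j => tv (O (cell T.k b a₁ c)) hκ ((T.k : ℝ) ^ b)
        (fq T.k b c) (fq T.k b' (cs j))| := by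
    intro c
    by_cases hc : c ∈ N
    · have hn : ¬ NarAt T.k T.Λ b (b + m₀) (T.al (b + m₀)) (κ - 1) c := fun h =>
        hbr fun c' hc' => T.narc b (b + m₀) (κ - 1) (by omega) (by omega) c (hN hc) c' hc' h
      obtain ⟨cs, h⟩ := T.exists_tuple hT h1 hκ hb hb' (hN hc) hn _ _
        (hO _ c hc rfl (b + m₀) (by omega) (by omega))
      exact ⟨cs, fun _ => h⟩
    · exact ⟨fun _ => c, fun h => absurd h hc⟩
  choose cs hcs using h3
  exact ⟨O, ζ₀, cs, _, hN, fun _ => rfl, fun c hc => hO _ c hc rfl, fun c hc => (hcs c hc).1,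
    fun c hc => (hcs c hc).2⟩

namespace Dec

variable {T : Tw n M} {κ : ℕ} {hκ : κ ≤ n} {b m₀ b' a a₁ : ℕ} {N : Finset (Nd n)}
  {O : Nd n → OrthonormalBasis (Fin n) ℝ (V n)} {ζ₀ : Nd n → V n}
  {cs : Nd n → Fin (κ + 1) → Nd n} {gl : Nd n → Lab n κ}

theorem grp (D : Dec T hκ b m₀ b' a a₁ N O ζ₀ cs gl) (hk : 1 ≤ T.k) (y : Lab n κ) :
    Grp T hκ b m₀ b' a a₁ (N.filter fun c => gl c = y) (O y.1) (ζ₀ y.1) cs := by
  have h1 : ∀ c ∈ N.filter fun c => gl c = y, cell T.k b a₁ c = y.1 := fun c hc => by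
    rw [← (mem_filter.1 hc).2, D.gl_eq]
  refine ⟨(filter_subset _ _).trans D.sub, fun c hc c' hc' => (h1 c hc).trans (h1 c' hc').symm,
    fun c hc => h1 c hc ▸ D.slab c (mem_filter.1 hc).1, fun c hc c' hc' l hl => ?_,
    fun c hc => D.near c (mem_filter.1 hc).1, fun c hc c' hc' j => ?_,
    fun c hc => h1 c hc ▸ D.det c (mem_filter.1 hc).1⟩
  · have h2 := (mem_filter.1 hc).2.trans (mem_filter.1 hc').2.symm
    rw [D.gl_eq, D.gl_eq, h1 c hc, h1 c' hc'] at h2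
    have h3 := congrFun (Prod.ext_iff.1 (Prod.ext_iff.1 h2).2).1 ⟨l, hl⟩
    have h4 := (Int.abs_sub_lt_one_of_floor_eq_floor h3).le
    have hp : (0 : ℝ) < (T.k : ℝ) ^ (b + a) := by positivity
    rwa [← sub_div, abs_div, abs_of_pos hp, div_le_one hp, ← inner_sub_right] at h4
  · have h2 := (mem_filter.1 hc).2.trans (mem_filter.1 hc').2.symm
    rw [D.gl_eq, D.gl_eq] at h2
    exact congrFun (Prod.ext_iff.1 (Prod.ext_iff.1 h2).2).2 j

/-- number of labels of a set with few cells, on which the leaf functional varies little -/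
theorem card_lab (D : Dec T hκ b m₀ b' a a₁ N O ζ₀ cs gl) (hT : T.Std) (hbb : b ≤ b') (hb' : b' ≤ M)
    {S : Finset (Nd n)} (hS : S ⊆ N) {ρ : ℝ} (hρ : 0 ≤ ρ)
    (h : ∀ c ∈ S, ∀ c' ∈ S, cell T.k b a₁ c = cell T.k b a₁ c' →
      Slab (O (cell T.k b a₁ c')) κ (lf T.k b (ζ₀ (cell T.k b a₁ c')) c') (ρ * (T.k : ℝ) ^ (b + a))
        (lf T.k b (ζ₀ (cell T.k b a₁ c')) c)) :
    ((S.image gl).card : ℝ) ≤ (3 * (ρ + 1)) ^ (n - κ) *
      ((T.Λ ^ 2 * (T.k : ℝ) ^ (b' - b)) ^ n) ^ (n + 1) * (S.image (cell T.k b a₁)).card := by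
  obtain ⟨hk, hk', hΛ, hMΛ, hnΛ, hΛk⟩ := hT.num
  refine card_img_le S gl _ fun c₀ hc₀ => ?_
  set F := S.filter fun c => cell T.k b a₁ c = cell T.k b a₁ c₀ with hF
  set B := cell T.k b a₁ c₀ with hB
  set f₁ : Nd n → {l : Fin n // κ ≤ (l : ℕ)} → ℤ := fun c l =>
    ⌊⟪O B l.1, lf T.k b (ζ₀ B) c⟫ / (T.k : ℝ) ^ (b + a)⌋ with hf₁
  set f₂ : Nd n → Fin (κ + 1) → Fin n → ℤ := fun c j => (cs c j).2.2 with hf₂
  have hp : (0 : ℝ) < (T.k : ℝ) ^ (b + a) := by positivity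
  have e0 : F.image gl = (F.image fun c => (f₁ c, f₂ c)).image fun z => (B, z) := by
    rw [image_image]
    refine image_congr fun c hc => ?_
    simp only [Function.comp, D.gl_eq, (mem_filter.1 (mem_coe.1 hc)).2, hf₁, hf₂]
    rfl
  have e1 : ((F.image f₁).card : ℝ) ≤ (3 * (ρ + 1)) ^ (n - κ) := by
    rw [← card_normal]
    refine card_pi _ (fun l => ⟪O B l.1, lf T.k b (ζ₀ B) c₀⟫ / (T.k : ℝ) ^ (b + a)) (by linarith) ?_
    intro p hp' l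
    obtain ⟨c, hc, rfl⟩ := mem_image.1 hp'
    have h1 := h c (mem_filter.1 hc).1 c₀ hc₀ (mem_filter.1 hc).2 l.1 l.2
    rw [inner_sub_right, ← div_le_iff₀ hp, ← abs_of_pos hp, ← abs_div, sub_div,
      abs_le, ← hB] at h1
    have h2 := Int.floor_le (⟪O B l.1, lf T.k b (ζ₀ B) c⟫ / (T.k : ℝ) ^ (b + a))
    have h3 := Int.lt_floor_add_one (⟪O B l.1, lf T.k b (ζ₀ B) c⟫ / (T.k : ℝ) ^ (b + a))
    simp only [hf₁]
    rw [abs_le]
    constructor <;> linarith [h1.1, h1.2]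
  have hq : (1 : ℝ) ≤ (T.k : ℝ) ^ (b' - b) := one_le_pow₀ hk'
  have e2 : ((F.image f₂).card : ℝ) ≤ ((T.Λ ^ 2 * (T.k : ℝ) ^ (b' - b)) ^ n) ^ (n + 1) := by
    have e3 : F.image f₂ ⊆ Fintype.piFinset fun j => (F.image fun c => cs c j).image (·.2.2) := by
      intro z hz
      obtain ⟨c, hc, rfl⟩ := mem_image.1 hz
      exact Fintype.mem_piFinset.2 fun j => mem_image_of_mem _ (mem_image_of_mem _ hc)
    have e4 : ∀ j, (((F.image fun c => cs c j).image (·.2.2)).card : ℝ) ≤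
        (T.Λ ^ 2 * (T.k : ℝ) ^ (b' - b)) ^ n := by
      intro j
      refine (card_caps hk b' _ (fq T.k b c₀) (ρ := T.Λ * (M + 1) * (T.k : ℝ) ^ (b' - b))
        (one_le_mul_of_one_le_of_one_le (by nlinarith [Nat.cast_nonneg (α := ℝ) M]) hq) ?_).trans ?_
      · intro c' hc'
        obtain ⟨c, hc, rfl⟩ := mem_image.1 hc'
        have h1 := (T.mem_nr.1 (D.near c (hS (mem_filter.1 hc).1) j)).2.fq_le (by linarith) hb'
        rw [fq_congr T.k b (cell_eq hk (mem_filter.1 hc).2).1] at h1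
        refine h1.trans ?_
        obtain ⟨e, rfl⟩ := Nat.exists_eq_add_of_le hbb
        rw [Nat.add_sub_cancel_left, pow_add, mul_div_mul_right _ _ (by positivity)]
        gcongr; linarith
      · have : 3 * (T.Λ * (M + 1)) ≤ T.Λ ^ 2 := by nlinarith [hT.Λ_ge.2.2.1]
        rw [← mul_assoc]
        gcongr
    have e5 := card_le_card e3
    rw [Fintype.card_piFinset] at e5
    have e6 : ((F.image f₂).card : ℝ) ≤
        ∏ j : Fin (κ + 1), (((F.image fun c => cs c j).image (·.2.2)).card : ℝ) := by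
      exact_mod_cast e5
    refine e6.trans ((prod_le_prod (fun _ _ => Nat.cast_nonneg _) fun j _ => e4 j).trans ?_)
    rw [prod_const, card_univ, Fintype.card_fin]
    exact pow_le_pow_right₀ (one_le_pow₀ (one_le_mul_of_one_le_of_one_le (by nlinarith) hq))
      (by omega)
  rw [e0]
  refine (Nat.cast_le.2 card_image_le).trans ((card_img_pair F f₁ f₂).trans ?_)
  exact mul_le_mul e1 e2 (Nat.cast_nonneg _) (by positivity)

end Dec

end Crest.Agent.N76.L
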