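import Crest.Agent.N76.L.Groups

/-! # Row 76, Part I (helper15): counting of groups. -/

set_option autoImplicit false

open Finset
open scoped RealInnerProductSpace

namespace Crest.Agent.N76.L

open Crest.Agent.N76.Red (V)
open Crest.Agent.N76.G

variable {n M : ℕ}

theorem card_cells {k : ℕ} (hk : 1 ≤ k) (b a : ℕ) (S : Finset (Nd n)) (σ : ℤ) (ζ y : V n)
    {ρ₁ ρ₂ : ℝ} (h₁ : 1 ≤ ρ₁) (h₂ : 0 ≤ ρ₂)
    (h : ∀ c ∈ S, c.1 / (k : ℤ) ^ a = σ ∧ ‖fq k b c - ζ‖ ≤ ρ₁ / (k : ℝ) ^ b ∧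
      ‖ps k b c ((σ : ℝ) * (k : ℝ) ^ (2 * b + a)) - y‖ ≤ ρ₂ * (k : ℝ) ^ (b + a)) :
    ((S.image (cell k b a)).card : ℝ) ≤ (3 * (ρ₂ + 1)) ^ n * (3 * ρ₁) ^ n := by
  have hp : (0 : ℝ) < (k : ℝ) ^ (b + a) := by positivity
  set f : Nd n → V n := fun c =>
    ((k : ℝ) ^ (b + a))⁻¹ • ps k b c ((σ : ℝ) * (k : ℝ) ^ (2 * b + a)) with hf
  have e0 : S.image (cell k b a) =
      (S.image fun c => (fl (f c), c.2.2)).image fun z => (σ, z) := by
    rw [image_image]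
    refine image_congr fun c hc => ?_
    simp only [Function.comp, cell, (h c (mem_coe.1 hc)).1, hf]
  rw [e0]
  refine (Nat.cast_le.2 card_image_le).trans ((card_img_pair S _ _).trans ?_)
  refine mul_le_mul (card_image_fl S f (((k : ℝ) ^ (b + a))⁻¹ • y) h₂ fun c hc => ?_)
    (card_caps hk b S ζ h₁ fun c hc => (h c hc).2.1) (Nat.cast_nonneg _) (by positivity)
  rw [hf, ← smul_sub, norm_smul, Real.norm_eq_abs, abs_of_pos (inv_pos.2 hp), inv_mul_le_iff₀ hp,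
    mul_comm _ ρ₂]
  exact (h c hc).2.2

theorem lf_near {k : ℕ} (hk : 1 ≤ k) {Λ : ℝ} (hΛ : 1 ≤ Λ) (hM : (M : ℝ) ≤ Λ) {i j κ : ℕ}
    (hij : i ≤ j) (hj : j ≤ M) {c c' : Nd n} (h : Nr k Λ i j c c')
    {O : OrthonormalBasis (Fin n) ℝ (V n)} {ζ₀ : V n}
    (hs : Slab O κ ζ₀ (Λ ^ 2 / (k : ℝ) ^ j) (fq k j c')) :
    Slab O κ (lf k i ζ₀ c) (3 * Λ ^ 2 * (k : ℝ) ^ j) (lf k j ζ₀ c') := by
  intro l hl
  have e : lf k j ζ₀ c' - lf k i ζ₀ c = (ps k j c' (tm k i c) - ctr k i c) +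
      (2 * (tm k i c - tm k j c')) • (fq k j c' - ζ₀) := by
    simp only [lf, ps, smul_sub, mul_sub, sub_smul]; abel
  have hp : (0 : ℝ) < (k : ℝ) ^ j := by positivity
  rw [e, inner_add_right, real_inner_smul_right]
  refine (abs_add_le _ _).trans ?_
  have h1 := (abs_inner_le O l _).trans (h.ps_le (by linarith) hj)
  have h2 : |2 * (tm k i c - tm k j c') * ⟪O l, fq k j c' - ζ₀⟫| ≤
      2 * (k : ℝ) ^ (2 * j) * (Λ ^ 2 / (k : ℝ) ^ j) := by
    rw [abs_mul, abs_mul, abs_two]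
    exact mul_le_mul (by linarith [h.tm_le hk hij]) (hs l hl) (abs_nonneg _) (by positivity)
  have h3 : 2 * (k : ℝ) ^ (2 * j) * (Λ ^ 2 / (k : ℝ) ^ j) = 2 * Λ ^ 2 * (k : ℝ) ^ j := by
    rw [two_mul j, pow_add _ j]; field_simp
  have h4 : Λ * M * (k : ℝ) ^ j ≤ Λ ^ 2 * (k : ℝ) ^ j := by gcongr; nlinarith
  linarith

theorem lf_sub (k b : ℕ) (ζ₀ : V n) {c c' : Nd n} (h : c.2.2 = c'.2.2) (t : ℝ) :
    lf k b ζ₀ c - lf k b ζ₀ c' =
      (ps k b c t - ps k b c' t) - (2 * (tm k b c - tm k b c')) • (fq k b c' - ζ₀) := by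
  simp only [lf, ps, fq_congr k b h, smul_sub, mul_sub, sub_smul]; abel

theorem pw_le {T : Tw n M} (hT : T.Std) {x : ℝ} (e : ℕ) (hx0 : 0 ≤ x) (hx : x ≤ T.Λ ^ 3) :
    x ^ e ≤ (T.k : ℝ) ^ e := pow_le_pow_left₀ hx0 (hx.trans hT.num.2.2.2.2.2) e

namespace Dec

variable {T : Tw n M} {κ : ℕ} {hκ : κ ≤ n} {b m₀ b' a a₁ : ℕ} {N : Finset (Nd n)}
  {O : Nd n → OrthonormalBasis (Fin n) ℝ (V n)} {ζ₀ : Nd n → V n}
  {cs : Nd n → Fin (κ + 1) → Nd n} {gl : Nd n → Lab n κ}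

theorem kc_le (hT : T.Std) (e : ℕ) :
    ((T.Λ ^ 2 * (T.k : ℝ) ^ e) ^ n) ^ (n + 1) ≤ (T.k : ℝ) ^ ((e + 1) * n * (n + 1)) := by
  obtain ⟨hk, hk', hΛ, hMΛ, hnΛ, hΛk⟩ := hT.num
  rw [pow_mul, pow_mul, pow_succ _ e, mul_comm _ (T.k : ℝ)]
  have : T.Λ ^ 2 ≤ T.k := (pow_le_pow_right₀ hΛ (by norm_num)).trans hΛk
  gcongr

set_option synthInstance.maxSize 2048 in
/-- cells of intermediate width, counted group by group -/
theorem sum_cells (D : Dec T hκ b m₀ b' a a₁ N O ζ₀ cs gl) (hT : T.Std) (hbb : b ≤ b')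
    (hb' : b' ≤ M) {u : ℕ} (hu : a + u ≤ a₁) :
    ∑ y ∈ N.image gl, (((N.filter fun c => gl c = y).image (cell T.k b (a + u))).card : ℝ) ≤
      (T.k : ℝ) ^ ((n - κ) * u + ((b' - b + 1) * n * (n + 1) + 3 * n)) *
        (N.image (cell T.k b (a + u))).card := by
  obtain ⟨hk, hk', hΛ, hMΛ, hnΛ, hΛk⟩ := hT.num
  have hΛ2 := hT.Λ_ge.1
  rw [sum_card_img]
  refine card_img_le N _ _ fun c₀ hc₀ => ?_
  set S := N.filter fun c => cell T.k b (a + u) c = cell T.k b (a + u) c₀ with hS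
  have e0 : (S.image fun c => (gl c, cell T.k b (a + u) c)) =
      (S.image gl).image fun z => (z, cell T.k b (a + u) c₀) := by
    rw [image_image]
    exact image_congr fun c hc => by simp only [Function.comp, (mem_filter.1 (mem_coe.1 hc)).2]
  rw [e0]
  refine (Nat.cast_le.2 card_image_le).trans ?_
  have hq : (1 : ℝ) ≤ (T.k : ℝ) ^ u := one_le_pow₀ hk'
  have hpb : (0 : ℝ) < (T.k : ℝ) ^ b := by positivity
  refine (D.card_lab hT hbb hb' (filter_subset _ _) (ρ := 3 * T.Λ ^ 2 * (T.k : ℝ) ^ u)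
    (by positivity) fun c hc c' hc' _ l hl => ?_).trans ?_
  · obtain ⟨e1, _, e3, e4⟩ := cell_eq hk ((mem_filter.1 hc).2.trans (mem_filter.1 hc').2.symm)
    have hN' := (mem_filter.1 hc').1
    have h1 := D.slab c' hN' b le_rfl (by omega) c' (T.mem_nr.2 ⟨D.sub hN', Nr.refl _ _ _ _⟩) l hl
    rw [lf_sub T.k b _ e1 0, inner_sub_right, real_inner_smul_right]
    refine (abs_sub _ _).trans ?_
    have h2 := (abs_inner_le (O (cell T.k b a₁ c')) l _).trans (e4 0)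
    have h3 : |2 * (tm T.k b c - tm T.k b c') *
        ⟪O (cell T.k b a₁ c') l, fq T.k b c' - ζ₀ (cell T.k b a₁ c')⟫| ≤
        2 * (T.k : ℝ) ^ (2 * b + (a + u)) * (T.Λ ^ 2 / (T.k : ℝ) ^ b) := by
      rw [abs_mul, abs_mul, abs_two]
      exact mul_le_mul (by linarith) h1 (abs_nonneg _) (by positivity)
    have h4 : 2 * (T.k : ℝ) ^ (2 * b + (a + u)) * (T.Λ ^ 2 / (T.k : ℝ) ^ b) =
        2 * T.Λ ^ 2 * (T.k : ℝ) ^ (b + (a + u)) := by
      rw [show 2 * b + (a + u) = b + (a + u) + b by omega, pow_add _ _ b]; field_simp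
    have h5 : (n : ℝ) * (T.k : ℝ) ^ (b + (a + u)) ≤ T.Λ ^ 2 * (T.k : ℝ) ^ (b + (a + u)) := by
      gcongr; nlinarith
    have h6 : 3 * T.Λ ^ 2 * (T.k : ℝ) ^ u * (T.k : ℝ) ^ (b + a) =
        3 * T.Λ ^ 2 * (T.k : ℝ) ^ (b + (a + u)) := by ring
    linarith
  · obtain ⟨e, rfl⟩ := Nat.exists_eq_add_of_le hu
    have h1 : ((S.image (cell T.k b (a + u + e))).card : ℝ) ≤ (3 * ((n : ℝ) + 1)) ^ n * (3 * 1) ^ n := by
      refine card_cells hk b _ S (c₀.1 / (T.k : ℤ) ^ (a + u + e)) (fq T.k b c₀)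
        (ps T.k b c₀ (((c₀.1 / (T.k : ℤ) ^ (a + u + e) : ℤ) : ℝ) * (T.k : ℝ) ^ (2 * b + (a + u + e))))
        le_rfl (Nat.cast_nonneg _) fun c hc => ?_
      obtain ⟨e1, e2, _, e4⟩ := cell_eq hk (mem_filter.1 hc).2
      refine ⟨by rw [← ediv_ediv hk, ← ediv_ediv hk c₀.1, e2], ?_, (e4 _).trans ?_⟩
      · rw [fq_congr T.k b e1, sub_self, norm_zero]; positivity
      · gcongr
    have h2 : (3 * (3 * T.Λ ^ 2 * (T.k : ℝ) ^ u + 1)) ^ (n - κ) ≤
        (T.k : ℝ) ^ ((n - κ) * u) * (T.k : ℝ) ^ n := by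
      have : 3 * (3 * T.Λ ^ 2 * (T.k : ℝ) ^ u + 1) ≤ (T.k : ℝ) ^ u * T.k := by
        have : 12 * T.Λ ^ 2 ≤ T.k := by nlinarith
        nlinarith
      refine (pow_le_pow_left₀ (by positivity) this _).trans ?_
      rw [mul_pow, ← pow_mul, mul_comm u]
      gcongr; omega
    have h3 : (3 * ((n : ℝ) + 1)) ^ n * (3 * 1) ^ n ≤ (T.k : ℝ) ^ n * (T.k : ℝ) ^ n :=
      mul_le_mul (pw_le hT n (by positivity) (by nlinarith)) (pw_le hT n (by positivity) (by nlinarith))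
        (by positivity) (by positivity)
    refine (mul_le_mul (mul_le_mul h2 (kc_le hT _) (by positivity) (by positivity)) (h1.trans h3)
      (Nat.cast_nonneg _) (by positivity)).trans (le_of_eq ?_)
    ring

/-- a tube belongs to few groups -/
theorem sum_nS (D : Dec T hκ b m₀ b' a (2 * a) N O ζ₀ cs gl) (hT : T.Std) (hbb : b ≤ b')
    (hb' : b' ≤ M) (ha : b + a ≤ M) :
    ∑ y ∈ N.image gl, ((T.nS b (b + a) (N.filter fun c => gl c = y)).card : ℝ) ≤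
      (T.k : ℝ) ^ ((b' - b + 1) * n * (n + 1) + 3 * n) * (T.nS b (b + a) N).card := by
  classical
  obtain ⟨hk, hk', hΛ, hMΛ, hnΛ, hΛk⟩ := hT.num
  have hΛ2 := hT.Λ_ge.1
  have hM0 : (0 : ℝ) ≤ M := Nat.cast_nonneg _
  have key : ∀ c'' ∈ T.nS b (b + a) N,
      (((N.image gl).filter fun y => c'' ∈ T.nS b (b + a) (N.filter fun c => gl c = y)).card : ℝ) ≤
        (T.k : ℝ) ^ ((b' - b + 1) * n * (n + 1) + 3 * n) := by
    intro c'' hc''
    have hal := (T.mem_nS.1 hc'').1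
    set S := N.filter fun c => Nr T.k T.Λ b (b + a) c c'' with hS
    have e0 : ((N.image gl).filter fun y => c'' ∈ T.nS b (b + a) (N.filter fun c => gl c = y)) ⊆
        S.image gl := by
      intro y hy
      obtain ⟨c, hc, h⟩ := (T.mem_nS.1 (mem_filter.1 hy).2).2
      exact mem_image.2 ⟨c, mem_filter.2 ⟨(mem_filter.1 hc).1, h⟩, (mem_filter.1 hc).2⟩
    refine (Nat.cast_le.2 (card_le_card e0)).trans ?_
    refine (D.card_lab hT hbb hb' (filter_subset _ _) (ρ := 6 * T.Λ ^ 2) (by positivity)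
      fun c hc c' hc' _ l hl => ?_).trans ?_
    · have h0 := D.slab c' (mem_filter.1 hc').1 (b + a) (by omega) (by omega) c''
        (T.mem_nr.2 ⟨hal, (mem_filter.1 hc').2⟩)
      have h1 := lf_near hk hΛ (by linarith) (by omega) ha (mem_filter.1 hc).2 h0 l hl
      have h2 := lf_near hk hΛ (by linarith) (by omega) ha (mem_filter.1 hc').2 h0 l hl
      rw [inner_sub_right] at h1 h2 ⊢
      rw [abs_le] at h1 h2 ⊢
      constructor <;> linarith [h1.1, h1.2, h2.1, h2.2]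
    · have hpb : (0 : ℝ) < (T.k : ℝ) ^ b := by positivity
      have h1 : ((S.image (cell T.k b (2 * a))).card : ℝ) ≤
          (3 * (3 * T.Λ * M + 1)) ^ n * (3 * (T.Λ * (M + 1))) ^ n := by
        refine card_cells hk b _ S c''.1 (fq T.k (b + a) c'')
          (ps T.k (b + a) c'' ((c''.1 : ℝ) * (T.k : ℝ) ^ (2 * b + 2 * a))) (by nlinarith)
          (by positivity) fun c hc => ?_
        have h := (mem_filter.1 hc).2
        refine ⟨by rw [h.1, Nat.add_sub_cancel_left], ?_, ?_⟩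
        · rw [norm_sub_rev]
          refine (h.fq_le (by linarith) ha).trans ?_
          gcongr; linarith
        · rw [norm_sub_rev]
          have h2 := h.tm_le hk (by omega : b ≤ b + a)
          rw [abs_sub_comm, tm, mul_add] at h2
          refine (h.ps_at (by linarith) ha _ _ h2).trans ?_
          have h3 : 2 * (T.k : ℝ) ^ (2 * b + 2 * a) * (T.Λ * M / (T.k : ℝ) ^ b) =
              2 * T.Λ * M * (T.k : ℝ) ^ (b + 2 * a) := by
            rw [show 2 * b + 2 * a = b + 2 * a + b by omega, pow_add _ _ b]; field_simp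
          have h4 : T.Λ * M * (T.k : ℝ) ^ (b + a) ≤ T.Λ * M * (T.k : ℝ) ^ (b + 2 * a) := by
            gcongr; omega
          linarith
      have h2 : (3 * (6 * T.Λ ^ 2 + 1)) ^ (n - κ) ≤ (T.k : ℝ) ^ n :=
        (pw_le hT _ (by positivity) (by nlinarith)).trans (pow_le_pow_right₀ hk' (by omega))
      have h5 : T.Λ * M ≤ T.Λ ^ 2 := by nlinarith
      have h3 : (3 * (3 * T.Λ * M + 1)) ^ n * (3 * (T.Λ * (M + 1))) ^ n ≤
          (T.k : ℝ) ^ n * (T.k : ℝ) ^ n :=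
        mul_le_mul (pw_le hT n (by positivity) (by nlinarith))
          (pw_le hT n (by positivity) (by nlinarith)) (by positivity) (by positivity)
      refine (mul_le_mul (mul_le_mul h2 (kc_le hT _) (by positivity) (by positivity)) (h1.trans h3)
        (Nat.cast_nonneg _) (by positivity)).trans (le_of_eq ?_)
      ring
  have e1 : ∀ y ∈ N.image gl, ((T.nS b (b + a) (N.filter fun c => gl c = y)).card : ℝ) =
      ∑ c'' ∈ T.nS b (b + a) N,
        if c'' ∈ T.nS b (b + a) (N.filter fun c => gl c = y) then (1 : ℝ) else 0 := by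
    intro y _
    rw [sum_boole]
    congr 2
    ext c''
    refine ⟨fun h => mem_filter.2 ⟨?_, h⟩, fun h => (mem_filter.1 h).2⟩
    obtain ⟨h1, c, hc, h2⟩ := T.mem_nS.1 h
    exact T.mem_nS.2 ⟨h1, c, (mem_filter.1 hc).1, h2⟩
  rw [sum_congr rfl e1, sum_comm, mul_comm, ← nsmul_eq_mul, ← sum_const]
  refine sum_le_sum fun c'' hc'' => ?_
  rw [sum_boole]
  exact key c'' hc''

end Dec

end Crest.Agent.N76.L
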