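import Crest.Agent.N76.L.Props

/-! # Row 76, Part I (helper60): auxiliary real arithmetic for `Kill` and `TIa`. -/

set_option autoImplicit false

namespace Crest.Agent.N76.L.K

variable {n M : ℕ} {T : Tw n M} {c : ℝ}

theorem bas1_mono {c' : ℝ} (h : Bas1 c T) (hc : c ≤ c') : Bas1 c' T where
  nS_sub := h.nS_sub
  nS_ne := h.nS_ne
  nS_self := h.nS_self
  nS_comp := h.nS_comp
  C_mono := h.C_mono
  C_nonneg := h.C_nonneg
  m_nonneg := h.m_nonneg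
  m_sup := fun i j l h1 h2 h3 => by linarith [h.m_sup i j l h1 h2 h3]
  m_nar := fun i j κ h1 h2 h3 h4 => by linarith [h.m_nar i j κ h1 h2 h3 h4]
  m_le_C := h.m_le_C
  A_le := fun i j h1 h2 => by linarith [h.A_le i j h1 h2]
  C_br := fun i j N h1 h2 h3 h4 => by linarith [h.C_br i j N h1 h2 h3 h4]
  nar_n := h.nar_n
  nar_mono := h.nar_mono
  nar_sub := h.nar_sub
  top := h.top
  W1 := fun i j N h1 h2 h3 h4 => by linarith [h.W1 i j N h1 h2 h3 h4]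
  nu_le := fun hb j h1 => by linarith [h.nu_le hb j h1]

theorem bas2_mono {c' : ℝ} (h : Bas2 c T) (hc : c ≤ c') : Bas2 c' T where
  cc_zero := h.cc_zero
  cc_anti := fun b a a' N h1 h2 => by linarith [h.cc_anti b a a' N h1 h2]
  cc_lip := fun b a a' N h1 h2 => by linarith [h.cc_lip b a a' N h1 h2]
  cc_shift := fun b m a N h1 h2 h3 h4 => by
    have := mul_le_mul_of_nonneg_right hc (Nat.cast_nonneg (α := ℝ) m)
    linarith [h.cc_shift b m a N h1 h2 h3 h4]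
  FL := fun b a a₁ N h1 h2 h3 h4 h5 h6 => by linarith [h.FL b a a₁ N h1 h2 h3 h4 h5 h6]
  topcell := fun b N h1 h2 h3 => by
    obtain ⟨N', h4, h5, h6, h7⟩ := h.topcell b N h1 h2 h3
    exact ⟨N', h4, h5, h6, by linarith⟩
  W2 := fun hb b a N h1 h2 h3 => by linarith [h.W2 hb b a N h1 h2 h3]

theorem core_mono {c' : ℝ} (h : CoreP c T) (hc : c ≤ c') : CoreP c' T := by
  intro κ b m₀ a a₁ N h1 h2 h3 h4 h5 h6 h7 h8 h9 h10
  obtain ⟨k1, k2⟩ := h κ b m₀ a a₁ N h1 h2 h3 h4 h5 h6 h7 h8 h9 h10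
  have := mul_le_mul_of_nonneg_right hc (Nat.cast_nonneg (α := ℝ) m₀)
  refine ⟨fun hk => by linarith [k1 hk], fun h11 h12 w hw => ?_⟩
  obtain ⟨k3, k4⟩ := k2 h11 h12 w hw
  exact ⟨by linarith, fun h13 => by linarith [k4 h13]⟩

/-- the bracket in the definition of `g` -/
noncomputable def Br (T : Tw n M) (i j : ℕ) (N : Finset (Nd n)) : ℝ :=
  ((n : ℝ) + 2) * ((j : ℝ) - i) - (T.C N + T.m i j - T.C (T.nS i j N))

theorem g_eq (κ i j : ℕ) (N : Finset (Nd n)) :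
    T.g κ i j N = T.D i j - (κ : ℝ) / (κ + 2) * Br T i j N := rfl

theorem q_nonneg (κ : ℕ) : (0 : ℝ) ≤ (κ : ℝ) / (κ + 2) := by positivity

theorem q_le_one (κ : ℕ) : (κ : ℝ) / (κ + 2) ≤ 1 := by
  rw [div_le_one (by positivity)]; linarith

theorem Br_ge (h : Bas1 c T) {i j : ℕ} {N : Finset (Nd n)} (hij : i ≤ j) (hj : j ≤ M)
    (hN : N ⊆ T.al i) (hne : N.Nonempty) : -c ≤ Br T i j N := by
  have := h.C_br i j N hij hj hN hne
  unfold Br; linarith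

theorem D_le (h : Bas1 c T) {i j κ : ℕ} (hij : i ≤ j) (hj : j ≤ M) (hκ : κ ≤ n)
    (hN : T.Nar i j κ) : T.D i j ≤ κ * ((j : ℝ) - i) + 2 * c := by
  have h1 := h.A_le i j hij hj
  have h2 := h.m_nar i j κ hij hj hκ hN
  unfold Tw.D; linarith

theorem g_triv (h : Bas1 c T) (hc : 0 ≤ c) (κ : ℕ) {i j : ℕ} {N : Finset (Nd n)} (hij : i ≤ j)
    (hj : j ≤ M) (hN : N ⊆ T.al i) (hne : N.Nonempty) :
    T.g κ i j N ≤ n * ((j : ℝ) - i) + 3 * c := by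
  have h1 := D_le h hij hj le_rfl (h.nar_n i j)
  have h2 := Br_ge h hij hj hN hne
  have h3 := q_nonneg κ
  have h4 := q_le_one κ
  rw [g_eq]
  nlinarith

/-- the exact splitting identity -/
theorem g_split (κ i j l : ℕ) (N : Finset (Nd n)) :
    T.g κ i l N = T.g κ i j N + T.g κ j l (T.nS i j N) -
      (1 - (κ : ℝ) / (κ + 2)) * (T.m i l - T.m i j - T.m j l) -
      (κ : ℝ) / (κ + 2) * (T.C (T.nS i l N) - T.C (T.nS j l (T.nS i j N))) := by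
  unfold Tw.g; ring

theorem C_comp (h : Bas1 c T) {i j l : ℕ} {N : Finset (Nd n)} (hij : i ≤ j) (hjl : j ≤ l)
    (hl : l ≤ M) (hN : N ⊆ T.al i) (hne : N.Nonempty) :
    T.C (T.nS j l (T.nS i j N)) ≤ T.C (T.nS i l N) :=
  h.C_mono _ _ (h.nS_ne j l _ hjl hl (h.nS_sub _ _ _) (h.nS_ne i j N hij (hjl.trans hl) hN hne))
    (h.nS_comp i j l N hij hjl hl)

theorem g_sub (h : Bas1 c T) (hc : 0 ≤ c) (κ : ℕ) {i j l : ℕ} {N : Finset (Nd n)} (hij : i ≤ j)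
    (hjl : j ≤ l) (hl : l ≤ M) (hN : N ⊆ T.al i) (hne : N.Nonempty) :
    T.g κ i l N ≤ T.g κ i j N + T.g κ j l (T.nS i j N) + c := by
  have h1 := C_comp h hij hjl hl hN hne
  have h2 := h.m_sup i j l hij hjl hl
  have h3 := q_nonneg κ
  have h4 := q_le_one κ
  rw [g_split κ i j l N]
  nlinarith

/-- upper bound for all defects inside `[i₀, j₀]` -/
def UB (T : Tw n M) (κ i₀ j₀ : ℕ) (e : ℝ) : Prop :=
  ∀ i j N, i₀ ≤ i → i ≤ j → j ≤ j₀ → N ⊆ T.al i → N.Nonempty → T.g κ i j N ≤ e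

section tight

variable {κ i₀ j₀ : ℕ} {N₀ : Finset (Nd n)} {e : ℝ}

theorem tight_init (h : Bas1 c T) (hc : 0 ≤ c) (hj₀ : j₀ ≤ M) (hN : N₀ ⊆ T.al i₀)
    (hne : N₀.Nonempty) (hU : UB T κ i₀ j₀ e) (hL : -e ≤ T.g κ i₀ j₀ N₀) {j : ℕ} (h1 : i₀ ≤ j)
    (h2 : j ≤ j₀) : -(2 * e + c) ≤ T.g κ i₀ j N₀ := by
  have h3 := g_sub h hc κ h1 h2 hj₀ hN hne
  have h4 := hU j j₀ _ h1 h2 le_rfl (h.nS_sub i₀ j N₀) (h.nS_ne i₀ j N₀ h1 (h2.trans hj₀) hN hne)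
  linarith

theorem tight_m (h : Bas1 c T) (hc : 0 ≤ c) (hj₀ : j₀ ≤ M) (hN : N₀ ⊆ T.al i₀)
    (hne : N₀.Nonempty) (hU : UB T κ i₀ j₀ e) (hL : -e ≤ T.g κ i₀ j₀ N₀) {i j : ℕ}
    (h1 : i₀ ≤ i) (hij : i ≤ j) (h2 : j ≤ j₀) :
    T.m i₀ j ≤ T.m i₀ i + T.m i j + ((κ : ℝ) + 2) * (2 * e + c) := by
  have h3 := tight_init h hc hj₀ hN hne hU hL (h1.trans hij) h2
  have h4 := hU i₀ i _ le_rfl h1 (hij.trans h2) hN hne
  have h5 := hU i j _ h1 hij h2 (h.nS_sub i₀ i N₀)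
    (h.nS_ne i₀ i N₀ h1 (hij.trans (h2.trans hj₀)) hN hne)
  have h6 := C_comp h h1 hij (h2.trans hj₀) hN hne
  have h7 := q_nonneg κ
  have h8 := g_split (T := T) κ i₀ i j N₀
  have h9 : (1 - (κ : ℝ) / (κ + 2)) * (T.m i₀ j - T.m i₀ i - T.m i j) ≤ 4 * e + c := by
    nlinarith [mul_nonneg h7 (sub_nonneg.2 h6)]
  have hk : (0 : ℝ) < (κ : ℝ) + 2 := by positivity
  have h10 : (1 - (κ : ℝ) / (κ + 2)) * ((κ : ℝ) + 2) = 2 := by field_simp; ring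
  have h11 := mul_le_mul_of_nonneg_right h9 hk.le
  have h12 : (1 - (κ : ℝ) / (κ + 2)) * (T.m i₀ j - T.m i₀ i - T.m i j) * ((κ : ℝ) + 2) =
      2 * (T.m i₀ j - T.m i₀ i - T.m i j) := by rw [mul_right_comm, h10]
  nlinarith

/-- `D i₀ ·` is almost monotone -/
theorem tight_D (h : Bas1 c T) (hc : 0 ≤ c) (hj₀ : j₀ ≤ M) (hN : N₀ ⊆ T.al i₀)
    (hne : N₀.Nonempty) (he : 0 ≤ e) (hU : UB T κ i₀ j₀ e) (hL : -e ≤ T.g κ i₀ j₀ N₀) {i j : ℕ}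
    (h1 : i₀ ≤ i) (hij : i ≤ j) (h2 : j ≤ j₀) :
    T.D i₀ i ≤ T.D i₀ j + ((κ : ℝ) + 5) * (2 * e + c) := by
  have h3 := tight_init h hc hj₀ hN hne hU hL (h1.trans hij) h2
  have h4 := hU i₀ i _ le_rfl h1 (hij.trans h2) hN hne
  have h5 := g_sub h hc κ h1 hij (h2.trans hj₀) hN hne
  have h6 := tight_m h hc hj₀ hN hne hU hL h1 hij h2
  have h7 := Br_ge h hij (h2.trans hj₀) (h.nS_sub i₀ i N₀)
    (h.nS_ne i₀ i N₀ h1 (hij.trans (h2.trans hj₀)) hN hne)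
  have h8 := q_nonneg κ
  have h9 := q_le_one κ
  have h10 := g_eq (T := T) κ i j (T.nS i₀ i N₀)
  have h11 : -c ≤ (κ : ℝ) / (κ + 2) * Br T i j (T.nS i₀ i N₀) := by nlinarith
  have h12 : T.D i₀ j - T.D i₀ i = T.D i j - (T.m i₀ j - T.m i₀ i - T.m i j) := by
    unfold Tw.D; ring
  nlinarith

end tight

/-- (Nb): if both `g (κ+1) ≥ -E` and `g κ ≤ e` then `D` is small -/
theorem nb {κ i j : ℕ} {N : Finset (Nd n)} {e E : ℝ} (he : 0 ≤ e) (hE : 0 ≤ E)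
    (h1 : T.g κ i j N ≤ e) (h2 : -E ≤ T.g (κ + 1) i j N) :
    T.D i j ≤ e + ((κ : ℝ) + 3) ^ 2 * (e + E) := by
  rw [g_eq] at h1 h2
  have h3 := q_nonneg κ
  have h4 := q_le_one κ
  have hk : (0 : ℝ) ≤ κ := Nat.cast_nonneg κ
  have h5 : (((κ + 1 : ℕ) : ℝ) / (((κ + 1 : ℕ) : ℝ) + 2) - (κ : ℝ) / (κ + 2)) *
      (((κ : ℝ) + 2) * ((κ : ℝ) + 3)) = 2 := by
    push_cast; field_simp; ring
  have h6 : (((κ + 1 : ℕ) : ℝ) / (((κ + 1 : ℕ) : ℝ) + 2) - (κ : ℝ) / (κ + 2)) * Br T i j N ≤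
      e + E := by linarith
  have h7 := mul_le_mul_of_nonneg_right h6
    (show (0 : ℝ) ≤ ((κ : ℝ) + 2) * ((κ : ℝ) + 3) by positivity)
  rw [mul_right_comm, h5] at h7
  have h8 : Br T i j N ≤ ((κ : ℝ) + 3) ^ 2 * (e + E) := by
    nlinarith [mul_nonneg (add_nonneg he hE) hk, mul_nonneg (add_nonneg he hE) (sq_nonneg (κ : ℝ))]
  have h9 : (0 : ℝ) ≤ ((κ : ℝ) + 3) ^ 2 * (e + E) := by positivity
  nlinarith

/-- (FL) in terms of `D` and the bracket; `y = (x + 1) / 2` -/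
theorem fl (h : Bas2 c T) {b x : ℕ} {N : Finset (Nd n)} (hx : 1 ≤ x) (hb : b + x + 1 ≤ M)
    (hN : N ⊆ T.al b) (hne : N.Nonempty) :
    Br T b (b + (x + 1) / 2) N - T.D b (b + (x + 1) / 2) + T.D b (b + x + 1) - 1 - c ≤
      T.cc b x N - T.C N + ((n : ℝ) + 1) * x := by
  have h1 := h.FL b ((x + 1) / 2) x N hx (by omega) (by omega) hb hN hne
  have h2 : 2 * (((x + 1) / 2 : ℕ) : ℝ) ≤ x + 1 := by
    exact_mod_cast (show 2 * ((x + 1) / 2) ≤ x + 1 by omega)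
  unfold Br Tw.D
  push_cast
  linarith

end Crest.Agent.N76.L.K
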