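import Crest.Agent.N76.L.Defs

/-! # Row 76, Part I (helper15): the interfaces between the modules. -/

set_option autoImplicit false

open MeasureTheory Finset Metric
open scoped RealInnerProductSpace

namespace Crest.Agent.N76.L

open Crest.Agent.N76.Red (V)
open Crest.Agent.N76.G

variable {n M : ℕ}

/-- `D i j = A i - A j - m i j` -/
noncomputable def Tw.D (T : Tw n M) (i j : ℕ) : ℝ := T.A i - T.A j - T.m i j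

/-- elementary facts, part 1 (nearness, narrowness, counting); every error is `c` -/
structure Bas1 (c : ℝ) (T : Tw n M) : Prop where
  nS_sub : ∀ i j N, T.nS i j N ⊆ T.al j
  nS_ne : ∀ i j N, i ≤ j → j ≤ M → N ⊆ T.al i → N.Nonempty → (T.nS i j N).Nonempty
  nS_self : ∀ i N, N ⊆ T.al i → T.nS i i N = N
  nS_comp : ∀ i j l N, i ≤ j → j ≤ l → l ≤ M → T.nS j l (T.nS i j N) ⊆ T.nS i l N
  C_mono : ∀ N N', N.Nonempty → N ⊆ N' → T.C N ≤ T.C N'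
  C_nonneg : ∀ N, 0 ≤ T.C N
  m_nonneg : ∀ i j, 0 ≤ T.m i j
  m_sup : ∀ i j l, i ≤ j → j ≤ l → l ≤ M → T.m i j + T.m j l ≤ T.m i l + c
  m_nar : ∀ i j κ, i ≤ j → j ≤ M → κ ≤ n → T.Nar i j κ → T.m i j ≤ κ * ((j : ℝ) - i) + c
  m_le_C : ∀ i j N, i ≤ j → j ≤ M → N ⊆ T.al i → N.Nonempty → T.m i j ≤ T.C (T.nS i j N)
  A_le : ∀ i j, i ≤ j → j ≤ M → T.A i ≤ T.A j + 2 * T.m i j + c
  C_br : ∀ i j N, i ≤ j → j ≤ M → N ⊆ T.al i → N.Nonempty →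
    T.C N + T.m i j ≤ T.C (T.nS i j N) + ((n : ℝ) + 2) * ((j : ℝ) - i) + c
  nar_n : ∀ i j, T.Nar i j n
  nar_mono : ∀ i j κ κ', κ ≤ κ' → T.Nar i j κ → T.Nar i j κ'
  nar_sub : ∀ i i' j' j κ, i ≤ i' → i' ≤ j' → j' ≤ j → j ≤ M → T.Nar i j κ → T.Nar i' j' κ
  top : T.A M + T.C (T.al M) + (n : ℝ) * M ≤ 0
  W1 : ∀ i j N, i ≤ j → j ≤ M → N ⊆ T.al i → N.Nonempty →
    T.C N + T.nu i + T.m i j ≤ T.C (T.nS i j N) + T.nu j + c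
  nu_le : T.Ball → ∀ j ≤ M, T.nu j ≤ ((n : ℝ) + 1) * j + c

/-- elementary facts, part 2 (cells and energy) -/
structure Bas2 (c : ℝ) (T : Tw n M) : Prop where
  cc_zero : ∀ b N, T.cc b 0 N = T.C N
  cc_anti : ∀ b a a' N, a ≤ a' → N.Nonempty → T.cc b a' N ≤ T.cc b a N + c
  cc_lip : ∀ b a a' N, a ≤ a' → N.Nonempty →
    T.cc b a N ≤ T.cc b a' N + ((n : ℝ) + 1) * ((a' : ℝ) - a) + c
  cc_shift : ∀ b m₁ a N, 1 ≤ m₁ → b + m₁ ≤ M → N ⊆ T.al b → N.Nonempty →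
    T.cc (b + m₁) a (T.nS b (b + m₁) N) ≤ T.cc b (a + m₁) N + c * m₁
  FL : ∀ b a a₁ N, 1 ≤ a₁ → a ≤ a₁ → a₁ ≤ 2 * a → b + a₁ + 1 ≤ M → N ⊆ T.al b → N.Nonempty →
    T.C (T.nS b (b + a) N) ≤ T.cc b a₁ N + (n : ℝ) * ((a₁ : ℝ) - a) + T.m b (b + a₁ + 1) +
      T.A (b + a₁ + 1) - T.A (b + a) + c
  topcell : ∀ b N, b ≤ M → N ⊆ T.al b → N.Nonempty → ∃ N' ⊆ N, N'.Nonempty ∧
    T.cc b (2 * (M - b)) N' = 0 ∧ T.C N - T.C N' ≤ T.C (T.al M) - T.C (T.nS b M N') + c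
  W2 : T.Ball → ∀ b a N, b ≤ M → N ⊆ T.al b → N.Nonempty →
    T.C N - T.cc b a N ≤ ((n : ℝ) + 1) * b - T.nu b + (n : ℝ) * a + c

/-- the broad core (multilinear Kakeya in slices) -/
def CoreP (c : ℝ) (T : Tw n M) : Prop :=
  ∀ (κ b m₀ a a₁ : ℕ) (N : Finset (Nd n)), 1 ≤ κ → κ ≤ n → 1 ≤ m₀ → n * m₀ + 2 ≤ a → a ≤ a₁ →
    a₁ ≤ 2 * a → b + a ≤ M → N ⊆ T.al b → N.Nonempty → ¬ T.Nar b (b + m₀) (κ - 1) →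
    (κ = n → T.cc b a N + ((κ : ℝ) + 1) / κ * T.m (b + (n * m₀ + 2)) (b + a) ≤
      ((κ : ℝ) + 1) / κ * T.C (T.nS b (b + a) N) + c * m₀) ∧
    (b + a₁ + 1 ≤ M → T.Nar b (b + a₁ + 1) κ → ∀ w : ℝ,
      w = κ * ((a₁ : ℝ) - a) + T.m (b + (n * m₀ + 2)) (b + a₁ + 1) + T.A (b + a₁ + 1) - T.A (b + a) →
      T.cc b a N + ((κ : ℝ) + 1) / κ * T.m (b + (n * m₀ + 2)) (b + a) ≤
        T.cc b a₁ N + ((n : ℝ) - κ) * ((a₁ : ℝ) - a) + ((κ : ℝ) + 1) / κ * w + c * m₀ ∧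
      (a₁ = 2 * a → T.cc b a N + ((κ : ℝ) + 1) / κ * T.m (b + (n * m₀ + 2)) (b + a) ≤
        T.C (T.nS b (b + a) N) + w / κ + c * m₀))

def BasS1 (n : ℕ) : Prop := ∃ c : ℝ, 1 ≤ c ∧ ∀ M, Good n M (Bas1 c)
def BasS2 (n : ℕ) : Prop := ∃ c : ℝ, 1 ≤ c ∧ ∀ M, Good n M (Bas2 c)
def CoreS (n : ℕ) : Prop := ∃ c : ℝ, 1 ≤ c ∧ ∀ M, Good n M (CoreP c)

/-- no window in which the core inequality is sharp with an intermediate dimension `σ` -/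
def BRW (n κ : ℕ) : Prop :=
  ∀ c : ℝ, 0 < c → ∃ ε : ℝ, 0 < ε ∧ ∀ M, Good n M fun T =>
    ∀ (b m₀ a : ℕ) (N : Finset (Nd n)) (σ : ℝ), 1 ≤ m₀ → ((n * m₀ + 2 : ℕ) : ℝ) ≤ ε * a →
      b + 2 * a + 1 ≤ M → N ⊆ T.al b → N.Nonempty → ¬ T.Nar b (b + m₀) (κ - 1) →
      T.Nar b (b + 2 * a + 1) κ → c ≤ σ → σ ≤ 1 - c →
      (∀ u ≤ a, T.cc b (a + u) N + ((n : ℝ) - κ) * u + ((κ : ℝ) + 1) * σ * u ≤ T.cc b a N + ε * a) →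
      T.m (b + (n * m₀ + 2)) (b + 2 * a + 1) ≤
        T.m (b + (n * m₀ + 2)) (b + a) + T.m (b + a) (b + 2 * a) + ε * a →
      c * a ≤ T.m (b + (n * m₀ + 2)) (b + a) →
      (∀ u, 1 ≤ u → u ≤ a → (κ : ℝ) * u - T.D (b + a) (b + a + u + 1) ≤ κ * σ * u + ε * a) →
      False

/-- refined decoupling -/
def DEC (n κ : ℕ) : Prop :=
  ∀ γ : ℝ, 0 < γ → ∃ L : ℝ, ∀ M, Good n M fun T =>
    ∀ i j N, i ≤ j → j ≤ M → N ⊆ T.al i → N.Nonempty → T.Nar i j κ →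
      T.g κ i j N ≤ γ * ((j : ℝ) - i) + L

/-- abstract sparse gain -/
def SGa (n : ℕ) : Prop :=
  ∀ ε : ℝ, 0 < ε → ∃ M₀ : ℕ, ∀ M, M₀ ≤ M → Good n M fun T => ∀ j ≤ M,
    T.val ≤ (n : ℝ) / (n + 2) * T.nu j + 2 / ((n : ℝ) + 2) * T.nu M + T.m 0 j - (n : ℝ) * j + ε * M

/-- the profile on a globally `κ`-narrow interval on which refined decoupling is sharp -/
def Prof (n κ : ℕ) : Prop :=
  ∀ η : ℝ, 0 < η → ∃ (ε : ℝ) (L : ℕ), 0 < ε ∧ ∀ M, Good n M fun T =>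
    ∀ (i₀ j₀ m₀ : ℕ) (N₀ : Finset (Nd n)), i₀ + L ≤ j₀ → j₀ ≤ M → N₀ ⊆ T.al i₀ → N₀.Nonempty →
      T.Nar i₀ j₀ κ → 1 ≤ m₀ → (m₀ : ℝ) ≤ ε * ((j₀ : ℝ) - i₀) → ¬ T.Nar i₀ (i₀ + m₀) (κ - 1) →
      -(ε * ((j₀ : ℝ) - i₀)) ≤ T.g κ i₀ j₀ N₀ →
      ∃ x, i₀ ≤ x ∧ x ≤ j₀ ∧
        (∀ u, i₀ ≤ u → u ≤ x → κ * ((u : ℝ) - i₀) - η * ((j₀ : ℝ) - i₀) ≤ T.D i₀ u) ∧
        T.D i₀ j₀ ≤ T.D i₀ x + η * ((j₀ : ℝ) - i₀)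

/-- criticality -/
def Tw.Crit (T : Tw n M) (δ : ℝ) : Prop :=
  T.Ball ∧ -1 ≤ T.nu 0 ∧ 2 * (n : ℝ) / (n + 1) * M - δ * M ≤ T.val

/-- an `n`-broad start at a level `b ≤ (1 - η) M` is not critical -/
def Kill (n : ℕ) : Prop :=
  ∀ η : ℝ, 0 < η → ∃ (θ : ℝ) (M₀ : ℕ), 0 < θ ∧ ∀ M, M₀ ≤ M → Good n M fun T =>
    T.Crit θ → ∀ b m₀ : ℕ, (b : ℝ) ≤ (1 - η) * M → 1 ≤ m₀ → (m₀ : ℝ) ≤ θ * M →
      T.g (n - 1) 0 b (T.al 0) ≤ θ * M → T.Nar b (b + m₀) (n - 1)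

/-- `log` of the Bourgain profile -/
noncomputable def lprof (n M j : ℕ) : ℝ :=
  max (j : ℝ) (max ((n : ℝ) * j - ((n : ℝ) - 1) * (M / ((n : ℝ) + 1))) (((n : ℝ) + 1) * j - M))

/-- abstract theorem I -/
def TIa (n : ℕ) : Prop :=
  ∃ θ c : ℝ, 0 < θ ∧ 0 ≤ c ∧ ∀ η : ℝ, 0 < η → ∃ (δ : ℝ) (M₀ : ℕ), 0 < δ ∧ ∀ M, M₀ ≤ M →
    Good n M fun T => T.Crit δ →
      (∀ j : ℕ, (j : ℝ) ≤ θ * M → ((n : ℝ) - 1) * j - η * M ≤ T.m 0 j) ∧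
      (∀ j : ℕ, (j : ℝ) ≤ θ * M → T.m 0 M ≤ ((n : ℝ) - 1) * j + T.m j M + η * M) ∧
      T.C (T.al M) + ((n : ℝ) + 1) * M ≤ T.C (T.al 0) + T.m 0 M + η * M ∧
      ∀ j₁ ≤ M, T.Nar 0 j₁ (n - 1) → ∀ j ≤ M,
        T.C (T.al 0) - lprof n M j - c * ((M : ℝ) - j₁) - η * M ≤ T.cc 0 j (T.al 0)

/-- realisation of the abstract tower by the Gaussian tower -/
def Build (n : ℕ) : Prop :=
  ∀ (M N₀ m : ℕ) (C₀ : ℝ), ∃ k₀ : ℕ, ∀ k : ℕ, k₀ ≤ k →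
    ∀ (X : Finset (V n × ℝ)) (w : V n × ℝ → ℝ) (s₀ : ℤ), (∀ z ∈ X, 0 ≤ w z) →
    (∀ z ∈ X, z ∈ closedBall (0 : V n × ℝ) ((k : ℝ) ^ (4 * M))) → (∀ z ∈ X, win k M z.2 = s₀) →
    ∀ A : ℕ → ℤ → Set (Ph n), (∀ l s, MeasurableSet (A l s)) →
    ∀ h : L2 n,
    En X id w (fun z => tower k A 0 M h z.2) ≤ (∑ z ∈ X, w z) / (k : ℝ) ^ (m * M) * ‖h‖ ^ 2 ∨
    ∃ T : Tw n M, T.k = k ∧ T.X = X ∧ T.w = w ∧ T.s₀ = s₀ ∧ C₀ ≤ T.Λ ∧ T.Λ ^ N₀ ≤ k ∧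
      (∀ i ≤ M, ∀ c ∈ T.al i, (A i c.1 ∩ tile k i c).Nonempty) ∧
      (∀ c ∈ T.al M, ∀ E : Set (V n), (∀ᵐ ξ : V n, ξ ∉ E → h ξ = 0) →
        ∃ ξ ∈ E, ‖ξ - fq k M c‖ ≤ T.Λ / (k : ℝ) ^ M) ∧
      En X id w (fun z => tower k A 0 M h z.2) ≤
        (k * (T.a 0 * T.ν 0 * (T.al 0).card) + (∑ z ∈ X, w z) / (k : ℝ) ^ (m * M)) * ‖h‖ ^ 2

end Crest.Agent.N76.L
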