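import Crest.Agent.N76.L.Groups2

/-! # Row 76, Part I (helper15): coordinates in a slice, energy of a group. -/

set_option autoImplicit false

open Finset
open scoped RealInnerProductSpace

namespace Crest.Agent.N76.L

open Crest.Agent.N76.Red (V)
open Crest.Agent.N76.G

variable {n M : ℕ}

/-- tangential coordinates of a node -/
noncomputable def cx (k b a : ℕ) (O : OrthonormalBasis (Fin n) ℝ (V n)) {κ : ℕ} (hκ : κ ≤ n)
    (c₀ c : Nd n) : Fin κ → ℝ :=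
  fun l => ⟪O (Fin.castLE hκ l), ps k b c (tm k b c₀) - ctr k b c₀⟫ / (k : ℝ) ^ (b + a)

/-- time coordinate of a node -/
noncomputable def ct (k b a : ℕ) (c₀ c : Nd n) : ℝ := (tm k b c - tm k b c₀) / (k : ℝ) ^ (2 * b + a)

/-- intercept of the line of a level `b + a` node -/
noncomputable def li (k b a : ℕ) (O : OrthonormalBasis (Fin n) ℝ (V n)) {κ : ℕ} (hκ : κ ≤ n)
    (c₀ c'' : Nd n) : Fin κ → ℝ :=
  fun l => ⟪O (Fin.castLE hκ l), ps k (b + a) c'' (tm k b c₀) - ctr k b c₀⟫ / (k : ℝ) ^ (b + a)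

theorem tv_sub_le (O : OrthonormalBasis (Fin n) ℝ (V n)) {κ : ℕ} (hκ : κ ≤ n) {r : ℝ} (hr : 0 ≤ r)
    (ζp ζ ζ' : V n) (l : Fin κ) : |tv O hκ r ζp ζ l - tv O hκ r ζp ζ' l| ≤ 2 * r * ‖ζ - ζ'‖ := by
  simp only [tv]
  rw [← mul_sub, ← inner_sub_right, sub_sub_sub_cancel_right, abs_mul, abs_mul, abs_neg, abs_two,
    abs_of_nonneg hr]
  exact mul_le_mul_of_nonneg_left (abs_inner_le O _ _) (by positivity)

theorem Nr.tv_le {k : ℕ} (hk : 1 ≤ k) {Λ : ℝ} (hΛ : 0 ≤ Λ) {b j : ℕ} (hj : j ≤ M) {c c' : Nd n}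
    (h : Nr k Λ b j c c') (O : OrthonormalBasis (Fin n) ℝ (V n)) {κ : ℕ} (hκ : κ ≤ n) (l : Fin κ) :
    |tv O hκ ((k : ℝ) ^ b) (fq k b c) (fq k j c') l| ≤ 2 * Λ * M := by
  have hp : (0 : ℝ) < (k : ℝ) ^ b := by positivity
  have h1 := tv_sub_le O hκ hp.le (fq k b c) (fq k j c') (fq k b c) l
  have h2 : tv O hκ ((k : ℝ) ^ b) (fq k b c) (fq k b c) l = 0 := by simp [tv]
  rw [h2, sub_zero] at h1
  refine h1.trans ((mul_le_mul_of_nonneg_left (h.fq_le hΛ hj) (by positivity)).trans (le_of_eq ?_))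
  field_simp

theorem Tw.EN2' (T : Tw n M) (hT : T.Std) {b l : ℕ} (hb : b ≤ l) (hl : l + 1 ≤ M) {c₁ : Nd n}
    (hc : c₁ ∈ T.al b) {Z : Finset (Nd n)} (hZ : Z ⊆ T.al l)
    (h : ∀ c ∈ Z, c.1 = c₁.1 / (T.k : ℤ) ^ (2 * (l - b)) ∧
      ‖fq T.k l c - fq T.k b c₁‖ ≤ T.Λ * ((l : ℝ) - b) / (T.k : ℝ) ^ b ∧
      ‖ps T.k l c (tm T.k b c₁) - ctr T.k b c₁‖ ≤ (T.k : ℝ) ^ (l + 1)) :
    (Z.card : ℝ) ≤ T.Λ ^ (4 * n + 1) * (T.k : ℝ) ^ n * T.mm b (l + 1) := by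
  rcases hb.lt_or_eq with hb | rfl
  · exact T.EN2 hT hb hl hc hZ h
  obtain ⟨hk, hk', hΛ, hMΛ, hnΛ, hΛk⟩ := hT.num
  refine (card_nd hk b Z _ (fq T.k b c₁) (ctr T.k b c₁) (tm T.k b c₁) le_rfl hk' fun c hc =>
    ⟨(h c hc).1, (h c hc).2.1.trans ?_, (h c hc).2.2.trans (le_of_eq (pow_succ' _ _))⟩).trans ?_
  · rw [sub_self, mul_zero, zero_div]; positivity
  · have h1 : (3 * 1 : ℝ) ^ n * (3 : ℝ) ^ n ≤ T.Λ ^ (4 * n + 1) := by
      rw [← mul_pow]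
      refine (pow_le_pow_left₀ (by norm_num) (by linarith [hT.Λ_ge.1] : (3 * 1 * 3 : ℝ) ≤ T.Λ) n).trans ?_
      exact pow_le_pow_right₀ hΛ (by omega)
    rw [mul_pow 3 (T.k : ℝ), ← mul_assoc]
    exact (mul_le_mul_of_nonneg_right h1 (by positivity)).trans
      (le_mul_of_one_le_right (by positivity) (T.mm1 _ _))

namespace Grp

variable {T : Tw n M} {κ : ℕ} {hκ : κ ≤ n} {b m₀ b' a a₁ : ℕ} {G : Finset (Nd n)}
  {O : OrthonormalBasis (Fin n) ℝ (V n)} {ζ₀ : V n} {cs : Nd n → Fin (κ + 1) → Nd n}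

theorem bd (D : Grp T hκ b m₀ b' a a₁ G O ζ₀ cs) (hk : 1 ≤ T.k) (ha : a ≤ a₁) {c₀ c : Nd n}
    (h₀ : c₀ ∈ G) (hc : c ∈ G) : |ct T.k b a c₀ c| ≤ (T.k : ℝ) ^ (a₁ - a) ∧
      ∀ l, |cx T.k b a O hκ c₀ c l| ≤ n * (T.k : ℝ) ^ (a₁ - a) := by
  obtain ⟨_, _, e3, e4⟩ := cell_eq hk (D.cell c hc c₀ h₀)
  obtain ⟨e, rfl⟩ := Nat.exists_eq_add_of_le ha
  rw [Nat.add_sub_cancel_left]
  refine ⟨?_, fun l => ?_⟩
  · rw [ct, abs_div, abs_of_pos (by positivity : (0 : ℝ) < (T.k : ℝ) ^ (2 * b + a)),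
      div_le_iff₀ (by positivity)]
    exact e3.trans (le_of_eq (by ring))
  · rw [cx, abs_div, abs_of_pos (by positivity : (0 : ℝ) < (T.k : ℝ) ^ (b + a)),
      div_le_iff₀ (by positivity), ← ps_tm]
    exact (abs_inner_le O _ _).trans ((e4 _).trans (le_of_eq (by ring)))

theorem near_line (D : Grp T hκ b m₀ b' a a₁ G O ζ₀ cs) (hT : T.Std) (ha : b + a ≤ M)
    {c₀ c c'' : Nd n} (h₀ : c₀ ∈ G) (hc : c ∈ G) (h : Nr T.k T.Λ b (b + a) c c'') (l : Fin κ) :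
    |cx T.k b a O hκ c₀ c l - ct T.k b a c₀ c *
      tv O hκ ((T.k : ℝ) ^ b) (fq T.k b c₀) (fq T.k (b + a) c'') l - li T.k b a O hκ c₀ c'' l| ≤
      T.Λ * M := by
  obtain ⟨hk, hk', hΛ, hMΛ, hnΛ, hΛk⟩ := hT.num
  have e1 := fq_congr T.k b (cell_eq hk (D.cell c hc c₀ h₀)).1
  have hp : (0 : ℝ) < (T.k : ℝ) ^ (b + a) := by positivity
  have hb : (0 : ℝ) < (T.k : ℝ) ^ b := by positivity
  have e : cx T.k b a O hκ c₀ c l - ct T.k b a c₀ c *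
      tv O hκ ((T.k : ℝ) ^ b) (fq T.k b c₀) (fq T.k (b + a) c'') l - li T.k b a O hκ c₀ c'' l =
      -⟪O (Fin.castLE hκ l), ps T.k (b + a) c'' (tm T.k b c) - ctr T.k b c⟫ / (T.k : ℝ) ^ (b + a) := by
    simp only [cx, ct, tv, li]
    rw [ps_sub T.k b c _ (tm T.k b c), ps_sub T.k (b + a) c'' (tm T.k b c₀) (tm T.k b c), ps_tm, e1,
      show 2 * b + a = b + a + b by omega, pow_add _ _ b]
    simp only [inner_sub_right, real_inner_smul_right]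
    field_simp; ring
  rw [e, abs_div, abs_neg, abs_of_pos hp, div_le_iff₀ hp]
  exact (abs_inner_le O _ _).trans (h.ps_le (by linarith) ha)

theorem close (D : Grp T hκ b m₀ b' a a₁ G O ζ₀ cs) (hT : T.Std) (c₀ : Nd n) {c c' : Nd n}
    (hc : c ∈ G) (hc' : c' ∈ G) {ρ : ℝ} (hρ : 1 ≤ ρ)
    (ht : |ct T.k b a c₀ c - ct T.k b a c₀ c'| ≤ ρ)
    (hx : ∀ l, |cx T.k b a O hκ c₀ c l - cx T.k b a O hκ c₀ c' l| ≤ ρ) :
    |tm T.k b c - tm T.k b c'| ≤ ρ * (T.k : ℝ) ^ (2 * b + a) ∧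
      ∀ t, ‖ps T.k b c t - ps T.k b c' t‖ ≤ n * (3 * T.Λ ^ 2 * ρ * (T.k : ℝ) ^ (b + a)) := by
  obtain ⟨hk, hk', hΛ, hMΛ, hnΛ, hΛk⟩ := hT.num
  have e1 := (cell_eq hk (D.cell c hc c' hc')).1
  have hp : (0 : ℝ) < (T.k : ℝ) ^ (b + a) := by positivity
  have hb : (0 : ℝ) < (T.k : ℝ) ^ b := by positivity
  have h1 : |tm T.k b c - tm T.k b c'| ≤ ρ * (T.k : ℝ) ^ (2 * b + a) := by
    rw [ct, ct, ← sub_div, abs_div, abs_of_pos (by positivity : (0 : ℝ) < (T.k : ℝ) ^ (2 * b + a)),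
      div_le_iff₀ (by positivity), sub_sub_sub_cancel_right] at ht
    exact ht
  refine ⟨h1, fun t => norm_le_of_inner O _ (by positivity) fun l => ?_⟩
  have hΛ2 : 1 ≤ T.Λ ^ 2 := one_le_pow₀ hΛ
  have hρp : 0 ≤ ρ * (T.k : ℝ) ^ (b + a) := by positivity
  rcases Nat.lt_or_ge l κ with hl | hl
  · have h2 := hx ⟨l, hl⟩
    simp only [cx] at h2
    rw [← sub_div, abs_div, abs_of_pos hp, div_le_iff₀ hp, ← inner_sub_right,
      sub_sub_sub_cancel_right] at h2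
    rw [ps_sub_ps e1 t (tm T.k b c₀)]
    refine le_trans h2 ?_
    nlinarith
  · have h2 := D.leaf c hc c' hc' l hl
    have h3 := D.slab c' hc' b le_rfl (by omega) c' (T.mem_nr.2 ⟨D.sub hc', Nr.refl _ _ _ _⟩) l hl
    rw [lf_sub T.k b _ e1 t, inner_sub_right, real_inner_smul_right] at h2
    have h4 : |2 * (tm T.k b c - tm T.k b c') * ⟪O l, fq T.k b c' - ζ₀⟫| ≤
        2 * (ρ * (T.k : ℝ) ^ (2 * b + a)) * (T.Λ ^ 2 / (T.k : ℝ) ^ b) := by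
      rw [abs_mul, abs_mul, abs_two]
      exact mul_le_mul (by linarith) h3 (abs_nonneg _) (by positivity)
    have h5 : 2 * (ρ * (T.k : ℝ) ^ (2 * b + a)) * (T.Λ ^ 2 / (T.k : ℝ) ^ b) =
        2 * T.Λ ^ 2 * ρ * (T.k : ℝ) ^ (b + a) := by
      rw [show 2 * b + a = b + a + b by omega, pow_add _ _ b]; field_simp
    have h6 : (T.k : ℝ) ^ (b + a) ≤ T.Λ ^ 2 * ρ * (T.k : ℝ) ^ (b + a) :=
      le_mul_of_one_le_left hp.le (one_le_mul_of_one_le_of_one_le hΛ2 hρ)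
    rw [abs_le] at h2 h4 ⊢
    constructor <;> linarith [h2.1, h2.2, h4.1, h4.2]

/-- few cells in a unit cube of the slice -/
theorem mult (D : Grp T hκ b m₀ b' a a₁ G O ζ₀ cs) (hT : T.Std) (c₀ : Nd n) (S : Finset (Nd n))
    (hS : S ⊆ G) (x₀ : Fin κ → ℝ) (τ₀ : ℝ)
    (h : ∀ c ∈ S, |ct T.k b a c₀ c - τ₀| ≤ 1 ∧ ∀ l, |cx T.k b a O hκ c₀ c l - x₀ l| ≤ 1) :
    ((S.image (L.cell T.k b a)).card : ℝ) ≤ (T.k : ℝ) ^ (3 * n + 1) := by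
  obtain ⟨hk, hk', hΛ, hMΛ, hnΛ, hΛk⟩ := hT.num
  have hΛ2 := hT.Λ_ge.1
  rcases S.eq_empty_or_nonempty with rfl | ⟨c₁, hc₁⟩
  · simp
  have key : ∀ c ∈ S, ∀ c' ∈ S, _ := fun c hc c' hc' => D.close hT c₀ (hS hc) (hS hc') one_le_two
    (by have h1 := (h c hc).1; have h2 := (h c' hc').1; rw [abs_le] at h1 h2 ⊢
        constructor <;> linarith [h1.1, h1.2, h2.1, h2.2])
    (fun l => by
      have h1 := (h c hc).2 l; have h2 := (h c' hc').2 l; rw [abs_le] at h1 h2 ⊢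
      constructor <;> linarith [h1.1, h1.2, h2.1, h2.2])
  refine (card_img_le S _ (fun c => c.1 / (T.k : ℤ) ^ a)
    (K := (3 * (n * (6 * T.Λ ^ 2) + 1)) ^ n * (3 * 1) ^ n) fun c' hc' => ?_).trans ?_
  · refine card_cells hk b a _ (c'.1 / (T.k : ℤ) ^ a) (fq T.k b c')
      (ps T.k b c' (((c'.1 / (T.k : ℤ) ^ a : ℤ) : ℝ) * (T.k : ℝ) ^ (2 * b + a))) le_rfl
      (by positivity) fun c hc => ⟨(mem_filter.1 hc).2, ?_, ?_⟩
    · rw [fq_congr T.k b (cell_eq hk (D.cell c (hS (mem_filter.1 hc).1) c' (hS hc'))).1, sub_self,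
        norm_zero]
      positivity
    · exact ((key c (mem_filter.1 hc).1 c' hc').2 _).trans (le_of_eq (by ring))
  · have hp : (0 : ℝ) < (T.k : ℝ) ^ (2 * b + a) := by positivity
    have h1 : ((S.image fun c => c.1 / (T.k : ℤ) ^ a).card : ℝ) ≤ 3 * 3 := by
      refine card_int _ (tm T.k b c₁ / (T.k : ℝ) ^ (2 * b + a)) (by norm_num) fun p hp' => ?_
      obtain ⟨c, hc, rfl⟩ := mem_image.1 hp'
      have h2 := (key c hc c₁ hc₁).1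
      obtain ⟨h3, h4⟩ := ediv_bounds hk c.1 a (2 * b)
      rw [add_comm a] at h3 h4
      have h5 : (0 : ℝ) ≤ (T.k : ℝ) ^ (2 * b) := by positivity
      have h6 : tm T.k b c = (c.1 : ℝ) * (T.k : ℝ) ^ (2 * b) := rfl
      rw [abs_le] at h2 ⊢
      constructor
      · rw [le_sub_comm, div_le_iff₀ hp]; nlinarith [h2.1]
      · rw [sub_le_comm, le_div_iff₀ hp]; nlinarith [h2.2]
    have h2 : (3 * (n * (6 * T.Λ ^ 2) + 1)) ^ n ≤ ((T.k : ℝ) * T.k) ^ n := by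
      refine pow_le_pow_left₀ (by positivity) ?_ n
      have : (n : ℝ) * (6 * T.Λ ^ 2) ≤ T.Λ ^ 3 := by nlinarith [Nat.cast_nonneg (α := ℝ) n]
      have : (100 : ℝ) ≤ T.k := hΛ2.trans hT.Λ_ge.2.2.2
      nlinarith
    have h3 : (3 * 1 : ℝ) ^ n ≤ (T.k : ℝ) ^ n := pw_le hT n (by norm_num) (by nlinarith)
    have h4 : (3 * 3 : ℝ) ≤ T.k := by linarith [hT.Λ_ge.2.2.2]
    refine (mul_le_mul (mul_le_mul h2 h3 (by positivity) (by positivity)) (h1.trans h4)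
      (Nat.cast_nonneg _) (by positivity)).trans (le_of_eq ?_)
    ring

theorem nr_trans (D : Grp T hκ b m₀ b' a a₁ G O ζ₀ cs) (hT : T.Std) (hbb : b ≤ b') {l : ℕ}
    (hb' : b' ≤ l) (hl : l ≤ M) {c θ : Nd n} (hc : c ∈ G) {j : Fin (κ + 1)}
    (h : Nr T.k T.Λ b' l (cs c j) θ) : Nr T.k T.Λ b l c θ :=
  Nr.trans (by linarith [hT.one_le_Λ]) hbb hb' (by have := hT.k_ge; omega)
    (T.mem_nr.1 (D.near c hc j)).2 h

/-- transversality of all tuples of descendants -/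
theorem det_ge (D : Grp T hκ b m₀ (b + (n * m₀ + 2)) a a₁ G O ζ₀ cs) (hT : T.Std)
    (hbig : 2 * ((n + 1).factorial * (((n : ℝ) + 1) * (T.Λ ^ 2) ^ (n + 2))) ≤ (T.k : ℝ) ^ 2)
    {l : ℕ} (hb' : b + (n * m₀ + 2) ≤ l) (hl : l ≤ M) {c₀ : Nd n} (h₀ : c₀ ∈ G)
    (θ : Fin (κ + 1) → Nd n) (hθ : ∀ j, ∃ c ∈ G, Nr T.k T.Λ (b + (n * m₀ + 2)) l (cs c j) (θ j)) :
    1 / (2 * (T.k : ℝ) ^ (n * m₀)) ≤
      |dt fun j => tv O hκ ((T.k : ℝ) ^ b) (fq T.k b c₀) (fq T.k l (θ j))| := by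
  obtain ⟨hk, hk', hΛ, hMΛ, hnΛ, hΛk⟩ := hT.num
  have hM0 : (0 : ℝ) ≤ M := Nat.cast_nonneg _
  have h2M : 2 * T.Λ * M ≤ T.Λ ^ 2 := by nlinarith
  have hΛ2 : 1 ≤ T.Λ ^ 2 := one_le_pow₀ hΛ
  have hb : (0 : ℝ) < (T.k : ℝ) ^ b := by positivity
  have hq : (0 : ℝ) < (T.k : ℝ) ^ (n * m₀) := by positivity
  have h1 := dt_perturb
    (fun j => tv O hκ ((T.k : ℝ) ^ b) (fq T.k b c₀) (fq T.k (b + (n * m₀ + 2)) (cs c₀ j)))
    (fun j => tv O hκ ((T.k : ℝ) ^ b) (fq T.k b c₀) (fq T.k l (θ j))) hΛ2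
    (η := T.Λ ^ 2 / (T.k : ℝ) ^ (n * m₀ + 2)) (by positivity)
    (fun j i => ((T.mem_nr.1 (D.near c₀ h₀ j)).2.tv_le hk (by linarith) (hb'.trans hl) O hκ i).trans h2M)
    (fun j i => by
      obtain ⟨c, hc, h⟩ := hθ j
      rw [← fq_congr T.k b (cell_eq hk (D.cell c hc c₀ h₀)).1]
      exact ((D.nr_trans hT (by omega) hb' hl hc h).tv_le hk (by linarith) hl O hκ i).trans h2M)
    (fun j i => by
      obtain ⟨c, hc, h⟩ := hθ j
      refine (tv_sub_le O hκ hb.le _ _ _ i).trans ?_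
      rw [← fq_congr T.k _ (D.caps c hc c₀ h₀ j), norm_sub_rev]
      refine (mul_le_mul_of_nonneg_left (h.fq_le (by linarith) hl) (by positivity)).trans ?_
      rw [pow_add _ b, le_div_iff₀ (by positivity)]
      refine le_trans (le_of_eq ?_) h2M
      field_simp)
  have h2 := D.det c₀ h₀
  have h3 : 1 / (T.k : ℝ) ^ (n * m₀) ≤ (1 / (T.k : ℝ) ^ m₀) ^ κ := by
    rw [div_pow, one_pow, ← pow_mul]
    exact one_div_le_one_div_of_le (by positivity)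
      (pow_le_pow_right₀ hk' (by rw [mul_comm]; exact Nat.mul_le_mul_right _ hκ))
  have h4 : ((κ + 1).factorial : ℝ) * ((κ + 1) * (T.Λ ^ 2) ^ (κ + 1) *
      (T.Λ ^ 2 / (T.k : ℝ) ^ (n * m₀ + 2))) ≤ 1 / (2 * (T.k : ℝ) ^ (n * m₀)) := by
    have e1 : ((κ + 1).factorial : ℝ) ≤ (n + 1).factorial := by
      exact_mod_cast Nat.factorial_le (by omega)
    have e2 : (κ : ℝ) + 1 ≤ n + 1 := by have : (κ : ℝ) ≤ n := by exact_mod_cast hκ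
                                        linarith
    have e3 : (T.Λ ^ 2) ^ (κ + 1) ≤ (T.Λ ^ 2) ^ (n + 1) := pow_le_pow_right₀ hΛ2 (by omega)
    calc _ ≤ ((n + 1).factorial : ℝ) * ((n + 1) * (T.Λ ^ 2) ^ (n + 1) *
          (T.Λ ^ 2 / (T.k : ℝ) ^ (n * m₀ + 2))) := by gcongr
      _ = 2 * ((n + 1).factorial * (((n : ℝ) + 1) * (T.Λ ^ 2) ^ (n + 2))) / (T.k : ℝ) ^ 2 *
          (1 / (2 * (T.k : ℝ) ^ (n * m₀))) := by rw [pow_add _ _ 2]; field_simp; ring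
      _ ≤ _ := mul_le_of_le_one_left (by positivity) ((div_le_one (by positivity)).2 hbig)
  have h5 : 1 / (T.k : ℝ) ^ (n * m₀) = 2 * (1 / (2 * (T.k : ℝ) ^ (n * m₀))) := by field_simp
  have h6 := abs_sub_abs_le_abs_sub
    (dt fun j => tv O hκ ((T.k : ℝ) ^ b) (fq T.k b c₀) (fq T.k (b + (n * m₀ + 2)) (cs c₀ j)))
    (dt fun j => tv O hκ ((T.k : ℝ) ^ b) (fq T.k b c₀) (fq T.k l (θ j)))
  linarith

/-- energy in a leaf -/
theorem en (D : Grp T hκ b m₀ b' a a₁ G O ζ₀ cs) (hT : T.Std) {u : ℕ} (hu : a + u ≤ a₁)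
    (ha : a₁ ≤ 2 * a) (hM : b + a + u ≤ M) {S : Finset (Nd n)} (hS : S ⊆ T.nS b (b + a) G) :
    (S.card : ℝ) * T.a (b + a) ≤ T.Λ ^ ((9 * n + 2) * u) * (T.k : ℝ) ^ (κ * u) *
      (T.nS (b + a) (b + a + u) S).card * T.a (b + a + u) := by
  obtain ⟨hk, hk', hΛ, hMΛ, hnΛ, hΛk⟩ := hT.num
  have hk2 := hT.k_ge
  rcases G.eq_empty_or_nonempty with rfl | ⟨c₀, h₀⟩
  · have : S = ∅ := eq_empty_of_forall_notMem fun c hc => by
      obtain ⟨_, c', hc', _⟩ := T.mem_nS.1 (hS hc)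
      simp at hc'
    subst this
    have := (T.a0 (b + a + u)).le
    simp only [card_empty, Nat.cast_zero, zero_mul]
    positivity
  refine T.EN1 hT hM hκ (hS.trans (T.nS_subset_al _ _ _)) (s := c₀.1 / (T.k : ℤ) ^ (2 * a))
    (fun c'' hc'' => ?_) O ζ₀ (lf T.k b ζ₀ c₀) 0 (fun c'' hc'' l hl => ?_) fun j hj hj' c' hc' => ?_
  · obtain ⟨_, c, hc, h⟩ := T.mem_nS.1 (hS hc'')
    obtain ⟨e, he⟩ := Nat.exists_eq_add_of_le ha
    rw [h.1, Nat.add_sub_cancel_left, he, ← ediv_ediv hk, ← ediv_ediv hk c₀.1,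
      (cell_eq hk (D.cell c hc c₀ h₀)).2.1]
  · obtain ⟨hal, c, hc, h⟩ := T.mem_nS.1 (hS hc'')
    have h1 := lf_near hk hΛ (by linarith) (by omega) (by omega : b + a ≤ M) h
      (D.slab c hc (b + a) (by omega) (by omega) c'' (T.mem_nr.2 ⟨hal, h⟩)) l hl
    have h2 := D.leaf c hc c₀ h₀ l hl
    rw [sub_zero]
    change |⟪O l, lf T.k (b + a) ζ₀ c'' - lf T.k b ζ₀ c₀⟫| ≤ _
    have hp : (0 : ℝ) < (T.k : ℝ) ^ (b + a) := by positivity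
    have h3 : 3 * T.Λ ^ 2 + 1 ≤ T.Λ ^ 4 := by nlinarith [hT.Λ_ge.1, sq_nonneg (T.Λ ^ 2 - 4)]
    rw [inner_sub_right] at h1 h2 ⊢
    rw [abs_le] at h1 h2 ⊢
    constructor <;> nlinarith [h1.1, h1.2, h2.1, h2.2]
  · obtain ⟨hal, c'', hc'', h'⟩ := T.mem_nS.1 hc'
    obtain ⟨_, c, hc, h⟩ := T.mem_nS.1 (hS hc'')
    exact D.slab c hc j (by omega) (by omega) c'
      (T.mem_nr.2 ⟨hal, Nr.trans (by linarith) (by omega) hj.le (by omega) h h'⟩)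

/-- absorption of the descendants of one family -/
theorem absorb (D : Grp T hκ b m₀ b' a a₁ G O ζ₀ cs) (hT : T.Std) (hbb : b ≤ b')
    (hb' : b' ≤ b + a₁) (hM : b + a₁ + 1 ≤ M) (j : Fin (κ + 1)) :
    ((T.nS b' (b + a₁) (G.image fun c => cs c j)).card : ℝ) ≤
      T.Λ ^ (4 * n + 1) * (T.k : ℝ) ^ n * T.mm b' (b + a₁ + 1) := by
  obtain ⟨hk, hk', hΛ, hMΛ, hnΛ, hΛk⟩ := hT.num
  rcases G.eq_empty_or_nonempty with rfl | ⟨c₀, h₀⟩
  · have : T.nS b' (b + a₁) ((∅ : Finset (Nd n)).image fun c => cs c j) = ∅ :=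
      eq_empty_of_forall_notMem fun c hc => by
        obtain ⟨_, c', hc', _⟩ := T.mem_nS.1 hc
        simp at hc'
    rw [this]
    have := T.mm1 b' (b + a₁ + 1)
    simp only [card_empty, Nat.cast_zero]
    positivity
  obtain ⟨n1, n2⟩ := T.mem_nr.1 (D.near c₀ h₀ j)
  refine T.EN2' hT hb' hM n1 (T.nS_subset_al _ _ _) fun z hz => ?_
  obtain ⟨_, c₂, hc₂, h⟩ := T.mem_nS.1 hz
  obtain ⟨c, hc, rfl⟩ := mem_image.1 hc₂
  have n3 := (T.mem_nr.1 (D.near c hc j)).2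
  obtain ⟨e1, e2, e3, e4⟩ := cell_eq hk (D.cell c hc c₀ h₀)
  have e5 := D.caps c hc c₀ h₀ j
  refine ⟨?_, by rw [← fq_congr T.k b' e5]; exact h.2.1, ?_⟩
  · rw [h.1, n3.1, n2.1, ediv_ediv hk, ediv_ediv hk,
      show 2 * (b' - b) + 2 * (b + a₁ - b') = a₁ + a₁ by omega, ← ediv_ediv hk,
      ← ediv_ediv hk c₀.1, e2]
  · have hl : b + a₁ ≤ M := by omega
    have hb'M : b' ≤ M := by omega
    have t1 := n2.tm_le hk hbb
    have t2 := n3.tm_le hk hbb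
    have t3 : |tm T.k b' (cs c₀ j) - tm T.k b' (cs c j)| ≤
        2 * (T.k : ℝ) ^ (2 * b') + (T.k : ℝ) ^ (2 * b + a₁) := by
      rw [abs_le] at t1 t2 e3 ⊢
      constructor <;> linarith [t1.1, t1.2, t2.1, t2.2, e3.1, e3.2]
    have p1 := h.ps_at (by linarith) hl _ _ t3
    have p2 := n3.ps_le (by linarith) hb'M
    have p3 := e4 (tm T.k b c)
    have p4 := n2.ps_at (by linarith) hb'M _ _ e3
    have e : ps T.k (b + a₁) z (tm T.k b' (cs c₀ j)) - ctr T.k b' (cs c₀ j) =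
        (ps T.k (b + a₁) z (tm T.k b' (cs c₀ j)) - ps T.k b' (cs c j) (tm T.k b' (cs c₀ j))) +
        ((ps T.k b' (cs c j) (tm T.k b c) - ctr T.k b c) +
          (ps T.k b c (tm T.k b c) - ps T.k b c₀ (tm T.k b c)) -
          (ps T.k b' (cs c₀ j) (tm T.k b c) - ps T.k b c₀ (tm T.k b c))) := by
      have := ps_sub_ps (k := T.k) (b := b') e5 (tm T.k b' (cs c₀ j)) (tm T.k b c)
      rw [ps_tm] at this
      rw [ps_tm, ← sub_add_sub_cancel _ (ps T.k b' (cs c j) (tm T.k b' (cs c₀ j))) _, this]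
      abel
    rw [e]
    refine (norm_add_le _ _).trans ((add_le_add le_rfl ((norm_sub_le _ _).trans
      (add_le_add (norm_add_le _ _) le_rfl))).trans ?_)
    have hp : (0 : ℝ) < (T.k : ℝ) ^ (b + a₁) := by positivity
    have hM0 : (0 : ℝ) ≤ M := Nat.cast_nonneg _
    have hΛM : 0 ≤ T.Λ * M := by positivity
    have q1 : (T.k : ℝ) ^ b' ≤ (T.k : ℝ) ^ (b + a₁) := pow_le_pow_right₀ hk' hb'
    have q2 : 2 * (T.k : ℝ) ^ (2 * b + a₁) * (T.Λ * M / (T.k : ℝ) ^ b) =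
        2 * (T.Λ * M) * (T.k : ℝ) ^ (b + a₁) := by
      rw [show 2 * b + a₁ = b + a₁ + b by omega, pow_add _ _ b]; field_simp
    have q3 : 2 * (2 * (T.k : ℝ) ^ (2 * b') + (T.k : ℝ) ^ (2 * b + a₁)) * (T.Λ * M / (T.k : ℝ) ^ b') ≤
        6 * (T.Λ * M) * (T.k : ℝ) ^ (b + a₁) := by
      have r1 : (T.k : ℝ) ^ (2 * b') ≤ (T.k : ℝ) ^ (b + a₁) * (T.k : ℝ) ^ b' := by
        rw [← pow_add]; exact pow_le_pow_right₀ hk' (by omega)
      have r2 : (T.k : ℝ) ^ (2 * b + a₁) ≤ (T.k : ℝ) ^ (b + a₁) * (T.k : ℝ) ^ b' := by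
        rw [← pow_add]; exact pow_le_pow_right₀ hk' (by omega)
      calc _ ≤ 2 * (3 * ((T.k : ℝ) ^ (b + a₁) * (T.k : ℝ) ^ b')) * (T.Λ * M / (T.k : ℝ) ^ b') := by
            gcongr; linarith
        _ = _ := by field_simp; ring
    have q4 : T.Λ * M * (T.k : ℝ) ^ b' ≤ T.Λ * M * (T.k : ℝ) ^ (b + a₁) := by gcongr
    have q5 : 11 * (T.Λ * M) + n ≤ T.k := by
      have r1 : T.Λ * M ≤ T.Λ * (T.Λ / 100) := by gcongr
      have r2 : T.Λ ^ 2 ≤ T.Λ ^ 3 := pow_le_pow_right₀ hΛ (by norm_num)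
      nlinarith
    have q6 := mul_le_mul_of_nonneg_right q5 hp.le
    rw [pow_succ]
    linarith

end Grp

end Crest.Agent.N76.L
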