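import Crest.Agent.N76.L.Props

/-! # Row 76, Part I (helper9): consequences of sharpness of refined decoupling on an interval. -/

set_option autoImplicit false

open Finset

namespace Crest.Agent.N76.L

variable {n M : ℕ}

/-- the bracket in the definition of `g` -/
noncomputable def Tw.Br (T : Tw n M) (i j : ℕ) (N : Finset (Nd n)) : ℝ :=
  ((n : ℝ) + 2) * ((j : ℝ) - i) - (T.C N + T.m i j - T.C (T.nS i j N))

theorem Tw.g_eq (T : Tw n M) (κ i j : ℕ) (N : Finset (Nd n)) :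
    T.g κ i j N = T.D i j - (κ : ℝ) / (κ + 2) * T.Br i j N := rfl

/-- the cell function `F_b(x)` -/
noncomputable def Tw.Fc (T : Tw n M) (b x : ℕ) (N : Finset (Nd n)) : ℝ :=
  T.cc b x N - T.C N + ((n : ℝ) + 1) * x

theorem Tw.g_ident (T : Tw n M) (κ i j l : ℕ) (N : Finset (Nd n)) :
    T.g κ i l N = T.g κ i j N + T.g κ j l (T.nS i j N) -
      2 / ((κ : ℝ) + 2) * (T.m i l - T.m i j - T.m j l) -
      (κ : ℝ) / (κ + 2) * (T.C (T.nS i l N) - T.C (T.nS j l (T.nS i j N))) := by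
  have h : (κ : ℝ) + 2 ≠ 0 := by positivity
  unfold Tw.g
  field_simp
  ring

namespace Bas1

variable {c : ℝ} {T : Tw n M}

theorem c_nonneg (h : Bas1 c T) : 0 ≤ c := by
  have h1 := h.m_nar 0 0 n le_rfl (Nat.zero_le _) le_rfl (h.nar_n 0 0)
  have h2 := h.m_nonneg 0 0
  simp at h1
  linarith

theorem Br_ge (h : Bas1 c T) {i j : ℕ} {N : Finset (Nd n)} (hij : i ≤ j) (hj : j ≤ M)
    (hN : N ⊆ T.al i) (hne : N.Nonempty) : -c ≤ T.Br i j N := by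
  have := h.C_br i j N hij hj hN hne
  unfold Tw.Br
  linarith

theorem D_le_m (h : Bas1 c T) {i j : ℕ} (hij : i ≤ j) (hj : j ≤ M) : T.D i j ≤ T.m i j + c := by
  have := h.A_le i j hij hj
  unfold Tw.D
  linarith

theorem D_le (h : Bas1 c T) {i j κ : ℕ} (hij : i ≤ j) (hj : j ≤ M) (hκ : κ ≤ n)
    (hn : T.Nar i j κ) : T.D i j ≤ κ * ((j : ℝ) - i) + 2 * c := by
  have h1 := h.D_le_m hij hj
  have h2 := h.m_nar i j κ hij hj hκ hn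
  linarith

theorem C_comp (h : Bas1 c T) {i j l : ℕ} {N : Finset (Nd n)} (hij : i ≤ j) (hjl : j ≤ l)
    (hl : l ≤ M) (hN : N ⊆ T.al i) (hne : N.Nonempty) :
    T.C (T.nS j l (T.nS i j N)) ≤ T.C (T.nS i l N) :=
  h.C_mono _ _ (h.nS_ne j l _ hjl hl (h.nS_sub _ _ _) (h.nS_ne i j N hij (hjl.trans hl) hN hne))
    (h.nS_comp i j l N hij hjl hl)

theorem g_split (h : Bas1 c T) (κ : ℕ) {i j l : ℕ} {N : Finset (Nd n)} (hij : i ≤ j) (hjl : j ≤ l)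
    (hl : l ≤ M) (hN : N ⊆ T.al i) (hne : N.Nonempty) :
    T.g κ i l N ≤ T.g κ i j N + T.g κ j l (T.nS i j N) + c := by
  have hc := h.c_nonneg
  have h1 := h.m_sup i j l hij hjl hl
  have h2 := h.C_comp hij hjl hl hN hne
  have hk : (0 : ℝ) ≤ κ := Nat.cast_nonneg _
  have h3 : 0 ≤ (κ : ℝ) / (κ + 2) * (T.C (T.nS i l N) - T.C (T.nS j l (T.nS i j N))) :=
    mul_nonneg (by positivity) (by linarith)
  have h4 : 2 / ((κ : ℝ) + 2) ≤ 1 := by rw [div_le_one (by positivity)]; linarith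
  have h5 : (0 : ℝ) ≤ 2 / ((κ : ℝ) + 2) := by positivity
  have h6 : -c ≤ 2 / ((κ : ℝ) + 2) * (T.m i l - T.m i j - T.m j l) := by nlinarith
  rw [T.g_ident κ i j l N]
  linarith

end Bas1

/-- the conclusions of `tight`; `N_i = nS i₀ i N₀`, every error is `E` -/
structure Tgt (T : Tw n M) (κ i₀ j₀ : ℕ) (N₀ : Finset (Nd n)) (E : ℝ) : Prop where
  sub : ∀ i, T.nS i₀ i N₀ ⊆ T.al i
  ne : ∀ i, i₀ ≤ i → i ≤ j₀ → (T.nS i₀ i N₀).Nonempty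
  g_abs : ∀ i j, i₀ ≤ i → i ≤ j → j ≤ j₀ → |T.g κ i j (T.nS i₀ i N₀)| ≤ E
  m_add : ∀ i j l, i₀ ≤ i → i ≤ j → j ≤ l → l ≤ j₀ → T.m i l ≤ T.m i j + T.m j l + E
  C_add : ∀ i j, i₀ ≤ i → i ≤ j → j ≤ j₀ →
    T.C (T.nS i₀ j N₀) ≤ T.C (T.nS i j (T.nS i₀ i N₀)) + E
  D_add : ∀ i j l, i₀ ≤ i → i ≤ j → j ≤ l → l ≤ j₀ → |T.D i l - (T.D i j + T.D j l)| ≤ E
  D_lo : ∀ i j, i₀ ≤ i → i ≤ j → j ≤ j₀ → -E ≤ T.D i j

/-- **Tightness.** -/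
theorem tight {c e : ℝ} {T : Tw n M} (h : Bas1 c T) {κ i₀ j₀ : ℕ} {N₀ : Finset (Nd n)}
    (hκ : 1 ≤ κ) (hκn : κ ≤ n) (hj₀ : j₀ ≤ M) (hN : N₀ ⊆ T.al i₀) (hne : N₀.Nonempty)
    (he : 0 ≤ e)
    (UB : ∀ i j N, i₀ ≤ i → i ≤ j → j ≤ j₀ → N ⊆ T.al i → N.Nonempty → T.g κ i j N ≤ e)
    (LB : -e ≤ T.g κ i₀ j₀ N₀) :
    Tgt T κ i₀ j₀ N₀ (4 * ((n : ℝ) + 3) * (e + c)) := by
  have hc := h.c_nonneg
  have hk : (1 : ℝ) ≤ κ := by exact_mod_cast hκ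
  have hkn : (κ : ℝ) ≤ n := by exact_mod_cast hκn
  have hsub : ∀ i, T.nS i₀ i N₀ ⊆ T.al i := fun i => h.nS_sub _ _ _
  have hne' : ∀ i, i₀ ≤ i → i ≤ j₀ → (T.nS i₀ i N₀).Nonempty := fun i h1 h2 =>
    h.nS_ne i₀ i N₀ h1 (h2.trans hj₀) hN hne
  have hq1 : 2 / ((κ : ℝ) + 2) ≤ 1 := by rw [div_le_one (by positivity)]; linarith
  have hq0 : (0 : ℝ) ≤ 2 / ((κ : ℝ) + 2) := by positivity
  have hq3 : (1 : ℝ) / 3 ≤ (κ : ℝ) / (κ + 2) := by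
    rw [div_le_div_iff₀ (by norm_num) (by positivity)]; linarith
  have hq4 : (κ : ℝ) / (κ + 2) ≤ 1 := by rw [div_le_one (by positivity)]; linarith
  have key : ∀ i j, i₀ ≤ i → i ≤ j → j ≤ j₀ →
      -(3 * e + 2 * c) ≤ T.g κ i j (T.nS i₀ i N₀) ∧
      T.m i₀ j - T.m i₀ i - T.m i j ≤ ((n : ℝ) + 2) * (2 * e + c) ∧
      T.C (T.nS i₀ j N₀) - T.C (T.nS i j (T.nS i₀ i N₀)) ≤ 12 * e + 6 * c := by
    intro i j h1 h2 h3
    have a1 := h.g_split κ (h1.trans h2) h3 hj₀ hN hne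
    have a2 := UB j j₀ _ (h1.trans h2) h3 le_rfl (hsub j) (hne' j (h1.trans h2) h3)
    have a3 := T.g_ident κ i₀ i j N₀
    have a4 := UB i₀ i N₀ le_rfl h1 (h2.trans h3) hN hne
    have a5 := UB i j _ h1 h2 h3 (hsub i) (hne' i h1 (h2.trans h3))
    have a6 := h.m_sup i₀ i j h1 h2 (h3.trans hj₀)
    have a7 := h.C_comp h1 h2 (h3.trans hj₀) hN hne
    set x := T.m i₀ j - T.m i₀ i - T.m i j with hx
    set y := T.C (T.nS i₀ j N₀) - T.C (T.nS i j (T.nS i₀ i N₀)) with hy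
    have hx0 : -c ≤ x := by linarith
    have hy0 : 0 ≤ y := by linarith
    have b1 : -c ≤ 2 / ((κ : ℝ) + 2) * x := by nlinarith
    have b2 : y / 3 ≤ (κ : ℝ) / (κ + 2) * y := by nlinarith
    refine ⟨by linarith, ?_, by linarith⟩
    have b3 : 2 / ((κ : ℝ) + 2) * x ≤ 4 * e + c := by linarith
    rw [div_mul_eq_mul_div, div_le_iff₀ (by positivity)] at b3
    nlinarith
  have hn0 : (0 : ℝ) ≤ n := Nat.cast_nonneg _
  have hne1 : 0 ≤ (n : ℝ) * e := mul_nonneg hn0 he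
  have hnc1 : 0 ≤ (n : ℝ) * c := mul_nonneg hn0 hc
  have madd : ∀ i j l, i₀ ≤ i → i ≤ j → j ≤ l → l ≤ j₀ →
      T.m i l ≤ T.m i j + T.m j l + 4 * ((n : ℝ) + 3) * (e + c) := by
    intro i j l h1 h2 h3 h4
    have a1 := (key j l (h1.trans h2) h3 h4).2.1
    have a2 := (key i j h1 h2 (h3.trans h4)).2.1
    have a3 := h.m_sup i₀ i l h1 (h2.trans h3) (h4.trans hj₀)
    nlinarith
  refine ⟨hsub, hne', fun i j h1 h2 h3 => ?_, madd, fun i j h1 h2 h3 => ?_,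
    fun i j l h1 h2 h3 h4 => ?_, fun i j h1 h2 h3 => ?_⟩
  · have a1 := (key i j h1 h2 h3).1
    have a5 := UB i j _ h1 h2 h3 (hsub i) (hne' i h1 (h2.trans h3))
    rw [abs_le]
    constructor <;> nlinarith
  · have a1 := (key i j h1 h2 h3).2.2
    nlinarith
  · have a1 := madd i j l h1 h2 h3 h4
    have a2 := h.m_sup i j l h2 h3 (h4.trans hj₀)
    unfold Tw.D
    rw [abs_le]
    constructor <;> nlinarith
  · have a1 := (key i j h1 h2 h3).1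
    have a2 := h.Br_ge h2 (h3.trans hj₀) (hsub i) (hne' i h1 (h2.trans h3))
    rw [T.g_eq] at a1
    have a3 : -c ≤ (κ : ℝ) / (κ + 2) * T.Br i j (T.nS i₀ i N₀) := by nlinarith
    nlinarith

/-- (FL): lower bound for the cell function (`y ≤ x ≤ 2 y`, any `N`) -/
theorem Bas2.fl_gen {c : ℝ} {T : Tw n M} (h : Bas2 c T) {b x y : ℕ} {N : Finset (Nd n)}
    (hx : 1 ≤ x) (hyx : y ≤ x) (hxy : x ≤ 2 * y) (hb : b + x + 1 ≤ M) (hN : N ⊆ T.al b)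
    (hne : N.Nonempty) :
    T.Br b (b + y) N + T.D b (b + x + 1) - T.D b (b + y) - (2 * (y : ℝ) - x) - c ≤ T.Fc b x N := by
  have := h.FL b y x N hx hyx hxy hb hN hne
  unfold Tw.Br Tw.D Tw.Fc
  push_cast
  linarith

/-- (FL) with `y = ⌈x / 2⌉` -/
theorem Bas2.fl {c : ℝ} {T : Tw n M} (h : Bas2 c T) {b x : ℕ} {N : Finset (Nd n)}
    (hx : 1 ≤ x) (hb : b + x + 1 ≤ M) (hN : N ⊆ T.al b) (hne : N.Nonempty) :
    T.Br b (b + (x + 1) / 2) N + T.D b (b + x + 1) - T.D b (b + (x + 1) / 2) - 1 - c ≤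
      T.Fc b x N := by
  have h1 := h.fl_gen (y := (x + 1) / 2) hx (by omega) (by omega) hb hN hne
  have h2 : 2 * ((x + 1) / 2) ≤ x + 1 := by omega
  have h3 : 2 * (((x + 1) / 2 : ℕ) : ℝ) ≤ x + 1 := by exact_mod_cast h2
  linarith

namespace Tgt

variable {T : Tw n M} {κ i₀ j₀ : ℕ} {N₀ : Finset (Nd n)} {E : ℝ}

theorem mono (h : Tgt T κ i₀ j₀ N₀ E) {E' : ℝ} (hE : E ≤ E') : Tgt T κ i₀ j₀ N₀ E' :=
  ⟨h.sub, h.ne, fun i j h1 h2 h3 => (h.g_abs i j h1 h2 h3).trans hE,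
    fun i j l h1 h2 h3 h4 => (h.m_add i j l h1 h2 h3 h4).trans (by linarith),
    fun i j h1 h2 h3 => (h.C_add i j h1 h2 h3).trans (by linarith),
    fun i j l h1 h2 h3 h4 => (h.D_add i j l h1 h2 h3 h4).trans hE,
    fun i j h1 h2 h3 => le_trans (by linarith) (h.D_lo i j h1 h2 h3)⟩

/-- `κ Br = (κ + 2) D` up to `(κ + 2) E` -/
theorem Br_D (h : Tgt T κ i₀ j₀ N₀ E) {i j : ℕ} (h1 : i₀ ≤ i) (h2 : i ≤ j) (h3 : j ≤ j₀) :
    ((κ : ℝ) + 2) * (T.D i j - E) ≤ κ * T.Br i j (T.nS i₀ i N₀) ∧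
      κ * T.Br i j (T.nS i₀ i N₀) ≤ ((κ : ℝ) + 2) * (T.D i j + E) := by
  have a := abs_le.1 (h.g_abs i j h1 h2 h3)
  rw [T.g_eq] at a
  have hk : (0 : ℝ) < (κ : ℝ) + 2 := by positivity
  have e : (κ : ℝ) * T.Br i j (T.nS i₀ i N₀) =
      ((κ : ℝ) + 2) * ((κ : ℝ) / (κ + 2) * T.Br i j (T.nS i₀ i N₀)) := by field_simp
  rw [e]
  exact ⟨mul_le_mul_of_nonneg_left (by linarith [a.2]) hk.le,
    mul_le_mul_of_nonneg_left (by linarith [a.1]) hk.le⟩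

/-- almost monotonicity of `j ↦ D i j` -/
theorem D_mono (h : Tgt T κ i₀ j₀ N₀ E) {i j l : ℕ} (h1 : i₀ ≤ i) (h2 : i ≤ j) (h3 : j ≤ l)
    (h4 : l ≤ j₀) : T.D i j ≤ T.D i l + 2 * E := by
  have a := abs_le.1 (h.D_add i j l h1 h2 h3 h4)
  have b := h.D_lo j l (h1.trans h2) h3 h4
  linarith [a.1]

/-- (Nb): on a block where the `κ - 1` decoupling bound holds the bracket and `D` are small -/
theorem nb (h : Tgt T κ i₀ j₀ N₀ E) (hκ : 1 ≤ κ) {i j : ℕ} (h1 : i₀ ≤ i) (h2 : i ≤ j)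
    (h3 : j ≤ j₀) {e : ℝ} (he : 0 ≤ e) (hg : T.g (κ - 1) i j (T.nS i₀ i N₀) ≤ e) :
    T.Br i j (T.nS i₀ i N₀) ≤ ((κ : ℝ) + 2) ^ 2 * (e + E) ∧
      T.D i j ≤ ((κ : ℝ) + 2) ^ 2 * (e + E) + E := by
  have a := abs_le.1 (h.g_abs i j h1 h2 h3)
  have hE : 0 ≤ E := (abs_nonneg _).trans (h.g_abs i j h1 h2 h3)
  rw [T.g_eq] at a hg
  have hk : (1 : ℝ) ≤ κ := by exact_mod_cast hκ
  have e1 : ((κ - 1 : ℕ) : ℝ) = κ - 1 := by rw [Nat.cast_sub hκ]; simp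
  rw [e1] at hg
  set B := T.Br i j (T.nS i₀ i N₀) with hB
  have e2 : (κ : ℝ) / (κ + 2) * B - (κ - 1) / (κ - 1 + 2) * B =
      2 * B / (((κ : ℝ) + 1) * (κ + 2)) := by
    have : (κ : ℝ) - 1 + 2 = κ + 1 := by ring
    rw [this]
    field_simp
    ring
  have b1 : 2 * B / (((κ : ℝ) + 1) * (κ + 2)) ≤ e + E := by linarith [a.1]
  rw [div_le_iff₀ (by positivity)] at b1
  have b2 : B ≤ ((κ : ℝ) + 2) ^ 2 * (e + E) := by
    have : 0 ≤ e + E := by linarith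
    nlinarith [mul_nonneg this (show (0 : ℝ) ≤ κ + 2 by positivity),
      mul_nonneg this (show (0 : ℝ) ≤ (κ + 2) * (κ + 2) by positivity)]
  refine ⟨b2, ?_⟩
  have hq4 : (κ : ℝ) / (κ + 2) ≤ 1 := by rw [div_le_one (by positivity)]; linarith
  have hq0 : 0 ≤ (κ : ℝ) / (κ + 2) := by positivity
  have b3 : 0 ≤ ((κ : ℝ) + 2) ^ 2 * (e + E) := by positivity
  have b4 : (κ : ℝ) / (κ + 2) * B ≤ ((κ : ℝ) + 2) ^ 2 * (e + E) := by nlinarith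
  linarith [a.2]

/-- (UF): upper bound for the cell function after a broad start (multiplied by `κ`) -/
theorem uf (h : Tgt T κ i₀ j₀ N₀ E) {c₁ c₃ : ℝ} (h1 : Bas1 c₁ T) (h3 : CoreP c₃ T)
    (hκ : 1 ≤ κ) (hκn : κ ≤ n) (hj₀ : j₀ ≤ M) {b m₀ x : ℕ} (hb : i₀ ≤ b) (hm : 1 ≤ m₀)
    (hx : n * m₀ + 2 ≤ x) (hbx : b + 2 * x + 1 ≤ j₀) (hbr : ¬ T.Nar b (b + m₀) (κ - 1))
    (hnar : T.Nar b (b + 2 * x + 1) κ) :
    κ * T.Fc b x (T.nS i₀ b N₀) ≤ κ * T.Br b (b + x) (T.nS i₀ b N₀) - T.D (b + x) (b + 2 * x + 1) +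
      κ * (2 * E + n * ((n : ℝ) * m₀ + 2) + c₁ + c₃ * m₀) := by
  have hk : (1 : ℝ) ≤ κ := by exact_mod_cast hκ
  have hE : 0 ≤ E := (abs_nonneg _).trans (h.g_abs b b hb le_rfl (by omega))
  have a0 := (((h3 κ b m₀ x (2 * x) _ hκ hκn hm hx (by omega) le_rfl (by omega) (h.sub b)
    (h.ne b hb (by omega)) hbr).2 (by omega) hnar _ rfl).2 rfl)
  have a1 := h.m_add b (b + (n * m₀ + 2)) (b + x) hb (by omega) (by omega) (by omega)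
  have a2 := h.m_add (b + (n * m₀ + 2)) (b + x) (b + 2 * x + 1) (by omega) (by omega) (by omega) hbx
  have a3 := h1.m_nar b (b + (n * m₀ + 2)) n (by omega) (by omega) le_rfl (h1.nar_n _ _)
  push_cast at a0 a3
  have a4 := mul_le_mul_of_nonneg_left a0 (show (0 : ℝ) ≤ κ by linarith)
  have hk0 : (κ : ℝ) ≠ 0 := by positivity
  have e1 : (κ : ℝ) * (T.cc b x (T.nS i₀ b N₀) +
      ((κ : ℝ) + 1) / κ * T.m (b + (n * m₀ + 2)) (b + x)) =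
      κ * T.cc b x (T.nS i₀ b N₀) + ((κ : ℝ) + 1) * T.m (b + (n * m₀ + 2)) (b + x) := by
    field_simp
  have e2 : ∀ u w v : ℝ, (κ : ℝ) * (u + w / κ + v) = κ * u + w + κ * v := by
    intro u w v
    field_simp
  rw [e1, e2] at a4
  have a5 : (κ : ℝ) * T.m b (b + x) ≤ κ * (T.m (b + (n * m₀ + 2)) (b + x) + E +
      n * ((n : ℝ) * m₀ + 2) + c₁) := mul_le_mul_of_nonneg_left (by linarith) (by linarith)
  have a6 : E ≤ κ * E := by nlinarith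
  unfold Tw.Fc Tw.Br Tw.D
  push_cast
  nlinarith

/-- (Dbl): doubling, for `a u = D i₀ u` -/
theorem dbl (h : Tgt T κ i₀ j₀ N₀ E) {c₁ c₂ c₃ : ℝ} (h1 : Bas1 c₁ T) (h2 : Bas2 c₂ T)
    (h3 : CoreP c₃ T) (hκ : 1 ≤ κ) (hκn : κ ≤ n) (hj₀ : j₀ ≤ M) {b m₀ x : ℕ} (hb : i₀ ≤ b)
    (hm : 1 ≤ m₀) (hx : n * m₀ + 2 ≤ x) (hbx : b + 2 * x + 1 ≤ j₀)
    (hbr : ¬ T.Nar b (b + m₀) (κ - 1)) (hnar : T.Nar b (b + 2 * x + 1) κ) :
    T.D i₀ (b + 2 * x + 1) - T.D i₀ (b + x) ≤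
      2 * (T.D i₀ (b + x) - T.D i₀ (b + (x + 1) / 2)) + (8 * (κ : ℝ) + 9) * E +
      κ * (2 * E + n * ((n : ℝ) * m₀ + 2) + c₁ + c₃ * m₀ + 1 + c₂) := by
  have hk : (1 : ℝ) ≤ κ := by exact_mod_cast hκ
  have u := h.uf h1 h3 hκ hκn hj₀ hb hm hx hbx hbr hnar
  have l := h2.fl (b := b) (x := x) (by omega) (by omega) (h.sub b) (h.ne b hb (by omega))
  have l' := mul_le_mul_of_nonneg_left l (show (0 : ℝ) ≤ κ by linarith)
  have b1 := (h.Br_D (i := b) (j := b + x) hb (by omega) (by omega)).2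
  have b2 := (h.Br_D (i := b) (j := b + (x + 1) / 2) hb (by omega) (by omega)).1
  have d1 := abs_le.1 (h.D_add i₀ b (b + x) le_rfl hb (by omega) (by omega))
  have d2 := abs_le.1 (h.D_add i₀ b (b + (x + 1) / 2) le_rfl hb (by omega) (by omega))
  have d3 := abs_le.1 (h.D_add i₀ b (b + x + 1) le_rfl hb (by omega) (by omega))
  have d4 := h.D_mono (i := i₀) (j := b + x) (l := b + x + 1) le_rfl (by omega) (by omega) (by omega)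
  have d5 := abs_le.1 (h.D_add i₀ (b + x) (b + 2 * x + 1) le_rfl (by omega) (by omega) hbx)
  have e1 : ((κ : ℝ) + 2) * (T.D b (b + x) - T.D b (b + (x + 1) / 2)) ≤
      ((κ : ℝ) + 2) * (T.D i₀ (b + x) - T.D i₀ (b + (x + 1) / 2) + 2 * E) :=
    mul_le_mul_of_nonneg_left (by linarith [d1.1, d2.2]) (by linarith)
  have e2 : (κ : ℝ) * (T.D i₀ (b + x) - T.D i₀ (b + (x + 1) / 2) - 4 * E) ≤
      κ * (T.D b (b + x + 1) - T.D b (b + (x + 1) / 2)) :=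
    mul_le_mul_of_nonneg_left (by linarith [d3.2, d2.1]) (by linarith)
  nlinarith [d5.2]

end Tgt

end Crest.Agent.N76.L
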