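import Crest.Agent.N76.L.Cnt
import Crest.Agent.N76.II.TIDefs
import Crest.Agent.N76.II.Net
import Crest.Agent.N76.G.Iso
import Crest.Agent.N76.G.Gam

/-! # Row 76: from the abstract theorem I to `TI3`; the common reduction (helper73). -/

set_option autoImplicit false

open MeasureTheory Finset Metric
open scoped RealInnerProductSpace

namespace Crest.Agent.N76.L

open Crest.Agent.N76.Red (V)
open Crest.Agent.N76.G Crest.Agent.N76.II

variable {n M : ℕ}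

namespace Wr

/-- the support property delivered by `Build` -/
def Supp (T : Tw n M) (H : L2 n) : Prop :=
  ∀ c ∈ T.al M, ∀ E : Set (V n), (∀ᵐ ξ : V n, ξ ∉ E → H ξ = 0) →
    ∃ ξ ∈ E, ‖ξ - fq T.k M c‖ ≤ T.Λ / (T.k : ℝ) ^ M

/-- the data of a critical tower over a part of a graph -/
structure Dat (R : ℝ) (X : Finset (V n × ℝ)) (T : Tw n M) : Prop where
  sub : T.X ⊆ X
  w1 : T.w = fun _ => 1
  win : ∀ z ∈ T.X, win T.k M z.2 = T.s₀
  std : T.Std
  lo : (T.k : ℝ) ^ (2 * M - 1) ≤ R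
  hi : R < (T.k : ℝ) ^ (2 * M)

lemma tower_univ {k : ℕ} (hk : 1 ≤ k) (M : ℕ) (H : L2 n) (t : ℝ) :
    tower k (fun _ _ => Set.univ) 0 M H t = H := by
  unfold tower
  generalize M + 1 - 0 = m
  generalize (0 : ℕ) = i
  induction m generalizing i with
  | zero => rfl
  | succ m ih =>
    rw [tw, ih, lev, loc_univ]
    have : (0 : ℝ) < k := by exact_mod_cast hk
    positivity

open Classical in
lemma ms_one {α : Type*} (X : Finset α) (E : Set α) :
    ms X id (fun _ => 1) E = (X.filter fun z => z ∈ E).card := by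
  simp [ms]

lemma card_graph {X : Finset (V n × ℝ)} (hX : ∀ z ∈ X, ∀ z' ∈ X, z ≠ z' → 1 ≤ ‖z.1 - z'.1‖)
    (x : V n) {r : ℝ} (hr : 1 ≤ r) (h : ∀ z ∈ X, ‖z.1 - x‖ ≤ r) : (X.card : ℝ) ≤ (3 * r) ^ n := by
  refine (card_le_of_sep_sp X Prod.fst x (by linarith) one_pos
    (fun z hz => by rw [dist_eq_norm]; exact h z hz)
    (fun z hz z' hz' hne => by rw [dist_eq_norm]; exact hX z hz z' hz' hne)).trans ?_
  exact pow_le_pow_left₀ (by positivity) (by linarith) _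

lemma En_le_card (X : Finset (V n × ℝ)) (H : L2 n) :
    En X id (fun _ => 1) (fun _ => H) ≤ X.card * ‖H‖ ^ 2 := by
  unfold En
  rw [← nsmul_eq_mul]
  refine sum_le_card_nsmul _ _ _ fun z _ => ?_
  rw [one_mul]
  refine pow_le_pow_left₀ (norm_nonneg _) ((norm_inner_le_norm _ _).trans ?_) 2
  rw [pt, norm_gam one_pos, one_mul]

open Classical in
lemma exists_mem_box (T : Tw n M) {i : ℕ} (hi : i ≤ M) {c : Nd n} (hc : c ∈ T.al i) :
    ∃ z ∈ T.X, z ∈ box T.k T.Λ i c := by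
  have h := (T.ν0 i).trans_le (T.νc i hi c hc).1
  obtain ⟨z, hz⟩ := nonempty_of_sum_ne_zero h.ne'
  exact ⟨z, (mem_filter.1 hz).1, (mem_filter.1 hz).2⟩

lemma lg_le_iff (T : Tw n M) (hk : 2 ≤ T.k) {x e : ℝ} (hx : 0 < x) :
    T.lg x ≤ e ↔ x ≤ (T.k : ℝ) ^ e :=
  Real.logb_le_iff_le_rpow (by exact_mod_cast hk) hx

lemma le_lg_iff (T : Tw n M) (hk : 2 ≤ T.k) {x e : ℝ} (hx : 0 < x) :
    e ≤ T.lg x ↔ (T.k : ℝ) ^ e ≤ x :=
  Real.le_logb_iff_rpow_le (by exact_mod_cast hk) hx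

lemma rpow_lg (T : Tw n M) (hk : 2 ≤ T.k) {x : ℝ} (hx : 0 < x) : (T.k : ℝ) ^ T.lg x = x := by
  have : (2 : ℝ) ≤ T.k := by exact_mod_cast hk
  exact Real.rpow_logb (by linarith) (by linarith) hx

/-- the common reduction -/
theorem core (hn : 1 ≤ n) (hB : Build n) {P : Tw n M → Prop} (hP : Good n M P) {δ : ℝ}
    (hδ : 0 < δ) (hδ1 : δ ≤ 1) (hM : 2 ≤ δ * M) :
    ∃ C : ℝ, 0 ≤ C ∧ ∀ R : ℝ, 1 ≤ R → ∀ X : Finset (V n × ℝ), Graph R X → ∀ H : L2 n,
      (∀ T : Tw n M, Dat R X T → P T → T.Crit δ → Supp T H → False) →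
      En X id (fun _ => 1) (fun _ => H) ≤ C * R ^ ((n : ℝ) / (n + 1) - δ / 4) * ‖H‖ ^ 2 := by
  classical
  obtain ⟨N₀, C₀, hP⟩ := hP.and (good_std M 1 (3 ^ n))
  obtain ⟨k₀, hk₀⟩ := hB M N₀ (2 * n) C₀
  have hn1 : (1 : ℝ) ≤ n := by exact_mod_cast hn
  have hM0 : (0 : ℝ) ≤ M := Nat.cast_nonneg M
  have hM2 : (2 : ℝ) ≤ M := by nlinarith
  have hM2' : 2 ≤ M := by exact_mod_cast hM2
  set e : ℝ := (n : ℝ) / (n + 1) - δ / 4 with he
  have he0 : 0 ≤ e := by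
    have : (1 : ℝ) / 2 ≤ n / (n + 1) := by rw [div_le_div_iff₀ (by norm_num) (by linarith)]; linarith
    linarith
  have he1 : e ≤ 1 := by
    have : (n : ℝ) / (n + 1) ≤ 1 := (div_le_one (by linarith)).2 (by linarith)
    linarith
  set k₁ := max k₀ (4 ^ M) with hk₁
  refine ⟨(3 * (k₁ : ℝ) ^ (2 * M)) ^ n + 2 * (4 ^ M + 3 ^ n), by positivity, ?_⟩
  intro R hR X hX H hT
  have hRe : 1 ≤ R ^ e := Real.one_le_rpow hR he0
  set x := R ^ (1 / (2 * M : ℝ)) with hx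
  have hx1 : 1 ≤ x := Real.one_le_rpow hR (by positivity)
  have hxM : x ^ (2 * M) = R := by
    rw [hx, ← Real.rpow_natCast, ← Real.rpow_mul (by linarith)]
    push_cast
    rw [one_div_mul_cancel (by linarith), Real.rpow_one]
  set k := ⌊x⌋₊ + 1 with hk
  have hk1 : x < k := by rw [hk]; push_cast; exact Nat.lt_floor_add_one x
  have hk2 : (k : ℝ) ≤ 2 * x := by
    rw [hk]; push_cast; linarith [Nat.floor_le (by linarith : 0 ≤ x)]
  have hk0 : (1 : ℝ) ≤ k := by linarith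
  have hhi : R < (k : ℝ) ^ (2 * M) := by
    rw [← hxM]; exact pow_lt_pow_left₀ hk1 (by linarith) (by omega)
  have hup : (k : ℝ) ^ (2 * M) ≤ 4 ^ M * R := by
    rw [← hxM, show (4 : ℝ) ^ M = 2 ^ (2 * M) by rw [pow_mul]; norm_num, ← mul_pow]
    exact pow_le_pow_left₀ (by linarith) hk2 _
  have hcard : ∀ Y ⊆ X, (Y.card : ℝ) ≤ (3 * (k : ℝ) ^ (2 * M)) ^ n := fun Y hY =>
    card_graph (fun z hz z' hz' => hX.2 z (hY hz) z' (hY hz')) 0 (by linarith)
      fun z hz => by rw [sub_zero]; exact (hX.1 z (hY hz)).1.trans hhi.le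
  rcases lt_or_ge k k₁ with hkk | hkk
  · refine (En_le_card X H).trans (mul_le_mul_of_nonneg_right ?_ (by positivity))
    have h1 : (X.card : ℝ) ≤ (3 * (k₁ : ℝ) ^ (2 * M)) ^ n := by
      refine (hcard X Subset.rfl).trans ?_
      have : (k : ℝ) ≤ k₁ := by exact_mod_cast hkk.le
      gcongr
    refine h1.trans (le_trans ?_ (le_mul_of_one_le_right (by positivity) hRe))
    exact le_add_of_nonneg_right (by positivity)
  have hk4 : (4 : ℝ) ^ M ≤ k := by exact_mod_cast (le_max_right _ _).trans hkk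
  have hlo : (k : ℝ) ^ (2 * M - 1) ≤ R := by
    have h1 : (k : ℝ) * k ^ (2 * M - 1) ≤ k * R := by
      rw [← pow_succ', show 2 * M - 1 + 1 = 2 * M by omega]
      exact hup.trans (by gcongr)
    exact le_of_mul_le_mul_left h1 (by linarith)
  have key : ∀ s : ℤ, En (X.filter fun z => win k M z.2 = s) id (fun _ => 1) (fun _ => H) ≤
      (4 ^ M + 3 ^ n) * R ^ e * ‖H‖ ^ 2 := fun s => by
    set Y := X.filter fun z => win k M z.2 = s with hY
    have hYX : Y ⊆ X := filter_subset _ _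
    have hj : (∑ _z ∈ Y, (1 : ℝ)) / (k : ℝ) ^ (2 * n * M) ≤ 3 ^ n * R ^ e := by
      rw [sum_const, nsmul_eq_mul, mul_one, div_le_iff₀ (by positivity)]
      refine (hcard Y hYX).trans ?_
      rw [mul_pow, ← pow_mul, mul_right_comm 2 M n, mul_right_comm (3 ^ n : ℝ)]
      exact le_mul_of_one_le_right (by positivity) hRe
    have h := hk₀ k ((le_max_left _ _).trans hkk) Y (fun _ => 1) s (fun _ _ => zero_le_one)
      (fun z hz => ?_) (fun z hz => (mem_filter.1 hz).2) (fun _ _ => Set.univ)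
      (fun _ _ => MeasurableSet.univ) H
    swap
    · rw [mem_closedBall_zero_iff, Prod.norm_def]
      have := hX.1 z (hYX hz)
      exact (max_le this.1 this.2).trans (hhi.le.trans (pow_le_pow_right₀ hk0 (by omega)))
    simp only [tower_univ (by exact_mod_cast hk0 : 1 ≤ k)] at h
    rcases h with h | ⟨T, hTk, hTX, hTw, hTs, hC, hΛ, -, hsupp, h⟩
    · refine h.trans (mul_le_mul_of_nonneg_right (hj.trans ?_) (by positivity))
      gcongr; exact le_add_of_nonneg_left (by positivity)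
    obtain ⟨hPT, hstd, h3, -⟩ := hP T hC (by rwa [hTk])
    have hk2' : 2 ≤ T.k := le_trans (by omega) hstd.k_ge
    have hD : Dat R X T := ⟨by rw [hTX]; exact hYX, hTw,
      by rw [hTX, hTk, hTs]; exact fun z hz => (mem_filter.1 hz).2, hstd, by rwa [hTk],
      by rwa [hTk]⟩
    have hval : T.val < 2 * (n : ℝ) / (n + 1) * M - δ * M := by
      by_contra hv
      refine hT T hD hPT ⟨fun u r hr => ?_, ?_, not_lt.1 hv⟩ (by rw [Supp, hTk]; exact hsupp)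
      · rw [hTw, ms_one]
        refine (card_graph (fun z hz z' hz' => hX.2 z (hD.sub (mem_filter.1 hz).1) z'
          (hD.sub (mem_filter.1 hz').1)) u.1 hr fun z hz => ?_).trans ?_
        · rw [← dist_eq_norm]
          exact (le_max_left _ _).trans (mem_closedBall.1 (mem_filter.1 hz).2)
        · rw [mul_pow]; gcongr
      · obtain ⟨c, hc⟩ := T.ne
        obtain ⟨z, hz, hz'⟩ := exists_mem_box T (Nat.zero_le _) hc
        have h1 := (T.νc 0 (Nat.zero_le _) c hc).2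
        rw [hTw, ms_one] at h1
        have h2 : (1 : ℝ) ≤ (T.X.filter fun z => z ∈ box T.k T.Λ 0 c).card := by
          exact_mod_cast card_pos.2 ⟨z, mem_filter.2 ⟨hz, hz'⟩⟩
        rw [Tw.nu, le_lg_iff T hk2' (T.ν0 0), Real.rpow_neg_one, inv_le_iff_one_le_mul₀'
          (by rw [hTk]; linarith)]
        exact (h2.trans h1).trans (mul_le_mul_of_nonneg_right hstd.Λ_ge.2.2.2 (T.ν0 0).le)
    have hc0 : (0 : ℝ) < (T.al 0).card := by exact_mod_cast T.ne.card_pos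
    have h1 : T.a 0 * T.ν 0 * (T.al 0).card = (k : ℝ) ^ T.val := by
      rw [Tw.val, Real.rpow_add (by linarith), Real.rpow_add (by linarith), ← hTk, Tw.A, Tw.nu,
        Tw.C, rpow_lg T hk2' (T.a0 0), rpow_lg T hk2' (T.ν0 0), rpow_lg T hk2' hc0]
    have h2 : (k : ℝ) * (k : ℝ) ^ T.val ≤ 4 ^ M * R ^ e := by
      calc (k : ℝ) * (k : ℝ) ^ T.val = (k : ℝ) ^ (1 + T.val) := by
            rw [Real.rpow_add (by linarith), Real.rpow_one]
        _ ≤ (k : ℝ) ^ (((2 * M : ℕ) : ℝ) * e) := by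
            refine Real.rpow_le_rpow_of_exponent_le hk0 ?_
            push_cast
            have : 2 * (M : ℝ) * e = 2 * (n : ℝ) / (n + 1) * M - δ * M / 2 := by rw [he]; ring
            linarith
        _ ≤ (4 ^ M * R) ^ e := by
            rw [Real.rpow_mul (by linarith), Real.rpow_natCast]
            gcongr
        _ ≤ 4 ^ M * R ^ e := by
            rw [Real.mul_rpow (by positivity) (by linarith)]
            gcongr
            exact Real.rpow_le_self_of_one_le (one_le_pow₀ (by norm_num)) he1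
    rw [h1] at h
    refine h.trans (mul_le_mul_of_nonneg_right ?_ (by positivity))
    linarith
  have hsplit : En X id (fun _ => 1) (fun _ => H) =
      En (X.filter fun z => win k M z.2 = 0) id (fun _ => 1) (fun _ => H) +
      En (X.filter fun z => win k M z.2 = -1) id (fun _ => 1) (fun _ => H) := by
    unfold En
    rw [← sum_filter_add_sum_filter_not X (fun z => win k M z.2 = 0)]
    congr 2
    refine filter_congr fun z hz => ?_
    have h1 := abs_le.1 (hX.1 z hz).2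
    have h2 : win k M z.2 < 1 := by
      rw [win, Int.floor_lt, div_lt_iff₀ (by positivity)]; push_cast; linarith
    have h3 : -1 ≤ win k M z.2 := by
      rw [win, Int.le_floor, le_div_iff₀ (by positivity)]; push_cast; linarith
    omega
  rw [hsplit]
  have h0 := key 0
  have h1 := key (-1)
  have : 0 ≤ (3 * (k₁ : ℝ) ^ (2 * M)) ^ n * R ^ e * ‖H‖ ^ 2 := by positivity
  linarith

lemma Dat.facts {R : ℝ} {X : Finset (V n × ℝ)} {T : Tw n M} (h : Dat R X T) (hM : 1 ≤ M) :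
    2 ≤ T.k ∧ 100 ≤ T.Λ ∧ T.Λ * (M + 1) ≤ T.Λ ^ 2 ∧ 100 * T.Λ ^ 2 ≤ T.k ∧ (n : ℝ) ≤ T.Λ ∧
      (T.k : ℝ) ^ M ≤ R := by
  obtain ⟨h1, h2, h3, h4⟩ := h.std.Λ_ge
  have hk : 2 ≤ T.k := le_trans (by omega) h.std.k_ge
  have hn0 : (0 : ℝ) ≤ n := Nat.cast_nonneg n
  refine ⟨hk, h1, by nlinarith, le_trans ?_ h.std.2, by linarith, le_trans ?_ h.lo⟩
  · have : T.Λ ^ 10 = T.Λ ^ 8 * T.Λ ^ 2 := by ring
    rw [this]
    gcongr
    exact h1.trans (le_self_pow₀ (by linarith) (by norm_num))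
  · exact pow_le_pow_right₀ (by exact_mod_cast le_trans one_le_two hk) (by omega)

/-- a node has a frequency of the support nearby -/
lemma supp_near {T : Tw n M} {H : L2 n} (hS : Supp T H) (hk : 1 ≤ T.k) (hΛ : 0 ≤ T.Λ) {j : ℕ}
    (hj : j ≤ M) {c : Nd n} (hc : c ∈ T.al j) {E : Set (V n)}
    (hE : ∀ᵐ ξ : V n, ξ ∉ E → H ξ = 0) :
    ∃ ξ ∈ E, ‖ξ - fq T.k j c‖ ≤ T.Λ * (M + 1) / (T.k : ℝ) ^ j := by
  obtain ⟨c', hc'⟩ := T.nr_nonempty hj le_rfl hc
  obtain ⟨h1, -, h2, -⟩ := T.mem_nr.1 hc'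
  obtain ⟨ξ, hξ, h3⟩ := hS c' h1 E hE
  have hk1 : (1 : ℝ) ≤ T.k := by exact_mod_cast hk
  refine ⟨ξ, hξ, (norm_sub_le_norm_sub_add_norm_sub _ (fq T.k M c') _).trans ?_⟩
  have h4 : T.Λ / (T.k : ℝ) ^ M ≤ T.Λ / (T.k : ℝ) ^ j :=
    div_le_div_of_nonneg_left hΛ (by positivity) (pow_le_pow_right₀ hk1 hj)
  have h5 : T.Λ * ((M : ℝ) - j) / (T.k : ℝ) ^ j ≤ T.Λ * M / (T.k : ℝ) ^ j := by
    gcongr; linarith [Nat.cast_nonneg (α := ℝ) j]
  rw [mul_add, add_div, mul_one]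
  linarith

lemma exists_level {k : ℕ} (hk : 2 ≤ k) {s : ℝ} (hs : 1 ≤ s) :
    ∃ j : ℕ, s ≤ (k : ℝ) ^ j ∧ (k : ℝ) ^ j ≤ k * s ∧ ∀ e : ℝ, s ≤ (k : ℝ) ^ e → (j : ℝ) < e + 1 := by
  have hk1 : (1 : ℝ) < k := by exact_mod_cast hk
  have h0 : 0 ≤ Real.logb k s := Real.logb_nonneg hk1 hs
  have h1 := Nat.ceil_lt_add_one h0
  refine ⟨⌈Real.logb k s⌉₊, ?_, ?_, fun e he => ?_⟩
  · rw [← Real.rpow_natCast, ← Real.logb_le_iff_le_rpow hk1 (by linarith)]
    exact Nat.le_ceil _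
  · rw [← Real.rpow_natCast]
    refine (Real.rpow_le_rpow_of_exponent_le hk1.le h1.le).trans (le_of_eq ?_)
    rw [Real.rpow_add (by linarith), Real.rpow_logb (by linarith) hk1.ne' (by linarith),
      Real.rpow_one, mul_comm]
  · have := (Real.logb_le_iff_le_rpow hk1 (by linarith)).2 he
    linarith

lemma exists_nat_mul_ge {a : ℝ} (ha : 0 < a) (b : ℝ) : ∃ M₁ : ℕ, ∀ M : ℕ, M₁ ≤ M → b ≤ a * M := by
  refine ⟨⌈b / a⌉₊, fun M hM => ?_⟩
  have : b / a ≤ M := (Nat.le_ceil _).trans (by exact_mod_cast hM)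
  rwa [div_le_iff₀' ha] at this

lemma crit_mono {T : Tw n M} {δ δ' : ℝ} (h : δ ≤ δ') (hT : T.Crit δ) : T.Crit δ' :=
  ⟨hT.1, hT.2.1, le_trans (by nlinarith [Nat.cast_nonneg (α := ℝ) M]) hT.2.2⟩

/-- the conclusion of `TIa` -/
def Con (θ c η : ℝ) (T : Tw n M) : Prop :=
  (∀ j : ℕ, (j : ℝ) ≤ θ * M → ((n : ℝ) - 1) * j - η * M ≤ T.m 0 j) ∧
  (∀ j : ℕ, (j : ℝ) ≤ θ * M → T.m 0 M ≤ ((n : ℝ) - 1) * j + T.m j M + η * M) ∧
  T.C (T.al M) + ((n : ℝ) + 1) * M ≤ T.C (T.al 0) + T.m 0 M + η * M ∧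
  ∀ j₁ ≤ M, T.Nar 0 j₁ (n - 1) → ∀ j ≤ M,
    T.C (T.al 0) - lprof n M j - c * ((M : ℝ) - j₁) - η * M ≤ T.cc 0 j (T.al 0)

lemma tia' (hT : TIa n) : ∃ θ c : ℝ, 0 < θ ∧ θ ≤ 1 ∧ 0 ≤ c ∧ ∀ η : ℝ, 0 < η →
    ∃ (δ : ℝ) (M₀ : ℕ), 0 < δ ∧ ∀ M, M₀ ≤ M → Good n M fun T => T.Crit δ → Con θ c η T := by
  obtain ⟨θ, c, hθ, hc, hT⟩ := hT
  refine ⟨min θ 1, c, lt_min hθ one_pos, min_le_right _ _, hc, fun η hη => ?_⟩
  obtain ⟨δ, M₀, hδ, hT⟩ := hT η hη
  refine ⟨δ, M₀, hδ, fun M hM => (hT M hM).mono fun T h hc => ?_⟩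
  obtain ⟨h1, h2, h3⟩ := h hc
  have : min θ 1 * M ≤ θ * M := mul_le_mul_of_nonneg_right (min_le_left _ _) (Nat.cast_nonneg _)
  exact ⟨fun j hj => h1 j (hj.trans this), fun j hj => h2 j (hj.trans this), h3⟩

end Wr

open Wr in
theorem ti3_of (hB : Build n) (hT : TIa n) (hn : 1 ≤ n) : TI3 n := by
  classical
  obtain ⟨θ, c, hθ, hθ1, -, hT⟩ := tia' hT
  refine ⟨θ / 4, by positivity, fun α hα => ?_⟩
  obtain ⟨δ, M₀, hδ, hT⟩ := hT (α / 2) (by positivity)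
  have hδ' : 0 < min δ 1 := lt_min hδ one_pos
  obtain ⟨M₁, hM₁⟩ := exists_nat_mul_ge hδ' 2
  obtain ⟨M₂, hM₂⟩ := exists_nat_mul_ge (half_pos hθ) 1
  obtain ⟨M₃, hM₃⟩ := exists_nat_mul_ge (half_pos hα) (4 * n + 1)
  set M := M₀ + M₁ + M₂ + M₃ + 1 with hM
  obtain ⟨C, hC, h⟩ := core hn hB (hT M (by omega)) hδ' (min_le_right _ _) (hM₁ M (by omega))
  refine ⟨min δ 1 / 4, C, by positivity, hC, fun R hR X hX H _ s hs hsR F hF hH => ?_⟩
  refine h R hR X hX H fun T hD hP hc hS => ?_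
  obtain ⟨hk, hΛ, hΛM, hΛk, -, hkR⟩ := hD.facts (by omega)
  have hk1 : (1 : ℝ) < T.k := by exact_mod_cast hk
  obtain ⟨j, hj1, hj2, hj3⟩ := exists_level hk hs
  have hM0 : (0 : ℝ) ≤ M := Nat.cast_nonneg M
  have hjθ : (j : ℝ) ≤ θ * M := by
    have h1 := hj3 (((2 * M : ℕ) : ℝ) * (θ / 4)) (hsR.trans (by
      rw [Real.rpow_mul (by linarith), Real.rpow_natCast]
      exact Real.rpow_le_rpow (by linarith) hD.hi.le (by positivity)))
    have h2 := hM₂ M (by omega)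
    push_cast at h1
    linarith
  have h1 := (hP (crit_mono (min_le_left _ _) hc)).1
  have hjM : j ≤ M := by exact_mod_cast hjθ.trans (mul_le_of_le_one_left hM0 hθ1)
  have h2 := h1 j hjθ
  obtain ⟨c₀, hc₀⟩ := T.ne
  have h3 : ((T.nr 0 j c₀).card : ℝ) ≤ F.card * ((3 * (2 * T.k)) ^ n * (3 * T.k) ^ n) := by
    have hsub : T.nr 0 j c₀ ⊆ F.biUnion fun f => (T.nr 0 j c₀).filter
        fun c' => ‖fq T.k j c' - f‖ ≤ 2 * T.k / (T.k : ℝ) ^ j := fun c' hc' => by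
      obtain ⟨ξ, ⟨f, hf, hξ⟩, hξ'⟩ := supp_near hS (by omega) (by linarith) hjM (T.mem_nr.1 hc').1
        (E := {ξ | ∃ c ∈ F, ‖ξ - c‖ ≤ 1 / s})
        (hH.mono fun ξ h1 h2 => by by_contra h3; exact h2 (h1 h3))
      refine mem_biUnion.2 ⟨f, hf, mem_filter.2 ⟨hc', ?_⟩⟩
      refine (norm_sub_le_norm_sub_add_norm_sub _ ξ _).trans ?_
      rw [norm_sub_rev]
      have e1 : 1 / s ≤ T.k / (T.k : ℝ) ^ j := by
        rw [div_le_div_iff₀ (by linarith) (by positivity)]; linarith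
      have e2 : T.Λ * (M + 1) / (T.k : ℝ) ^ j ≤ T.k / (T.k : ℝ) ^ j := by
        gcongr; nlinarith
      rw [two_mul, add_div]; linarith
    refine (Nat.cast_le.2 ((card_le_card hsub).trans card_biUnion_le)).trans ?_
    rw [Nat.cast_sum, ← nsmul_eq_mul]
    refine sum_le_card_nsmul _ _ _ fun f _ => ?_
    refine card_nd (k := T.k) (by omega) j _ (c₀.1 / (T.k : ℤ) ^ (2 * (j - 0))) f (ctr T.k 0 c₀)
      (tm T.k 0 c₀) (by linarith) hk1.le fun c' hc' => ?_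
    obtain ⟨e1, e2⟩ := mem_filter.1 hc'
    obtain ⟨-, e3, -, e4⟩ := T.mem_nr.1 e1
    refine ⟨e3, e2, e4.trans ?_⟩
    have : (j : ℝ) ≤ M := by exact_mod_cast hjM
    gcongr
    push_cast
    nlinarith
  have h4 : T.mm 0 j ≤ (T.k : ℝ) ^ (((n : ℝ) - 1) * j - α * M + 4 * n) := by
    refine (T.mmc 0 j (Nat.zero_le _) hjM c₀ hc₀).1.trans (h3.trans ?_)
    have e1 : (F.card : ℝ) ≤ (T.k : ℝ) ^ (((n : ℝ) - 1) * j - α * M) := by
      refine hF.trans ?_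
      rw [sub_eq_add_neg, Real.rpow_add (by linarith)]
      refine mul_le_mul ?_ ?_ (by positivity) (by positivity)
      · rw [mul_comm, Real.rpow_mul (by linarith), Real.rpow_natCast,
          show (n : ℝ) - 1 = ((n - 1 : ℕ) : ℝ) by rw [Nat.cast_sub hn]; simp, Real.rpow_natCast]
        gcongr
      · rw [show -(α * M) = M * (-α) by ring, Real.rpow_mul (by linarith), Real.rpow_natCast]
        exact Real.rpow_le_rpow_of_nonpos (by positivity) hkR (by linarith)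
    have e2 : (3 * (2 * (T.k : ℝ))) ^ n * (3 * T.k) ^ n ≤ (T.k : ℝ) ^ (4 * (n : ℝ)) := by
      rw [← mul_pow, Real.rpow_mul (by linarith), Real.rpow_natCast,
        show (4 : ℝ) = (4 : ℕ) by norm_num, Real.rpow_natCast]
      gcongr
      have : (100 : ℝ) ≤ T.k := by nlinarith
      calc _ = 18 * (T.k : ℝ) ^ 2 := by ring
        _ ≤ (T.k : ℝ) ^ 2 * (T.k : ℝ) ^ 2 := by gcongr; nlinarith
        _ = _ := by ring
    rw [Real.rpow_add (by linarith)]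
    gcongr
  have h5 := (lg_le_iff T hk (lt_of_lt_of_le one_pos (T.mm1 0 j))).2 h4
  have h6 := hM₃ M (by omega)
  rw [Tw.m] at h2
  linarith

end Crest.Agent.N76.L
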