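import Crest.Agent.N76.L.WrapTI1

/-! # Row 76: the plank of a critical tower, and `TI2` (helper73). -/

set_option autoImplicit false

open MeasureTheory Finset Metric
open scoped RealInnerProductSpace

namespace Crest.Agent.N76.L

open Crest.Agent.N76.Red (V)
open Crest.Agent.N76.G Crest.Agent.N76.II

variable {n M : ℕ}

namespace Wr

open Classical in
/-- the points in the boxes of the roots -/
noncomputable def X0 (T : Tw n M) : Finset (V n × ℝ) :=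
  T.X.filter fun z => ∃ c ∈ T.al 0, z ∈ box T.k T.Λ 0 c

lemma card_al0_le {R : ℝ} {X : Finset (V n × ℝ)} {T : Tw n M} (hD : Dat R X T) (hM : 1 ≤ M) :
    ((T.al 0).card : ℝ) ≤ (T.k : ℝ) ^ (2 * n) * (X0 T).card := by
  classical
  obtain ⟨hk, hΛ, -, hΛk, -, -⟩ := hD.facts hM
  have hsub : T.al 0 ⊆ (X0 T).biUnion fun z => (T.al 0).filter fun c => z ∈ box T.k T.Λ 0 c :=
    fun c hc => by
      obtain ⟨z, hz, hz'⟩ := exists_mem_box T (Nat.zero_le _) hc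
      exact mem_biUnion.2 ⟨z, mem_filter.2 ⟨hz, c, hc, hz'⟩, mem_filter.2 ⟨hc, hz'⟩⟩
  refine (Nat.cast_le.2 ((card_le_card hsub).trans card_biUnion_le)).trans ?_
  rw [Nat.cast_sum, mul_comm, ← nsmul_eq_mul]
  refine sum_le_card_nsmul _ _ _ fun z _ => ?_
  refine (card_nd (k := T.k) (by omega) 0 _ (win T.k 0 z.2) 0 z.1 z.2 (ρ₁ := T.Λ ^ 2) (ρ₂ := T.Λ)
    (by nlinarith) (by linarith) fun c hc => ?_).trans ?_
  · obtain ⟨h1, h2, h3⟩ := mem_filter.1 hc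
    refine ⟨h2.symm, by simpa using T.fqb 0 (Nat.zero_le _) c h1, ?_⟩
    rw [norm_sub_rev]; simpa using h3
  · rw [two_mul, pow_add]
    gcongr <;> nlinarith

lemma card_X0_le {R : ℝ} {X : Finset (V n × ℝ)} (hX : Graph R X) {T : Tw n M} (hD : Dat R X T)
    (hM : 1 ≤ M) : ((X0 T).card : ℝ) ≤ (T.k : ℝ) ^ n * (T.al 0).card := by
  classical
  obtain ⟨hk, hΛ, -, hΛk, -, -⟩ := hD.facts hM
  have hsub : X0 T ⊆ (T.al 0).biUnion fun c => T.X.filter fun z => z ∈ box T.k T.Λ 0 c :=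
    fun z hz => by
      obtain ⟨hz, c, hc, hz'⟩ := mem_filter.1 hz
      exact mem_biUnion.2 ⟨c, hc, mem_filter.2 ⟨hz, hz'⟩⟩
  refine (Nat.cast_le.2 ((card_le_card hsub).trans card_biUnion_le)).trans ?_
  rw [Nat.cast_sum, mul_comm, ← nsmul_eq_mul]
  refine sum_le_card_nsmul _ _ _ fun c hc => ?_
  refine (card_graph (fun z hz z' hz' => hX.2 z (hD.sub (mem_filter.1 hz).1) z'
    (hD.sub (mem_filter.1 hz').1)) (ctr T.k 0 c) (r := 3 * T.Λ ^ 2) (by nlinarith)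
    fun z hz => ?_).trans ?_
  · have h1 := (mem_filter.1 hz).2
    have h2 := box_tm (by omega) h1
    have h3 := T.fqb 0 (Nat.zero_le _) c hc
    have h4 : ‖z.1 - ps T.k 0 c z.2‖ ≤ T.Λ := by simpa using h1.2
    have h5 : ‖ps T.k 0 c z.2 - ctr T.k 0 c‖ ≤ 2 * T.Λ ^ 2 := by
      rw [ps, sub_sub_cancel_left, norm_neg, norm_smul, Real.norm_of_nonneg (by linarith [h2.1])]
      simp only [mul_zero, pow_zero] at h2
      exact mul_le_mul (by linarith [h2.2]) h3 (norm_nonneg _) (by norm_num)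
    refine (norm_sub_le_norm_sub_add_norm_sub _ (ps T.k 0 c z.2) _).trans ?_
    nlinarith
  · gcongr; nlinarith

open Classical in
/-- the plank of a critical tower -/
theorem plank_T (hn : 1 ≤ n) (hP : Plank n) {S : ℕ} (hS : 1 ≤ S) : ∃ C : ℕ, ∀ (M j : ℕ),
    M = S * j → 1 ≤ j → ∀ (R : ℝ) (X : Finset (V n × ℝ)), Graph R X → ∀ T : Tw n M, Dat R X T →
    ∀ θ c η : ℝ, 0 ≤ η → (j : ℝ) ≤ θ * M → Con θ c η T → C * (2 * η * M + 2 * n) ≤ j →
    ∀ D : ℝ, (T.k : ℝ) ^ (C * (2 * η * M + 2 * n)) ≤ D →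
    ∃ (G : V n) (y₀ : ℝ), (T.k : ℝ) ^ (2 * M * n) ≤ D *
        ((X0 T).filter fun z => |z.2 - ⟪G, z.1⟫ - y₀| ≤ D * (T.k : ℝ) ^ M).card ∧
      ∃ L ∈ T.al M, |1 + 2 * ⟪G, fq T.k M L⟫| ≤ D / (T.k : ℝ) ^ M := by
  obtain ⟨C, hC⟩ := hP S hS
  refine ⟨C, fun M j hMj hj R X hX T hD θ c η hη hjθ hcon hCj D hDk => ?_⟩
  have hM : 1 ≤ M := by rw [hMj]; exact Nat.mul_pos hS hj
  have hjM : j ≤ M := by rw [hMj]; exact Nat.le_mul_of_pos_left _ hS
  obtain ⟨hk, hΛ, hΛM, hΛk, -, -⟩ := hD.facts hM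
  have hk1 : (1 : ℝ) < T.k := by exact_mod_cast hk
  have hk0 : (0 : ℝ) < T.k := by linarith
  have hn1 : (1 : ℝ) ≤ n := by exact_mod_cast hn
  have hM0 : (0 : ℝ) ≤ M := Nat.cast_nonneg M
  have hjM' : (j : ℝ) ≤ M := by exact_mod_cast hjM
  have hj0 : (0 : ℝ) ≤ j := Nat.cast_nonneg j
  set β : ℝ := 2 * η * M + 2 * n with hβ
  have hηM : 0 ≤ η * M := by positivity
  set B := (T.k : ℝ) ^ β with hB
  have hkB : (T.k : ℝ) ≤ B := Real.self_le_rpow_of_one_le hk1.le (by linarith)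
  have hBC : B ^ C = (T.k : ℝ) ^ (C * β) := by
    rw [hB, ← Real.rpow_natCast, ← Real.rpow_mul hk0.le, mul_comm]
  have hQS : ((T.k : ℝ) ^ j) ^ S = (T.k : ℝ) ^ M := by
    rw [← pow_mul, mul_comm, ← hMj]
  have hroot : ∀ z ∈ X0 T, ∃ c ∈ T.al 0, z ∈ box T.k T.Λ 0 c := fun z hz => (mem_filter.1 hz).2
  choose! r hr hr' using hroot
  set Φ : V n × ℝ → Finset (Fin n → ℤ) := fun z => (T.nr 0 j (r z)).image fun c => c.2.2 with hΦ
  have hch : ∀ z, ∀ p ∈ Φ z, ∃ c' ∈ T.nr 0 j (r z), c'.2.2 = p := fun z p hp => mem_image.1 hp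
  choose! ch hch hch' using hch
  have hΛM' : T.Λ * (M + 1) ≤ T.k := by nlinarith
  have hpow : ∀ x : ℝ, ((T.k : ℝ) ^ j) ^ (n - 1) = (T.k : ℝ) ^ (((n : ℝ) - 1) * j) := fun _ => by
    rw [mul_comm, Real.rpow_mul hk0.le, Real.rpow_natCast,
      show (n : ℝ) - 1 = ((n - 1 : ℕ) : ℝ) by rw [Nat.cast_sub hn]; simp, Real.rpow_natCast]
  have hmm : ∀ i l, 0 < T.mm i l := fun i l => lt_of_lt_of_le one_pos (T.mm1 i l)
  refine Exists.elim (hC ((T.k : ℝ) ^ j) B (T.s₀ * (T.k : ℝ) ^ (2 * M))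
    (T.mm j M) (by linarith [show (2 : ℝ) ≤ T.k by exact_mod_cast hk])
    (by rw [hBC, ← Real.rpow_natCast]; exact Real.rpow_le_rpow_of_exponent_le hk1.le hCj)
    (hmm j M) (Nd n) (Fin n → ℤ) (X0 T) (T.al M) (fun L => ps T.k M L 0) (fun L => fq T.k M L)
    (fun p => ((T.k : ℝ) ^ j)⁻¹ • iv p) Φ (fun z p => T.nr j M (ch z p)) ?_ ?_ ?_ ?_ ?_ ?_ ?_ ?_)
    fun G ⟨y₀, _, h1, L, hL, h2⟩ => ?_
  rotate_right
  · have hBD : B ^ C ≤ D := by rw [hBC]; exact hDk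
    have hB0 : 0 ≤ B ^ C := by positivity
    rw [hQS] at h1 h2
    refine ⟨G, y₀, ?_, L, hL, h2.trans (by gcongr)⟩
    rw [← pow_mul, ← pow_mul, ← mul_assoc, mul_comm M 2] at h1
    refine h1.trans (mul_le_mul hBD (Nat.cast_le.2 (card_le_card ?_)) (Nat.cast_nonneg _)
      (hB0.trans hBD))
    exact monotone_filter_right _ fun z _ hz => hz.trans (by gcongr)
  · obtain ⟨c, hc⟩ := T.ne
    obtain ⟨z, hz, hz'⟩ := exists_mem_box T (Nat.zero_le _) hc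
    exact ⟨z, mem_filter.2 ⟨hz, c, hc, hz'⟩⟩
  · intro z hz
    have hz1 := (mem_filter.1 hz).1
    rw [hQS, ← pow_mul, mul_comm M 2]
    have hw := hD.win z hz1
    have e1 := Int.floor_le (z.2 / (T.k : ℝ) ^ (2 * M))
    have e2 := Int.lt_floor_add_one (z.2 / (T.k : ℝ) ^ (2 * M))
    rw [← win, hw] at e1 e2
    rw [le_div_iff₀ (by positivity)] at e1
    rw [div_lt_iff₀ (by positivity)] at e2
    refine ⟨((hX.1 z (hD.sub hz1)).1.trans hD.hi.le).trans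
      (le_mul_of_one_le_left (by positivity) (by linarith)), e1, by linarith⟩
  · exact fun z hz z' hz' => hX.2 z (hD.sub (mem_filter.1 hz).1) z' (hD.sub (mem_filter.1 hz').1)
  · exact fun L hL => (T.fqb M le_rfl L hL).trans (by nlinarith)
  · intro z hz
    have e1 : ((T.nr 0 j (r z)).card : ℝ) ≤ (Φ z).card * (T.k : ℝ) ^ n := by
      refine card_le_image_mul _ _ fun p _ => ?_
      refine (card_nd_cap (k := T.k) (by omega) j _ ((r z).1 / (T.k : ℤ) ^ (2 * (j - 0))) p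
        (ctr T.k 0 (r z)) (tm T.k 0 (r z)) (ρ := T.Λ * (M + 1)) (by nlinarith)
        fun c hc => ?_).trans ?_
      · obtain ⟨e1, e2⟩ := mem_filter.1 hc
        obtain ⟨-, e3, -, e4⟩ := T.mem_nr.1 e1
        refine ⟨e3, e2, e4.trans ?_⟩
        gcongr
        push_cast; linarith
      · gcongr; nlinarith
    have e2 := (le_lg_iff T hk (hmm 0 j)).1 (hcon.1 j hjθ)
    have e3 := (T.mmc 0 j (Nat.zero_le _) hjM _ (hr z hz)).1
    have e4 : (T.k : ℝ) ^ (((n : ℝ) - 1) * j) =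
        (T.k : ℝ) ^ (η * M) * (T.k : ℝ) ^ (((n : ℝ) - 1) * j - η * M) := by
      rw [← Real.rpow_add hk0]; congr 1; ring
    have e5 : (T.k : ℝ) ^ (η * M) * (T.k : ℝ) ^ n ≤ B := by
      rw [← Real.rpow_natCast, ← Real.rpow_add hk0]
      exact Real.rpow_le_rpow_of_exponent_le hk1.le (by linarith)
    rw [hpow 0, e4]
    calc _ ≤ (T.k : ℝ) ^ (η * M) * ((Φ z).card * (T.k : ℝ) ^ n) :=
          mul_le_mul_of_nonneg_left (e2.trans (e3.trans e1)) (by positivity)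
      _ = (T.k : ℝ) ^ (η * M) * (T.k : ℝ) ^ n * (Φ z).card := by ring
      _ ≤ _ := by gcongr
  · intro z _ p _ p' _ hne
    rw [← smul_sub, norm_smul, Real.norm_of_nonneg (by positivity), one_div]
    exact le_mul_of_one_le_right (by positivity) (one_le_norm_iv_sub hne)
  · intro z hz p hp
    obtain ⟨e1, e2⟩ := T.mem_nr.1 (hch z p hp)
    refine ⟨fun L hL => (T.mem_nr.1 hL).1, (T.mmc j M hjM le_rfl _ e1).1, fun L hL => ?_⟩
    obtain ⟨-, e3⟩ := T.mem_nr.1 hL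
    constructor
    · have e4 := e3.2.1
      rw [fq, fq, hch' z p hp] at e4
      refine e4.trans ?_
      gcongr; nlinarith
    · have hkM := hD.std.k_ge
      have e4 := box_mono (by linarith) (Nat.zero_le M) (by omega)
        (Nr.trans (by linarith) (Nat.zero_le j) hjM (by omega) e2 e3) (hr' z hz)
      have e5 := e4.2
      rw [ps_sub _ _ _ _ 0, sub_zero] at e5
      rw [hQS]
      refine e5.trans ?_
      gcongr; linarith
  · have hcM : (0 : ℝ) < (T.al M).card := by exact_mod_cast (T.al_nonempty le_rfl).card_pos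
    have hc0 : (0 : ℝ) < (T.al 0).card := by exact_mod_cast T.ne.card_pos
    have e1 : T.C (T.al M) + ((n : ℝ) + 1) * M ≤
        T.C (T.al 0) + 2 * η * M + T.m j M + ((n : ℝ) - 1) * j := by
      linarith [hcon.2.1 j hjθ, hcon.2.2.1]
    have e2 := Real.rpow_le_rpow_of_exponent_le hk1.le e1
    rw [Real.rpow_add hk0, Real.rpow_add hk0, Real.rpow_add hk0, Real.rpow_add hk0, Tw.C, Tw.C,
      Tw.m, rpow_lg T hk hcM, rpow_lg T hk hc0, rpow_lg T hk (hmm j M)] at e2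
    rw [hQS, hpow 0, ← pow_mul, ← Real.rpow_natCast]
    push_cast
    rw [mul_comm (M : ℝ)]
    refine e2.trans ?_
    refine mul_le_mul_of_nonneg_right (mul_le_mul_of_nonneg_right ?_ (hmm j M).le) (by positivity)
    rw [hB, hβ, Real.rpow_add hk0, mul_comm ((T.al 0).card : ℝ), mul_assoc _ _ ((X0 T).card : ℝ)]
    refine mul_le_mul_of_nonneg_left ?_ (by positivity)
    have := card_al0_le hD hM
    rw [← Real.rpow_natCast] at this
    push_cast at this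
    exact this

/-- choice of the parameters for the plank lemma -/
lemma params {θ ε : ℝ} (hθ : 0 < θ) (hε : 0 < ε) :
    ∃ S : ℕ, 1 ≤ S ∧ ∀ C n : ℕ, ∃ η₀ : ℝ, 0 < η₀ ∧ ∃ j₀ : ℕ, ∀ η : ℝ, η ≤ η₀ → ∀ j M : ℕ,
      j₀ ≤ j → M = S * j → (j : ℝ) ≤ θ * M ∧ C * (2 * η * M + 2 * n) ≤ j ∧
        C * (2 * η * M + 2 * n) ≤ ε * M := by
  obtain ⟨S₀, hS₀⟩ := exists_nat_mul_ge hθ 1
  refine ⟨S₀ + 1, by omega, fun C n => ?_⟩
  set S := S₀ + 1 with hS
  have hS1 : (1 : ℝ) ≤ S := by rw [hS]; push_cast; linarith [Nat.cast_nonneg (α := ℝ) S₀]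
  have hC0 : (0 : ℝ) ≤ C := Nat.cast_nonneg C
  set ε' := min ε (1 / S) with hε'
  have hε'0 : 0 < ε' := lt_min hε (by positivity)
  obtain ⟨j₀, hj₀⟩ := exists_nat_mul_ge (half_pos hε'0) (C * (2 * n))
  refine ⟨ε' / (4 * (C + 1)), by positivity, j₀, fun η hη j M hj hM => ?_⟩
  have hj0 : (0 : ℝ) ≤ j := Nat.cast_nonneg j
  have hM' : (M : ℝ) = S * j := by rw [hM]; push_cast; ring
  have hM0 : (0 : ℝ) ≤ M := Nat.cast_nonneg M
  have h1 := hj₀ M (hj.trans (by rw [hM]; exact Nat.le_mul_of_pos_left _ (by omega)))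
  have h2 : C * (2 * η * M) ≤ ε' / 2 * M := by
    have : C * (2 * η) ≤ ε' / 2 := by
      refine (mul_le_mul_of_nonneg_left (by linarith : 2 * η ≤ 2 * (ε' / (4 * (C + 1)))) hC0).trans ?_
      rw [← mul_div_assoc, ← mul_div_assoc, div_le_div_iff₀ (by positivity) (by norm_num)]
      nlinarith
    nlinarith
  have h3 : C * (2 * η * M + 2 * n) ≤ ε' * M := by rw [mul_add]; linarith
  refine ⟨?_, h3.trans ?_, h3.trans (mul_le_mul_of_nonneg_right (min_le_left _ _) hM0)⟩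
  · rw [hM', ← mul_assoc]
    exact le_mul_of_one_le_left hj0 (hS₀ S (by omega))
  · refine (mul_le_mul_of_nonneg_right (min_le_right _ _) hM0).trans (le_of_eq ?_)
    rw [hM']; field_simp

lemma sqrt_bounds {R : ℝ} {X : Finset (V n × ℝ)} {T : Tw n M} (hD : Dat R X T) (hM : 1 ≤ M) :
    Real.sqrt R ≤ (T.k : ℝ) ^ M ∧ (T.k : ℝ) ^ M ≤ T.k * Real.sqrt R := by
  have hk1 : (1 : ℝ) ≤ T.k := by exact_mod_cast le_trans one_le_two (hD.facts hM).1
  constructor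
  · rw [Real.sqrt_le_left (by positivity), ← pow_mul, mul_comm]; exact hD.hi.le
  · have : (T.k : ℝ) ^ (M - 1) ≤ Real.sqrt R := by
      refine Real.le_sqrt_of_sq_le ?_
      rw [← pow_mul]
      exact (pow_le_pow_right₀ hk1 (by omega)).trans hD.lo
    calc (T.k : ℝ) ^ M = T.k * T.k ^ (M - 1) := by rw [← pow_succ']; congr 1; omega
      _ ≤ _ := by gcongr

lemma aux1 {Λ D k : ℝ} (hΛ : 100 ≤ Λ) (hD : 1 ≤ D) (hk : 100 * Λ ^ 2 ≤ k) (hk1 : 1 ≤ k) :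
    Λ + 2 * Λ ^ 2 * D ≤ D * k * k := by
  have e3 : Λ ≤ Λ ^ 2 := by nlinarith
  have e4 : Λ ^ 2 ≤ Λ ^ 2 * D := le_mul_of_one_le_right (by positivity) hD
  have e5 : 3 * Λ ^ 2 * D ≤ D * k := by nlinarith
  have e6 : D * k ≤ D * k * k := le_mul_of_one_le_right (by positivity) hk1
  linarith

end Wr

open Wr in
theorem ti2_of (hB : Build n) (hT : TIa n) (hP : Plank n) (hn : 1 ≤ n) : TI2 n := by
  classical
  obtain ⟨θ, c, hθ, -, -, hT⟩ := tia' hT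
  intro α hα
  obtain ⟨S, hS, hpar⟩ := params hθ (lt_min (half_pos hα) (by norm_num : (0 : ℝ) < 1 / 2))
  obtain ⟨C₁, hpl⟩ := plank_T hn hP hS
  obtain ⟨η, hη, j₀, hpar⟩ := hpar C₁ n
  obtain ⟨δ, M₀, hδ, hT⟩ := hT η hη
  have hδ' : 0 < min δ 1 := lt_min hδ one_pos
  obtain ⟨M₁, hM₁⟩ := exists_nat_mul_ge hδ' 2
  obtain ⟨M₂, hM₂⟩ := exists_nat_mul_ge (half_pos hα) 2
  set j := M₀ + M₁ + M₂ + j₀ + 2 with hj
  set M := S * j with hM
  have hjM : j ≤ M := Nat.le_mul_of_pos_left _ hS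
  obtain ⟨C, hC, h⟩ := core hn hB (hT M (by omega)) hδ' (min_le_right _ _) (hM₁ M (by omega))
  refine ⟨min δ 1 / 4, C, by positivity, hC, fun R hR X hX H _ hH => ?_⟩
  refine h R hR X hX H fun T hD hcon hc hS' => ?_
  obtain ⟨hk, hΛ, hΛM, hΛk, -, hkR⟩ := hD.facts (by omega)
  have hk1 : (1 : ℝ) < T.k := by exact_mod_cast hk
  have hk0 : (0 : ℝ) < T.k := by linarith
  obtain ⟨p1, p2, p3⟩ := hpar η le_rfl j M (by omega) hM
  set e := min (α / 2) (1 / 2) * M with he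
  have hM0 : (0 : ℝ) ≤ M := Nat.cast_nonneg M
  have hM2 : (2 : ℝ) ≤ M := by exact_mod_cast (show 2 ≤ M by omega)
  have he1 : e ≤ α / 2 * M := mul_le_mul_of_nonneg_right (min_le_left _ _) hM0
  have he2 : e ≤ 1 / 2 * M := mul_le_mul_of_nonneg_right (min_le_right _ _) hM0
  set D := (T.k : ℝ) ^ e with hDdef
  have hD1 : 1 ≤ D := Real.one_le_rpow hk1.le (by positivity)
  obtain ⟨G, y₀, h1, L, hL, h2⟩ := hpl M j hM (by omega) R X hX T hD θ c η hη.le p1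
    (hcon (crit_mono (min_le_left _ _) hc)) p2 D (Real.rpow_le_rpow_of_exponent_le hk1.le p3)
  have hDk : D * T.k ≤ (T.k : ℝ) ^ M := by
    rw [hDdef, ← Real.rpow_add_one hk0.ne', ← Real.rpow_natCast]
    exact Real.rpow_le_rpow_of_exponent_le hk1.le (by linarith)
  have hDα : D * T.k * T.k ≤ R ^ α := by
    rw [hDdef, ← Real.rpow_add_one hk0.ne', ← Real.rpow_add_one hk0.ne']
    refine le_trans (Real.rpow_le_rpow_of_exponent_le hk1.le (show _ ≤ M * α by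
      linarith [hM₂ M (by omega)])) ?_
    rw [Real.rpow_mul hk0.le, Real.rpow_natCast]
    gcongr
  obtain ⟨s1, s2⟩ := sqrt_bounds hD (by omega)
  have hs0 : 0 < Real.sqrt R := Real.sqrt_pos.2 (by linarith)
  have hζ := T.fqb M le_rfl L hL
  have hG : 1 ≤ 4 * T.Λ ^ 2 * ‖G‖ := by
    have e1 : D / (T.k : ℝ) ^ M ≤ 1 / 2 := by
      rw [div_le_div_iff₀ (by positivity) (by norm_num)]
      have : (2 : ℝ) ≤ T.k := by exact_mod_cast hk
      have := mul_le_mul_of_nonneg_left this (by linarith : 0 ≤ D)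
      linarith
    have e2 := abs_le.1 (h2.trans e1)
    have e3 := abs_real_inner_le_norm G (fq T.k M L)
    have e4 := neg_abs_le ⟪G, fq T.k M L⟫
    linarith [mul_le_mul_of_nonneg_left hζ (norm_nonneg G)]
  have hG0 : 0 < ‖G‖ := by
    by_contra h0
    rw [le_antisymm (not_lt.1 h0) (norm_nonneg _)] at hG
    linarith
  have hGi : ‖G‖⁻¹ ≤ 4 * T.Λ ^ 2 := by rw [inv_le_iff_one_le_mul₀ hG0]; exact hG
  have hν : ‖‖G‖⁻¹ • G‖ = 1 := norm_smul_inv_norm (norm_pos_iff.1 hG0)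
  have h3 := hH (‖G‖⁻¹ • G) (-(‖G‖⁻¹ / 2)) (-(‖G‖⁻¹ * y₀)) hν (by
    rw [ms_one]
    have e1 : R ^ ((n : ℝ) - α) ≤ ((X0 T).filter
        fun z => |z.2 - ⟪G, z.1⟫ - y₀| ≤ D * (T.k : ℝ) ^ M).card := by
      rw [Real.rpow_sub (by linarith), div_le_iff₀' (by positivity), Real.rpow_natCast]
      refine le_trans ?_ (h1.trans ?_)
      · rw [pow_mul]; exact pow_le_pow_left₀ (by linarith) hD.hi.le _
      · gcongr
        exact le_trans (le_mul_of_one_le_right (by positivity) (one_le_mul_of_one_le_of_one_le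
          hk1.le hk1.le)) (by rw [← mul_assoc]; exact hDα)
    refine e1.trans (Nat.cast_le.2 (card_le_card fun z hz => ?_))
    obtain ⟨hz1, hz2⟩ := mem_filter.1 hz
    refine mem_filter.2 ⟨hD.sub (mem_filter.1 hz1).1, ?_⟩
    simp only [plank, Set.mem_ofPred_eq, real_inner_smul_left]
    rw [show ‖G‖⁻¹ * ⟪G, z.1⟫ + 2 * -(‖G‖⁻¹ / 2) * z.2 - -(‖G‖⁻¹ * y₀) =
      -(‖G‖⁻¹ * (z.2 - ⟪G, z.1⟫ - y₀)) by ring, abs_neg, abs_mul, abs_of_pos (by positivity)]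
    calc _ ≤ T.k * (D * (T.k * Real.sqrt R)) :=
          mul_le_mul (hGi.trans (by linarith [sq_nonneg T.Λ])) (hz2.trans (by gcongr))
            (abs_nonneg _) hk0.le
      _ = D * T.k * T.k * Real.sqrt R := by ring
      _ ≤ _ := by gcongr)
  obtain ⟨ξ, hξ, h4⟩ := hS' L hL {ξ | ¬ |⟪‖G‖⁻¹ • G, ξ⟫ - -(‖G‖⁻¹ / 2)| ≤ R ^ α / Real.sqrt R}
    (h3.mono fun ξ h hξ => h (not_not.1 hξ))
  refine hξ ?_
  have e1 : ⟪‖G‖⁻¹ • G, ξ⟫ - -(‖G‖⁻¹ / 2) =
      ⟪‖G‖⁻¹ • G, ξ - fq T.k M L⟫ + ‖G‖⁻¹ / 2 * (1 + 2 * ⟪G, fq T.k M L⟫) := by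
    rw [inner_sub_right, real_inner_smul_left G (fq T.k M L)]; ring
  have e2 : |⟪‖G‖⁻¹ • G, ξ - fq T.k M L⟫| ≤ T.Λ / (T.k : ℝ) ^ M := by
    refine (abs_real_inner_le_norm _ _).trans ?_
    rw [hν, one_mul]; exact h4
  have e3 : |‖G‖⁻¹ / 2 * (1 + 2 * ⟪G, fq T.k M L⟫)| ≤ 2 * T.Λ ^ 2 * (D / (T.k : ℝ) ^ M) := by
    rw [abs_mul, abs_of_pos (by positivity)]
    exact mul_le_mul (by linarith) h2 (abs_nonneg _) (by positivity)
  rw [e1]
  refine (abs_add_le _ _).trans ((add_le_add e2 e3).trans ?_)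
  rw [← mul_div_assoc, ← add_div]
  refine div_le_div₀ (by positivity) (le_trans ?_ hDα) hs0 s1
  exact aux1 hΛ hD1 hΛk hk1.le

end Crest.Agent.N76.L
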